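import Vale.Agent.P032.Null

/-!
P032, part 5: what connected interfaces through a point `z` force on the unit circle about `z`.
-/

namespace Vale.P032

open Set Filter Topology Metric

/-- The two open sides of the unit circle about `z`. -/
def side (z : ℂ) : Bool → Set ℂ
  | true => {q | dist q z < 1}
  | false => {q | 1 < dist q z}

lemma isOpen_side (z : ℂ) (σ : Bool) : IsOpen (side z σ) := by
  cases σ
  · exact isOpen_lt continuous_const (continuous_id.dist continuous_const)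
  · exact isOpen_lt (continuous_id.dist continuous_const) continuous_const

/-- Polar coordinates about `z`. -/
noncomputable def pol (z : ℂ) (r φ : ℝ) : ℂ := z + (r : ℂ) * cs φ

lemma pol_one (z : ℂ) (φ : ℝ) : pol z 1 φ = z + cs φ := by simp [pol]

lemma norm_cs (φ : ℝ) : ‖cs φ‖ = 1 := by
  rw [Complex.norm_eq_sqrt_sq_add_sq, cs_re, cs_im, Real.cos_sq_add_sin_sq, Real.sqrt_one]

lemma dist_cs (z : ℂ) (φ : ℝ) : dist (z + cs φ) z = 1 := by
  rw [dist_eq_norm]; simp [norm_cs]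

lemma dist_pol {r : ℝ} (hr : 0 ≤ r) (z : ℂ) (φ : ℝ) : dist (pol z r φ) z = r := by
  rw [dist_eq_norm]; simp [pol, norm_cs, abs_of_nonneg hr]

lemma continuous_pol (z : ℂ) : Continuous fun x : ℝ × ℝ => pol z x.1 x.2 := by
  have h : Continuous fun x : ℝ × ℝ => z + cs x.2 := (continuous_circle z).comp continuous_snd
  have : (fun x : ℝ × ℝ => pol z x.1 x.2)
      = fun x => z + (x.1 : ℂ) * ((z + cs x.2) - z) := by funext x; simp [pol]
  rw [this]
  fun_prop

/-- A small polar box inside a neighbourhood of a point of the circle. -/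
lemma exists_box (z : ℂ) (θ : ℝ) {O : Set ℂ} (hO : O ∈ 𝓝 (z + cs θ)) :
    ∃ η, 0 < η ∧ η < 1 ∧ ∀ r φ, |r - 1| < η → |φ - θ| < η → pol z r φ ∈ O := by
  obtain ⟨δ, hδ, hb⟩ := Metric.mem_nhds_iff.1
    ((continuous_pol z).continuousAt.preimage_mem_nhds (x := ((1 : ℝ), θ))
      (by simpa [pol_one] using hO))
  refine ⟨min δ (1 / 2), lt_min hδ (by norm_num), lt_of_le_of_lt (min_le_right _ _) (by norm_num),
    fun r φ hr hφ => @hb (r, φ) ?_⟩
  rw [mem_ball, Prod.dist_eq, max_lt_iff, Real.dist_eq, Real.dist_eq]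
  exact ⟨hr.trans_le (min_le_left _ _), hφ.trans_le (min_le_left _ _)⟩

/-- The radial interval of a side. -/
def radial (σ : Bool) (η : ℝ) : Set ℝ := if σ then Ioo (1 - η) 1 else Ioo 1 (1 + η)

lemma pol_mem_side {z : ℂ} {σ : Bool} {η r : ℝ} (hη : η < 1) (hr : r ∈ radial σ η) (φ : ℝ) :
    pol z r φ ∈ side z σ ∧ |r - 1| < η := by
  cases σ <;> simp only [radial, Bool.false_eq_true, ↓reduceIte, Set.mem_Ioo] at hr
  · refine ⟨show 1 < dist (pol z r φ) z from ?_, abs_lt.2 ⟨by linarith, by linarith⟩⟩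
    rw [dist_pol (by linarith)]; exact hr.1
  · refine ⟨show dist (pol z r φ) z < 1 from ?_, abs_lt.2 ⟨by linarith, by linarith⟩⟩
    rw [dist_pol (by linarith)]; exact hr.2

lemma one_mem_closure_radial (σ : Bool) {η : ℝ} (hη : 0 < η) :
    (1 : ℝ) ∈ closure (radial σ η) := by
  cases σ <;> simp only [radial, Bool.false_eq_true, ↓reduceIte]
  · rw [closure_Ioo (by linarith)]; constructor <;> linarith
  · rw [closure_Ioo (by linarith)]; constructor <;> linarith

lemma radial_nonempty (σ : Bool) {η : ℝ} (hη : 0 < η) : (radial σ η).Nonempty :=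
  closure_nonempty_iff.1 ⟨1, one_mem_closure_radial σ hη⟩

lemma pol_mem_closure {z : ℂ} {σ : Bool} {η : ℝ} (hη : 0 < η) {φ : ℝ} {Y : Set ℂ}
    (h : ∀ r ∈ radial σ η, pol z r φ ∈ Y) : z + cs φ ∈ closure Y := by
  rw [← pol_one]
  exact map_mem_closure (f := fun r => pol z r φ)
    ((continuous_pol z).comp (continuous_id.prodMk continuous_const))
    (one_mem_closure_radial σ hη) h

lemma side_ball_nonempty (z : ℂ) (θ : ℝ) (σ : Bool) {ε : ℝ} (hε : 0 < ε) :
    (ball (z + cs θ) ε ∩ side z σ).Nonempty := by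
  obtain ⟨η, hη, hη1, hb⟩ := exists_box z θ (ball_mem_nhds _ hε)
  obtain ⟨r, hr⟩ := radial_nonempty σ hη
  obtain ⟨h1, h2⟩ := pol_mem_side (z := z) hη1 hr θ
  exact ⟨_, hb r θ h2 (by simp [hη]), h1⟩

/-- A point at distance 1 from `q` on a given side, near a common point of the two circles. -/
lemma exists_partner {z q P : ℂ} (hqP : dist q P = 1) (hPz : dist P z = 1) (hne : q ≠ z)
    (h2 : dist q z < 2) (σ : Bool) {O : Set ℂ} (hO : O ∈ 𝓝 P) :
    ∃ y ∈ O, y ∈ side z σ ∧ dist q y = 1 := by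
  set w := P - q with hw
  set d := q - z with hd
  have hwn : ‖w‖ = 1 := by rw [hw, ← dist_eq_norm, dist_comm]; exact hqP
  have hdw : ‖d + w‖ = 1 := by rw [hd, hw, ← hPz, dist_eq_norm]; congr 1; ring
  set a := d.re * w.re + d.im * w.im with ha
  set b := d.re * w.im - d.im * w.re with hb
  have hw2 : w.re ^ 2 + w.im ^ 2 = 1 := by
    rw [← show ‖w‖ ^ 2 = 1 by rw [hwn, one_pow], ← Complex.normSq_eq_norm_sq,
      Complex.normSq_apply]; ring
  have hdw2 : (d.re + w.re) ^ 2 + (d.im + w.im) ^ 2 = 1 := by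
    rw [← show ‖d + w‖ ^ 2 = 1 by rw [hdw, one_pow], ← Complex.normSq_eq_norm_sq,
      Complex.normSq_apply]; simp; ring
  have hD : 0 < d.re ^ 2 + d.im ^ 2 := by
    have : 0 < Complex.normSq d := Complex.normSq_pos.2 (sub_ne_zero.2 hne)
    rw [Complex.normSq_apply] at this; nlinarith
  have hD4 : d.re ^ 2 + d.im ^ 2 < 4 := by
    have h := dist_nonneg (x := q) (y := z)
    have : dist q z ^ 2 < 4 := by nlinarith
    rwa [dist_sq, ← Complex.sub_re, ← Complex.sub_im, ← hd] at this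
  have hb0 : b ≠ 0 := by
    intro h0
    have : a ^ 2 + b ^ 2 = (d.re ^ 2 + d.im ^ 2) := by
      rw [ha, hb]; linear_combination (d.re ^ 2 + d.im ^ 2) * hw2
    have ha' : 2 * a = -(d.re ^ 2 + d.im ^ 2) := by rw [ha]; linear_combination hdw2 - hw2
    rw [h0] at this
    nlinarith
  let y : ℝ → ℂ := fun h => q + w * ((0 : ℂ) + cs h)
  have hy : Continuous y := by
    have := continuous_circle 0
    fun_prop
  have hy0 : y 0 = P := by
    simp only [y, hw]
    have : cs 0 = 1 := by apply Complex.ext <;> simp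
    rw [this]; ring
  have hyd : ∀ h, dist q (y h) = 1 := fun h => by
    simp [y, dist_eq_norm, norm_cs, hwn]
  have hyz : ∀ h, dist (y h) z ^ 2
      = 1 + (d.re ^ 2 + d.im ^ 2) * (1 - Real.cos h) - 2 * b * Real.sin h := by
    intro h
    rw [dist_sq, ← Complex.sub_re, ← Complex.sub_im,
      show y h - z = d + w * cs h by simp only [y, hd]; ring]
    simp only [Complex.add_re, Complex.add_im, Complex.mul_re, Complex.mul_im, cs_re, cs_im, hb]
    linear_combination (w.re ^ 2 + w.im ^ 2) * Real.sin_sq_add_cos_sq h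
      + (1 - Real.cos h) * hw2 + Real.cos h * hdw2
  obtain ⟨δ, hδ, hball⟩ := Metric.mem_nhds_iff.1
    (hy.continuousAt.preimage_mem_nhds (x := (0 : ℝ)) (hy0 ▸ hO))
  obtain ⟨τ, hτ, hτδ, hτ1, hτb⟩ : ∃ τ : ℝ, 0 < τ ∧ τ < δ ∧ τ ≤ 1 ∧ τ < |b| / 4 := by
    refine ⟨min (δ / 2) (min 1 (|b| / 8)),
      lt_min (by linarith) (lt_min one_pos (by positivity)),
      lt_of_le_of_lt (min_le_left _ _) (by linarith),
      (min_le_right _ _).trans (min_le_left _ _),
      lt_of_le_of_lt ((min_le_right _ _).trans (min_le_right _ _)) ?_⟩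
    have := abs_pos.2 hb0
    linarith
  have hc := Real.one_sub_sq_div_two_le_cos (x := τ)
  have hs : τ / 2 ≤ Real.sin τ := by
    refine le_trans ?_ (Real.mul_le_sin hτ.le (by linarith [Real.two_le_pi]))
    have h' : 1 / 2 ≤ 2 / Real.pi := by
      rw [div_le_div_iff₀ (by norm_num) Real.pi_pos]; linarith [Real.pi_le_four]
    nlinarith
  have hsmall : (d.re ^ 2 + d.im ^ 2) * (1 - Real.cos τ) < 2 * |b| * Real.sin τ := by
    have h1 : (d.re ^ 2 + d.im ^ 2) * (1 - Real.cos τ) ≤ 4 * (τ ^ 2 / 2) :=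
      mul_le_mul hD4.le (by linarith) (by linarith [Real.cos_le_one τ]) (by norm_num)
    nlinarith [abs_nonneg b, mul_lt_mul_of_pos_left hτb hτ]
  have mem : ∀ h, |h| = τ → y h ∈ O := fun h hh => hball (by simp [hh, hτδ])
  have hdn := fun h => dist_nonneg (x := y h) (y := z)
  have hcs := Real.cos_le_one τ
  rcases lt_or_gt_of_ne hb0 with hbn | hbn
  · rw [abs_of_neg hbn] at hsmall
    cases σ
    · refine ⟨y τ, mem τ (abs_of_pos hτ), show 1 < dist (y τ) z from ?_, hyd τ⟩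
      exact one_lt_dist (by rw [hyz]; nlinarith)
    · refine ⟨y (-τ), mem _ (by rw [abs_neg, abs_of_pos hτ]),
        show dist (y (-τ)) z < 1 from ?_, hyd _⟩
      exact dist_lt_one (by rw [hyz, Real.cos_neg, Real.sin_neg]; nlinarith)
  · rw [abs_of_pos hbn] at hsmall
    cases σ
    · refine ⟨y (-τ), mem _ (by rw [abs_neg, abs_of_pos hτ]),
        show 1 < dist (y (-τ)) z from ?_, hyd _⟩
      exact one_lt_dist (by rw [hyz, Real.cos_neg, Real.sin_neg]; nlinarith)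
    · refine ⟨y τ, mem τ (abs_of_pos hτ), show dist (y τ) z < 1 from ?_, hyd τ⟩
      exact dist_lt_one (by rw [hyz]; nlinarith)

/-- The index window of an angle. -/
lemma floor_window {φ a : ℝ} {m k : ℤ} {s : ℝ} (hs : 0 < s) (h : φ = a + 36 * m * s)
    (h1 : (k : ℝ) * s < φ) (h2 : φ < ((k : ℝ) + 13 / 2) * s) :
    k < ⌊a / s⌋ + 36 * m + 1 ∧ ⌊a / s⌋ + 36 * m < k + 7 := by
  have hd : φ / s = a / s + 36 * (m : ℝ) := by rw [h, add_div, mul_div_cancel_right₀ _ hs.ne']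
  have h1' : (k : ℝ) < φ / s := (lt_div_iff₀ hs).2 h1
  have h2' : φ / s < (k : ℝ) + 13 / 2 := (div_lt_iff₀ hs).2 h2
  have h3 := Int.floor_le (a / s)
  have h4 := Int.lt_floor_add_one (a / s)
  constructor
  · have : (k : ℝ) < ((⌊a / s⌋ + 36 * m + 1 : ℤ) : ℝ) := by push_cast; linarith
    exact_mod_cast this
  · have : ((⌊a / s⌋ + 36 * m : ℤ) : ℝ) < ((k + 7 : ℤ) : ℝ) := by push_cast; linarith
    exact_mod_cast this

/-- The angle of a point of the circle, up to whole turns. -/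
lemma exists_turn {w : ℂ} {φ : ℝ} (h : cs φ = w) :
    ∃ m : ℤ, φ = Complex.arg w + 36 * m * (Real.pi / 18) := by
  have hn : ‖w‖ = 1 := by rw [← h, norm_cs]
  have hne : w ≠ 0 := fun h' => by simp [h'] at hn
  have hang : (φ : Real.Angle) = (Complex.arg w : Real.Angle) := by
    refine Real.Angle.cos_sin_inj ?_ ?_
    · rw [Complex.cos_arg hne, hn, div_one, ← h, cs_re]
    · rw [Complex.sin_arg, hn, div_one, ← h, cs_im]
  obtain ⟨m, hm⟩ := Real.Angle.angle_eq_iff_two_pi_dvd_sub.1 hang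
  exact ⟨m, by linarith⟩

/-- One of five points on a circle leaves a free arc longer than a sixth of it. -/
lemma exists_gap (z : ℂ) (e : Fin 5 → ℂ) :
    ∃ α β : ℝ, α + Real.pi / 3 < β ∧ ∀ φ ∈ Ioo α β, ∀ i, z + cs φ ≠ e i := by
  classical
  let f : Fin 5 → ℤ := fun i => ⌊Complex.arg (e i - z) / (Real.pi / 18)⌋
  let g : Fin 5 × ℕ → ℤ := fun x => (f x.1 - x.2) % 36
  have hcard : ((Finset.univ ×ˢ Finset.range 7).image g).card ≤ 35 :=
    Finset.card_image_le.trans (by simp)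
  obtain ⟨k, hk, hkb⟩ := Finset.exists_mem_notMem_of_card_lt_card
    (show ((Finset.univ ×ˢ Finset.range 7).image g).card < (Finset.Ico (0 : ℤ) 36).card by
      rw [Int.card_Ico]; simpa using Nat.lt_succ_of_le hcard)
  rw [Finset.mem_Ico] at hk
  refine ⟨k * (Real.pi / 18), (k + 13 / 2) * (Real.pi / 18), by nlinarith [Real.pi_pos],
    fun φ hφ i he => hkb ?_⟩
  obtain ⟨m, hm⟩ := exists_turn (w := e i - z) (φ := φ) (by rw [← he]; ring)
  obtain ⟨g1, g2⟩ := floor_window (by positivity) hm hφ.1 hφ.2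
  rw [Finset.mem_image]
  refine ⟨(i, (f i + 36 * m - k).toNat), ?_, ?_⟩
  · simp only [Finset.mem_product, Finset.mem_univ, Finset.mem_range, true_and, f]; omega
  · simp only [g, f]; omega

/-- Two unit circles meet in finitely many points. -/
lemma circles_finite {e e' : ℂ} (h : e ≠ e') :
    {x : ℂ | dist x e = 1 ∧ dist x e' = 1}.Finite := by
  by_cases h2 : ∃ p₁ p₂ : ℂ, p₁ ≠ p₂ ∧ (dist p₁ e = 1 ∧ dist p₁ e' = 1) ∧
      (dist p₂ e = 1 ∧ dist p₂ e' = 1)
  · obtain ⟨p₁, p₂, hp, ⟨a1, b1⟩, a2, b2⟩ := h2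
    haveI : Fact (Module.finrank ℝ ℂ = 2) := ⟨Complex.finrank_real_complex⟩
    refine (Set.toFinite {p₁, p₂}).subset fun x hx => ?_
    exact EuclideanGeometry.eq_of_dist_eq_of_dist_eq_of_finrank_eq_two
      Complex.finrank_real_complex h hp a1 a2 hx.1 b1 b2 hx.2
  · push Not at h2
    refine Set.Subsingleton.finite fun x hx y hy => ?_
    by_contra hne
    exact h2 x y hne hx hy.1 hy.2

lemma nbr_ne {x m : ℂ} (hne : m ≠ x) (h2 : ‖m - x‖ < 2) : Col.nbr x m ≠ Col.nbr m x := by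
  intro h
  have hn : 0 < ‖m - x‖ := norm_pos_iff.2 (sub_ne_zero.2 hne)
  have hs : 0 < Real.sqrt (1 - ‖m - x‖ ^ 2 / 4) := Real.sqrt_pos.2 (by nlinarith)
  have : (2 * Real.sqrt (1 - ‖m - x‖ ^ 2 / 4) : ℂ) * Complex.I * (m - x) / (‖m - x‖ : ℂ) = 0 := by
    unfold Col.nbr at h
    rw [norm_sub_rev x m] at h
    linear_combination h
  rw [div_eq_zero_iff] at this
  rcases this with h0 | h0
  · simp [sub_ne_zero.2 hne, hs.ne'] at h0
  · exact hn.ne' (by exact_mod_cast h0)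

/-- The colours not excluded from a side. -/
def allowed (ed : Fin 5 → Fin 5 × Fin 5) (b : Fin 5 → Bool) (σ : Bool) : Finset (Fin 5) :=
  Finset.univ.filter fun c => ∀ i, b i = σ → c ≠ (ed i).1 ∧ c ≠ (ed i).2

namespace Col

variable (C : Col)

/-- Near `z + cs θ`, the side `σ` only carries colours of `A`. -/
def Allow (z : ℂ) (θ : ℝ) (σ : Bool) (A : Finset (Fin 5)) : Prop :=
  ∃ ε > 0, ∀ q ∈ ball (z + cs θ) ε ∩ side z σ, ∀ c, q ∈ C.U c → c ∈ A

variable {C}

lemma Allow.mono {z : ℂ} {θ : ℝ} {σ : Bool} {A B : Finset (Fin 5)} (h : C.Allow z θ σ A)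
    (hAB : A ⊆ B) : C.Allow z θ σ B := by
  obtain ⟨ε, hε, hh⟩ := h
  exact ⟨ε, hε, fun q hq c hc => hAB (hh q hq c hc)⟩

lemma Allow.not_empty {z : ℂ} {θ : ℝ} {σ : Bool} (h : C.Allow z θ σ ∅) : False := by
  obtain ⟨ε, hε, hh⟩ := h
  obtain ⟨q, hq, hqU⟩ := C.dense.inter_open_nonempty _
    (isOpen_ball.inter (isOpen_side z σ)) (side_ball_nonempty z θ σ hε)
  obtain ⟨c, hc⟩ := mem_iUnion.1 hqU
  simpa using hh q hq c hc

lemma Allow.single {z : ℂ} {θ : ℝ} {σ : Bool} {a : Fin 5} (h : C.Allow z θ σ {a}) :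
    ∃ η > 0, ∀ φ ∈ Ioo (θ - η) (θ + η), z + cs φ ∈ C.F a := by
  obtain ⟨ε, hε, hh⟩ := h
  have hsub : ball (z + cs θ) ε ∩ side z σ ⊆ C.U a :=
    C.sub_U (isOpen_ball.inter (isOpen_side z σ)) fun j hj q hq hqj =>
      hj (by simpa using hh q hq j hqj)
  obtain ⟨η, hη, hη1, hb⟩ := exists_box z θ (ball_mem_nhds _ hε)
  refine ⟨η, hη, fun φ hφ => pol_mem_closure (σ := σ) hη fun r hr => hsub ?_⟩
  obtain ⟨h1, h2⟩ := pol_mem_side (z := z) hη1 hr φ
  exact ⟨hb r φ h2 (abs_lt.2 ⟨by linarith [hφ.1], by linarith [hφ.2]⟩), h1⟩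

/-- Nearby colours come from the two sides. -/
lemma Allow.near {z : ℂ} {θ : ℝ} {σ : Bool} {A B : Finset (Fin 5)} (hA : C.Allow z θ σ A)
    (hB : C.Allow z θ (!σ) B) : ∃ ε > 0, ∀ y ∈ ball (z + cs θ) ε, C.S y ⊆ A ∪ B := by
  obtain ⟨ε₁, hε₁, h1⟩ := hA
  obtain ⟨ε₂, hε₂, h2⟩ := hB
  refine ⟨min ε₁ ε₂, lt_min hε₁ hε₂, fun y hy c hc => ?_⟩
  by_contra hcAB
  simp only [Finset.mem_union, not_or] at hcAB
  refine C.not_F_of_open (isOpen_ball (x := z + cs θ) (ε := min ε₁ ε₂)) (i := c) ?_ y hy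
    (C.mem_S.1 hc)
  intro q hq hqc
  have hside : ∀ τ, q ∈ side z τ → False := fun τ hτ => by
    rcases Bool.eq_or_eq_not τ σ with rfl | rfl
    · exact hcAB.1 (h1 q ⟨ball_subset_ball (min_le_left _ _) hq, hτ⟩ c hqc)
    · exact hcAB.2 (h2 q ⟨ball_subset_ball (min_le_right _ _) hq, hτ⟩ c hqc)
  obtain ⟨δ, hδ, hb⟩ := Metric.isOpen_iff.1 (C.isOpen c) q hqc
  rcases lt_trichotomy (dist q z) 1 with h | h | h
  · exact hside true h
  · have hcl : q ∈ closure (side z true) := by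
      change q ∈ closure (ball z 1)
      rw [closure_ball z one_ne_zero, mem_closedBall]; exact h.le
    obtain ⟨q', hq', hs⟩ := mem_closure_iff.1 hcl _ ((C.isOpen c).inter isOpen_ball) ⟨hqc, hq⟩
    rcases Bool.eq_or_eq_not true σ with e | e
    · exact hcAB.1 (h1 q' ⟨ball_subset_ball (min_le_left _ _) hq'.2, e ▸ hs⟩ c hq'.1)
    · exact hcAB.2 (h2 q' ⟨ball_subset_ball (min_le_right _ _) hq'.2, e ▸ hs⟩ c hq'.1)
  · exact hside false h

variable (C)

/-- Signs of five connected interfaces, and the colours each excludes. -/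
lemma exists_signs {z : ℂ} {ed : Fin 5 → Fin 5 × Fin 5} {K : Fin 5 → Set ℂ}
    (hK : ∀ i, IsPreconnected (K i)) (hKF : ∀ i, K i ⊆ C.F (ed i).1 ∩ C.F (ed i).2)
    (hz : ∀ i, z ∈ K i) {θ : ℝ} (hθ : ∀ i, ∃ x ∈ K i, dist (z + cs θ) x ≠ 1) :
    ∃ b : Fin 5 → Bool, ∀ σ, C.Allow z θ σ (allowed ed b σ) := by
  choose x hx hxd using hθ
  refine ⟨fun i => decide (1 < dist (z + cs θ) (x i)), fun σ => ?_⟩
  have hev : ∀ᶠ q in 𝓝 (z + cs θ), ∀ i,
      (1 < dist (z + cs θ) (x i) → 1 < dist q (x i)) ∧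
      (dist (z + cs θ) (x i) < 1 → dist q (x i) < 1) := by
    refine eventually_all.2 fun i => ?_
    have hc : Continuous fun q : ℂ => dist q (x i) := continuous_id.dist continuous_const
    rcases lt_or_gt_of_ne (hxd i) with h | h
    · filter_upwards [hc.continuousAt.preimage_mem_nhds (Iio_mem_nhds h)] with q hq
      exact ⟨fun h' => absurd h' (by linarith), fun _ => hq⟩
    · filter_upwards [hc.continuousAt.preimage_mem_nhds (Ioi_mem_nhds h)] with q hq
      exact ⟨fun _ => hq, fun h' => absurd h' (by linarith)⟩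
  obtain ⟨ε, hε, hh⟩ := Metric.eventually_nhds_iff_ball.1 hev
  refine ⟨ε, hε, fun q hq c hc => ?_⟩
  simp only [allowed, Finset.mem_filter, Finset.mem_univ, true_and]
  intro i hi
  have key : ∀ p, K i ⊆ C.F p → c ≠ p := by
    rintro p hp rfl
    cases σ
    · have hlt : dist (z + cs θ) (x i) < 1 := by
        simp only [decide_eq_false_iff_not, not_lt] at hi
        exact lt_of_le_of_ne hi (hxd i)
      exact C.cross_U (hK i) hp (hx i) (hz i) ((hh q hq.1 i).2 hlt).le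
        (show 1 < dist q z from hq.2).le hc
    · have hlt : 1 < dist (z + cs θ) (x i) := by simpa using hi
      exact C.cross_U (hK i) hp (hz i) (hx i) (show dist q z < 1 from hq.2).le
        ((hh q hq.1 i).1 hlt).le hc
  exact ⟨key _ fun y hy => (hKF i hy).1, key _ fun y hy => (hKF i hy).2⟩

/-- The exceptional points of five interfaces. -/
lemma exists_exceptional {z : ℂ} {K : Fin 5 → Set ℂ} (hK : ∀ i, IsPreconnected (K i))
    (hz : ∀ i, z ∈ K i) (hne : ∀ i, ∃ x ∈ K i, x ≠ z) :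
    ∃ e : Fin 5 → ℂ, ∀ θ, (∀ i, z + cs θ ≠ e i) →
      ∀ i, ∃ x ∈ K i, dist (z + cs θ) x ≠ 1 := by
  classical
  have hex : ∀ i, ∃ e : ℂ, ∀ u, (∀ x ∈ K i, dist u x = 1) → u = e := by
    intro i
    by_cases h : ∃ u, ∀ x ∈ K i, dist u x = 1
    · obtain ⟨u₀, hu₀⟩ := h
      refine ⟨u₀, fun u hu => ?_⟩
      by_contra hne'
      obtain ⟨x, hx, hxz⟩ := hne i
      have hinf : (K i).Infinite :=
        (hK i).infinite_of_nontrivial ⟨x, hx, z, hz i, hxz⟩
      exact hinf ((circles_finite hne').subset fun y hy =>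
        ⟨by rw [dist_comm]; exact hu y hy, by rw [dist_comm]; exact hu₀ y hy⟩)
    · exact ⟨z, fun u hu => absurd ⟨u, hu⟩ h⟩
  choose e he using hex
  exact ⟨e, fun θ hθ i => by
    by_contra hcon
    push Not at hcon
    exact hθ i (he i _ hcon)⟩

/-- Locally constant options on a long arc are impossible. -/
lemma gap_lemma {z : ℂ} (e : Fin 5 → ℂ) (opt : Finset (Finset (Fin 5)))
    (hloc : ∀ θ, (∀ i, z + cs θ ≠ e i) → ∃ o ∈ opt, ∃ η > 0,
      ∀ φ ∈ Ioo (θ - η) (θ + η), ∀ c ∈ o, z + cs φ ∈ C.F c)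
    (hex : ∀ o ∈ opt, ∀ o' ∈ opt, o ≠ o' → ∀ s t : ℝ, s < t →
      (∀ φ ∈ Ioo s t, (∀ c ∈ o, z + cs φ ∈ C.F c) ∧ (∀ c ∈ o', z + cs φ ∈ C.F c)) → False)
    (hne : ∀ o ∈ opt, o.Nonempty) : False := by
  classical
  obtain ⟨α, β, hαβ, hfree⟩ := exists_gap z e
  let G : Finset (Fin 5) → Set ℝ := fun o =>
    interior {φ | ∀ c ∈ o, z + cs φ ∈ C.F c}
  have hcov : ∀ φ ∈ Ioo α β, ∃ o ∈ opt, φ ∈ G o := by
    intro φ hφ
    obtain ⟨o, ho, η, hη, h⟩ := hloc φ (hfree φ hφ)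
    exact ⟨o, ho, mem_interior_iff_mem_nhds.2
      (mem_of_superset (Ioo_mem_nhds (by linarith) (by linarith)) h)⟩
  have hdisj : ∀ o ∈ opt, ∀ o' ∈ opt, o ≠ o' → Disjoint (G o) (G o') := by
    intro o ho o' ho' hne'
    rw [Set.disjoint_left]
    intro φ h h'
    obtain ⟨δ, hδ, hb⟩ := Metric.isOpen_iff.1 (isOpen_interior.inter isOpen_interior) φ ⟨h, h'⟩
    refine hex o ho o' ho' hne' (φ - δ) (φ + δ) (by linarith) fun ψ hψ => ?_
    have hψ' : ψ ∈ ball φ δ := by rwa [Real.ball_eq_Ioo]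
    exact ⟨interior_subset (hb hψ').1, interior_subset (hb hψ').2⟩
  have hmid : (α + β) / 2 ∈ Ioo α β := by constructor <;> linarith [Real.pi_pos]
  obtain ⟨o, ho, hmo⟩ := hcov _ hmid
  have hsub : Ioo α β ⊆ G o := by
    rcases isPreconnected_Ioo.subset_or_subset (u := G o) (v := ⋃ o' ∈ opt.erase o, G o')
      isOpen_interior (isOpen_biUnion fun _ _ => isOpen_interior)
      (Set.disjoint_iUnion₂_right.2 fun o' ho' =>
        hdisj o ho o' (Finset.mem_of_mem_erase ho') (Finset.ne_of_mem_erase ho').symm)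
      (fun φ hφ => by
        obtain ⟨o', ho', h'⟩ := hcov φ hφ
        by_cases he : o' = o
        · exact Or.inl (he ▸ h')
        · exact Or.inr (mem_iUnion₂.2 ⟨o', Finset.mem_erase.2 ⟨he, ho'⟩, h'⟩)) with h | h
    · exact h
    · obtain ⟨o', ho', h'⟩ := mem_iUnion₂.1 (h hmid)
      exact absurd h' (Set.disjoint_left.1
        (hdisj o ho o' (Finset.mem_of_mem_erase ho') (Finset.ne_of_mem_erase ho').symm) hmo)
  obtain ⟨c, hc⟩ := hne o ho
  set η := (β - α - Real.pi / 3) / 4 with hη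
  have harc := (C.arcX (z := z) (θ := α + 2 * η) (η := η) (p := c) (by rw [hη]; linarith)
    fun φ hφ => interior_subset (hsub ⟨by linarith [hφ.1, Real.pi_pos], by
      linarith [hφ.2, Real.pi_pos]⟩) c hc).1
  exact harc (interior_subset (hsub ⟨by linarith [Real.pi_pos], by linarith [Real.pi_pos]⟩) c hc)

/-- An interval of angles has infinitely many points. -/
lemma exists_avoid (z : ℂ) (e : Fin 5 → ℂ) {s t : ℝ} (hst : s < t) :
    ∃ φ ∈ Ioo s t, ∀ i, z + cs φ ≠ e i := by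
  by_contra h
  push Not at h
  have hpi := Real.pi_pos
  set t' := min t (s + 1) with ht'
  have hst' : s < t' := lt_min hst (by linarith)
  have hinj : InjOn (fun φ => z + cs φ) (Ioo s t') := by
    intro a ha b hb hab
    simp only [add_right_inj] at hab
    have h1 := congrArg Complex.re hab
    have h2 := congrArg Complex.im hab
    simp only [cs_re, cs_im] at h1 h2
    have h3 : Real.cos (a - b) = 1 := by
      rw [Real.cos_sub, h1, h2]; linarith [Real.sin_sq_add_cos_sq b]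
    have hlt : t' ≤ s + 1 := min_le_right _ _
    rw [Real.cos_eq_one_iff_of_lt_of_lt (by linarith [ha.1, hb.2, Real.two_le_pi])
      (by linarith [ha.2, hb.1, Real.two_le_pi])] at h3
    linarith
  refine ((Ioo_infinite hst').image hinj) ((finite_range e).subset ?_)
  rintro _ ⟨φ, hφ, rfl⟩
  obtain ⟨i, hi⟩ := h φ ⟨hφ.1, hφ.2.trans_le (min_le_left _ _)⟩
  exact ⟨i, hi.symm⟩

/-- No triangle of interfaces passes through a point. -/
theorem no_triangle {z : ℂ} (h01 : C.Arm z 0 1) (h12 : C.Arm z 1 2) (h20 : C.Arm z 2 0) :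
    False := by
  let ed : Fin 5 → Fin 5 × Fin 5 := ![(0, 1), (1, 2), (2, 0), (0, 1), (1, 2)]
  have harm : ∀ i, C.Arm z (ed i).1 (ed i).2 := by
    intro i; fin_cases i <;> assumption
  choose K hK hKF hzK hne using fun i => harm i 1 one_pos
  obtain ⟨e, he⟩ := exists_exceptional hK hzK hne
  have hcomb : ∀ b : Fin 5 → Bool, ∃ σ, allowed ![(0, 1), (1, 2), (2, 0), (0, 1), (1, 2)] b σ
      ⊆ {3, 4} := by decide +kernel
  have hside : ∀ θ, (∀ i, z + cs θ ≠ e i) → ∃ σ, C.Allow z θ σ {3, 4} := by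
    intro θ hθ
    obtain ⟨b, hb⟩ := C.exists_signs (ed := ed) hK (fun i x hx => (hKF i hx).1) hzK (he θ hθ)
    obtain ⟨σ, hσ⟩ := hcomb b
    exact ⟨σ, (hb σ).mono hσ⟩
  have hloc : ∀ θ, (∀ i, z + cs θ ≠ e i) → ∃ o ∈ ({{3}, {4}} : Finset (Finset (Fin 5))),
      ∃ η > 0, ∀ φ ∈ Ioo (θ - η) (θ + η), ∀ c ∈ o, z + cs φ ∈ C.F c := by
    intro θ hθ
    obtain ⟨σ, ε, hε, hA⟩ := hside θ hθ
    set fin := ⋃ i, ⋃ j, ⋃ _ : e i ≠ e j, {x : ℂ | dist x (e i) = 1 ∧ dist x (e j) = 1} with hfin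
    have hff : fin.Finite :=
      finite_iUnion fun i => finite_iUnion fun j => finite_iUnion fun h => circles_finite h
    obtain ⟨η, hη, hη1, hbox⟩ := exists_box z θ (inter_mem (ball_mem_nhds _ hε)
      (((hff.subset (Set.sdiff_subset : fin \ {z + cs θ} ⊆ fin)).isClosed.isOpen_compl).mem_nhds
        (fun h => h.2 rfl)))
    set Y := (fun x : ℝ × ℝ => pol z x.1 x.2) '' (radial σ η ×ˢ Ioo (θ - η) (θ + η)) with hY
    have hYc : IsPreconnected Y := by
      refine IsPreconnected.image ?_ _ (continuous_pol z).continuousOn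
      refine IsPreconnected.prod ?_ isPreconnected_Ioo
      cases σ <;> simp only [radial, Bool.false_eq_true, ↓reduceIte] <;> exact isPreconnected_Ioo
    have hsub : Y ⊆ C.U 3 ∪ C.U 4 := by
      rintro _ ⟨⟨r, φ⟩, ⟨hr, hφ⟩, rfl⟩
      obtain ⟨hs, hr'⟩ := pol_mem_side (z := z) hη1 hr φ
      obtain ⟨hqball, hqfin⟩ := hbox r φ hr' (abs_lt.2 ⟨by linarith [hφ.1], by linarith [hφ.2]⟩)
      set q := pol z r φ with hq
      have hrb : 0 < r ∧ r < 2 := by
        obtain ⟨a, b⟩ := abs_lt.1 hr'; constructor <;> linarith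
      have hqd : dist q z = r := dist_pol hrb.1.le z φ
      have hqz : q ≠ z := fun h => by rw [h, dist_self] at hqd; linarith [hrb.1]
      have hqu : q ≠ z + cs θ := by
        intro h
        rw [h] at hqd
        rw [dist_cs] at hqd
        cases σ
        · exact absurd (show 1 < dist q z from hs) (by rw [h, dist_cs]; exact lt_irrefl _)
        · exact absurd (show dist q z < 1 from hs) (by rw [h, dist_cs]; exact lt_irrefl _)
      have hn2 : ‖q - z‖ < 2 := by rw [← dist_eq_norm, hqd]; exact hrb.2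
      obtain ⟨P, hPq, hPz, hPe⟩ : ∃ P, dist q P = 1 ∧ dist P z = 1 ∧ ∀ i, P ≠ e i := by
        obtain ⟨a1, a2⟩ := dist_nbr (x := z) (m := q) hqz hn2.le
        obtain ⟨b1, b2⟩ := dist_nbr (x := q) (m := z) hqz.symm (by rw [norm_sub_rev]; exact hn2.le)
        by_contra hcon
        push Not at hcon
        obtain ⟨i, hi⟩ := hcon _ a2 (by rw [dist_comm]; exact a1)
        obtain ⟨j, hj⟩ := hcon _ b1 (by rw [dist_comm]; exact b2)
        refine hqfin ⟨?_, hqu⟩
        refine mem_iUnion.2 ⟨i, mem_iUnion.2 ⟨j, mem_iUnion.2 ⟨?_, hi ▸ a2, hj ▸ b1⟩⟩⟩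
        rw [← hi, ← hj]
        exact nbr_ne hqz hn2
      have hPn : ‖P - z‖ = 1 := by rw [← dist_eq_norm]; exact hPz
      have hPne : P - z ≠ 0 := fun h => by simp [h] at hPn
      set ψ := Complex.arg (P - z) with hψ
      have hPψ : P = z + cs ψ := by
        have : cs ψ = P - z := by
          apply Complex.ext
          · rw [cs_re, hψ, Complex.cos_arg hPne, hPn, div_one]
          · rw [cs_im, hψ, Complex.sin_arg, hPn, div_one]
        rw [this]; ring
      obtain ⟨τ, ε', hε', hA'⟩ := hside ψ fun i => hPψ ▸ hPe i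
      obtain ⟨y, hy, hys, hqy⟩ := exists_partner hPq hPz hqz (by rw [hqd]; exact hrb.2) τ
        (show ball (z + cs ψ) ε' ∈ 𝓝 P by rw [hPψ]; exact ball_mem_nhds _ hε')
      refine C.twoStep (isOpen_ball.inter (isOpen_side z σ))
        (isOpen_ball.inter (isOpen_side z τ)) ?_ ⟨hqball, hs⟩
        (show y ∈ ball (z + cs ψ) ε' ∩ side z τ from ⟨hy, hys⟩) hqy
      intro c x hx hxc
      rcases hx with hx | hx
      · simpa using hA x hx c hxc
      · simpa using hA' x hx c hxc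
    rcases hYc.subset_or_subset (C.isOpen 3) (C.isOpen 4) (C.disj 3 4 (by decide)) hsub with h | h
    · refine ⟨{3}, by simp, η, hη, fun φ hφ c hc => ?_⟩
      rw [Finset.mem_singleton.1 hc]
      exact pol_mem_closure hη fun r hr => h ⟨(r, φ), ⟨hr, hφ⟩, rfl⟩
    · refine ⟨{4}, by simp, η, hη, fun φ hφ c hc => ?_⟩
      rw [Finset.mem_singleton.1 hc]
      exact pol_mem_closure hη fun r hr => h ⟨(r, φ), ⟨hr, hφ⟩, rfl⟩
  refine C.gap_lemma e _ hloc ?_ (by simp)
  intro o ho o' ho' hne' s t hst hboth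
  have h34 : ∀ φ ∈ Ioo s t, z + cs φ ∈ C.F 3 ∧ z + cs φ ∈ C.F 4 := by
    intro φ hφ
    obtain ⟨h1, h2⟩ := hboth φ hφ
    simp only [Finset.mem_insert, Finset.mem_singleton] at ho ho'
    rcases ho with rfl | rfl <;> rcases ho' with rfl | rfl <;> simp_all
  obtain ⟨φ, hφ, hφe⟩ := exists_avoid z e
    (show s + Real.pi / 3 < t + Real.pi / 3 by linarith)
  set η := min (φ - Real.pi / 3 - s) (t - (φ - Real.pi / 3)) with hη
  have hη0 : 0 < η := lt_min (by linarith [hφ.1]) (by linarith [hφ.2])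
  have hin : ∀ ψ ∈ Ioo (φ - Real.pi / 3 - η) (φ - Real.pi / 3 + η), ψ ∈ Ioo s t := fun ψ hψ =>
    ⟨by linarith [hψ.1, min_le_left (φ - Real.pi / 3 - s) (t - (φ - Real.pi / 3))],
      by linarith [hψ.2, min_le_right (φ - Real.pi / 3 - s) (t - (φ - Real.pi / 3))]⟩
  have x3 := (C.arcX hη0 fun ψ hψ => (h34 ψ (hin ψ hψ)).1).1
  have x4 := (C.arcX hη0 fun ψ hψ => (h34 ψ (hin ψ hψ)).2).1
  rw [sub_add_cancel] at x3 x4
  obtain ⟨o₁, ho₁, η₁, hη₁, h₁⟩ := hloc φ hφe
  simp only [Finset.mem_insert, Finset.mem_singleton] at ho₁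
  have hm : φ ∈ Ioo (φ - η₁) (φ + η₁) := ⟨by linarith, by linarith⟩
  rcases ho₁ with rfl | rfl
  · exact x3 (h₁ φ hm 3 (by simp))
  · exact x4 (h₁ φ hm 4 (by simp))

end Col

end Vale.P032
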