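import Mathlib

/-!
P032, part 1: basic facts about five pairwise disjoint regular open sets with dense union,
none of which contains two points at distance 1.
-/

namespace Vale.P032

open Set Filter Topology Metric

/-- The open data extracted from a colouring with the Baire property. -/
structure Col where
  U : Fin 5 → Set ℂ
  isOpen : ∀ i, IsOpen (U i)
  disj : ∀ i j, i ≠ j → Disjoint (U i) (U j)
  regular : ∀ i, interior (closure (U i)) = U i
  dense : Dense (⋃ i, U i)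
  noUnit : ∀ i, ∀ x ∈ U i, ∀ y ∈ U i, dist x y ≠ 1

/-- The unit vector at angle `θ`. -/
noncomputable def cs (θ : ℝ) : ℂ := ⟨Real.cos θ, Real.sin θ⟩

@[simp] lemma cs_re (θ : ℝ) : (cs θ).re = Real.cos θ := rfl

@[simp] lemma cs_im (θ : ℝ) : (cs θ).im = Real.sin θ := rfl

lemma dist_sq (p q : ℂ) : dist p q ^ 2 = (p.re - q.re) ^ 2 + (p.im - q.im) ^ 2 := by
  rw [Complex.dist_eq_re_im, Real.sq_sqrt (by positivity)]

lemma dist_lt_one {p q : ℂ} (h : dist p q ^ 2 < 1) : dist p q < 1 := by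
  nlinarith [dist_nonneg (x := p) (y := q)]

lemma one_lt_dist {p q : ℂ} (h : 1 < dist p q ^ 2) : 1 < dist p q := by
  nlinarith [dist_nonneg (x := p) (y := q)]

lemma dist_circle_sq (z : ℂ) (a b : ℝ) :
    dist (z + cs a) (z + cs b) ^ 2 = 2 - 2 * Real.cos (a - b) := by
  rw [dist_sq]
  simp only [Complex.add_re, Complex.add_im, cs_re, cs_im, Real.cos_sub]
  nlinarith [Real.sin_sq_add_cos_sq a, Real.sin_sq_add_cos_sq b]

/-- Points strictly inside the unit circle about `k₁` and outside that about `k₂`. -/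
def between (k₁ k₂ : ℂ) : Set ℂ := {q | dist q k₁ < 1} ∩ {q | 1 < dist q k₂}

lemma isOpen_between (k₁ k₂ : ℂ) : IsOpen (between k₁ k₂) := by
  have h : ∀ k : ℂ, Continuous fun q : ℂ => dist q k := fun k =>
    continuous_id.dist continuous_const
  exact (isOpen_lt (h k₁) continuous_const).inter (isOpen_lt continuous_const (h k₂))

lemma continuous_circle (z : ℂ) : Continuous fun θ : ℝ => z + cs θ := by
  have h : (fun θ : ℝ => z + cs θ)
      = fun θ : ℝ => z + ((Real.cos θ : ℂ) + (Real.sin θ : ℂ) * Complex.I) := by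
    funext θ
    congr 1
    apply Complex.ext <;> simp [Complex.cos_ofReal_re, Complex.sin_ofReal_re]
  rw [h]
  fun_prop

namespace Col

variable (C : Col)

/-- The closed class. -/
def F (i : Fin 5) : Set ℂ := closure (C.U i)

lemma isClosed_F (i : Fin 5) : IsClosed (C.F i) := isClosed_closure

lemma U_subset_F (i : Fin 5) : C.U i ⊆ C.F i := subset_closure

lemma exists_F (x : ℂ) : ∃ i, x ∈ C.F i := by
  have h : x ∈ closure (⋃ i, C.U i) := by rw [C.dense.closure_eq]; trivial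
  rw [closure_iUnion_of_finite] at h
  simpa [F] using h

lemma eq_of_U_F {i j : Fin 5} {x : ℂ} (hU : x ∈ C.U i) (hF : x ∈ C.F j) : i = j := by
  by_contra h
  obtain ⟨y, hy, hy'⟩ := mem_closure_iff.1 hF (C.U i) (C.isOpen i) hU
  exact Set.disjoint_left.1 (C.disj i j h) hy hy'

open scoped Classical in
/-- The colours present at a point. -/
noncomputable def S (x : ℂ) : Finset (Fin 5) := Finset.univ.filter fun i => x ∈ C.F i

lemma mem_S {x : ℂ} {i : Fin 5} : i ∈ C.S x ↔ x ∈ C.F i := by simp [S]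

lemma S_nonempty (x : ℂ) : (C.S x).Nonempty := by
  obtain ⟨i, hi⟩ := C.exists_F x
  exact ⟨i, C.mem_S.2 hi⟩

lemma S_nhds (x : ℂ) : ∀ᶠ y in 𝓝 x, C.S y ⊆ C.S x := by
  have h : ∀ i : Fin 5, ∀ᶠ y in 𝓝 x, y ∈ C.F i → x ∈ C.F i := by
    intro i
    by_cases hx : x ∈ C.F i
    · exact Eventually.of_forall fun _ _ => hx
    · filter_upwards [(C.isClosed_F i).isOpen_compl.mem_nhds hx] with y hy h
      exact absurd h hy
  filter_upwards [eventually_all.2 h] with y hy i hi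
  exact C.mem_S.2 (hy i (C.mem_S.1 hi))

/-- An open set free of `U i` is free of `F i`. -/
lemma not_F_of_open {W : Set ℂ} (hW : IsOpen W) {i : Fin 5} (h : ∀ x ∈ W, x ∉ C.U i) :
    ∀ x ∈ W, x ∉ C.F i := by
  intro x hx hF
  obtain ⟨y, hy, hy'⟩ := mem_closure_iff.1 hF W hW hx
  exact h y hy hy'

/-- An open set meeting only the class `i` lies in it. -/
lemma sub_U {W : Set ℂ} (hW : IsOpen W) {i : Fin 5}
    (h : ∀ j, j ≠ i → ∀ x ∈ W, x ∉ C.U j) : W ⊆ C.U i := by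
  have hsub : W ⊆ C.F i := by
    intro x hx
    obtain ⟨j, hj⟩ := C.exists_F x
    by_cases hji : j = i
    · exact hji ▸ hj
    · exact absurd hj (C.not_F_of_open hW (h j hji) x hx)
  rw [← C.regular i]
  exact interior_maximal hsub hW

lemma U_iff_S {x : ℂ} {i : Fin 5} : x ∈ C.U i ↔ C.S x = {i} := by
  constructor
  · intro h
    ext j
    rw [C.mem_S, Finset.mem_singleton]
    exact ⟨fun hj => (C.eq_of_U_F h hj).symm, fun hj => hj ▸ C.U_subset_F i h⟩
  · intro h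
    obtain ⟨W, hW, hWo, hxW⟩ := _root_.eventually_nhds_iff.1 (C.S_nhds x)
    refine C.sub_U hWo (i := i) ?_ hxW
    intro j hj y hy hyU
    have := hW y hy (C.mem_S.2 (C.U_subset_F j hyU))
    rw [h, Finset.mem_singleton] at this
    exact hj this

lemma noUF {i : Fin 5} {x y : ℂ} (hx : x ∈ C.U i) (hy : y ∈ C.F i) : dist x y ≠ 1 := by
  intro h
  have hc : Continuous fun y' : ℂ => x + (y' - y) := by fun_prop
  have : (fun y' : ℂ => x + (y' - y)) ⁻¹' C.U i ∈ 𝓝 y :=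
    ((C.isOpen i).preimage hc).mem_nhds (by simpa using hx)
  obtain ⟨y', hy', hyU⟩ := mem_closure_iff_nhds.1 hy _ this
  refine C.noUnit i _ hy' y' hyU ?_
  rw [dist_eq_norm] at h ⊢
  rw [← h]
  congr 1
  ring

/-- Crossing lemma. -/
lemma cross_U {K : Set ℂ} (hK : IsPreconnected K) {p : Fin 5} (hKF : K ⊆ C.F p) {q k₁ k₂ : ℂ}
    (h₁ : k₁ ∈ K) (h₂ : k₂ ∈ K) (hd₁ : dist q k₁ ≤ 1) (hd₂ : 1 ≤ dist q k₂) : q ∉ C.U p := by
  intro hq
  obtain ⟨k, hk, hk1⟩ :=
    hK.intermediate_value h₁ h₂ (continuous_const.dist continuous_id).continuousOn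
      (show (1 : ℝ) ∈ Icc (dist q k₁) (dist q k₂) from ⟨hd₁, hd₂⟩)
  exact C.noUF hq (hKF hk) hk1

lemma cross_F {K : Set ℂ} (hK : IsPreconnected K) {p : Fin 5} (hKF : K ⊆ C.F p) {q k₁ k₂ : ℂ}
    (h₁ : k₁ ∈ K) (h₂ : k₂ ∈ K) (hd₁ : dist q k₁ < 1) (hd₂ : 1 < dist q k₂) : q ∉ C.F p := by
  exact C.not_F_of_open (isOpen_between k₁ k₂)
    (fun x hx => C.cross_U hK hKF h₁ h₂ hx.1.le hx.2.le) q ⟨hd₁, hd₂⟩

/-- Connected subsets of a closed class have diameter at most 1. -/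
lemma dist_le_one {K : Set ℂ} (hK : IsPreconnected K) {p : Fin 5} (hKF : K ⊆ C.F p) {x y : ℂ}
    (hx : x ∈ K) (hy : y ∈ K) : dist x y ≤ 1 := by
  by_contra h
  push Not at h
  have hW : between x y ∈ 𝓝 x := (isOpen_between x y).mem_nhds ⟨by simp, h⟩
  obtain ⟨x', hx', hxU⟩ := mem_closure_iff_nhds.1 (hKF hx) _ hW
  exact C.cross_U hK hKF hx hy hx'.1.le hx'.2.le hxU

/-- An arc of a unit circle in `F p` expels `p` from the two neighbours of its midpoint. -/
lemma arcX {z : ℂ} {θ η : ℝ} (hη : 0 < η) {p : Fin 5}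
    (h : ∀ φ ∈ Ioo (θ - η) (θ + η), z + cs φ ∈ C.F p) :
    z + cs (θ + Real.pi / 3) ∉ C.F p ∧ z + cs (θ - Real.pi / 3) ∉ C.F p := by
  obtain ⟨ε, hε, hεη, hεp⟩ : ∃ ε, 0 < ε ∧ ε < η ∧ ε < Real.pi / 6 := by
    refine ⟨min (η / 2) (Real.pi / 12), lt_min (by linarith) (by positivity), ?_, ?_⟩
    · exact lt_of_le_of_lt (min_le_left _ _) (by linarith)
    · exact lt_of_le_of_lt (min_le_right _ _) (by linarith [Real.pi_pos])
  have hK : IsPreconnected ((fun φ => z + cs φ) '' Ioo (θ - η) (θ + η)) :=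
    isPreconnected_Ioo.image _ (continuous_circle z).continuousOn
  have hsub : (fun φ => z + cs φ) '' Ioo (θ - η) (θ + η) ⊆ C.F p := by
    rintro _ ⟨φ, hφ, rfl⟩
    exact h φ hφ
  have hpos := Real.pi_pos
  have c1 : 1 / 2 < Real.cos (Real.pi / 3 - ε) := by
    rw [← Real.cos_pi_div_three]
    exact Real.cos_lt_cos_of_nonneg_of_le_pi (by linarith) (by linarith) (by linarith)
  have c2 : Real.cos (Real.pi / 3 + ε) < 1 / 2 := by
    rw [← Real.cos_pi_div_three]
    exact Real.cos_lt_cos_of_nonneg_of_le_pi (by linarith) (by linarith) (by linarith)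
  have mp : z + cs (θ + ε) ∈ (fun φ => z + cs φ) '' Ioo (θ - η) (θ + η) :=
    ⟨θ + ε, ⟨by linarith, by linarith⟩, rfl⟩
  have mm : z + cs (θ - ε) ∈ (fun φ => z + cs φ) '' Ioo (θ - η) (θ + η) :=
    ⟨θ - ε, ⟨by linarith, by linarith⟩, rfl⟩
  constructor
  · refine C.cross_F hK hsub mp mm (dist_lt_one ?_) (one_lt_dist ?_)
    · rw [dist_circle_sq, show θ + Real.pi / 3 - (θ + ε) = Real.pi / 3 - ε by ring]; linarith
    · rw [dist_circle_sq, show θ + Real.pi / 3 - (θ - ε) = Real.pi / 3 + ε by ring]; linarith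
  · refine C.cross_F hK hsub mm mp (dist_lt_one ?_) (one_lt_dist ?_)
    · rw [dist_circle_sq, show θ - Real.pi / 3 - (θ - ε) = -(Real.pi / 3 - ε) by ring,
        Real.cos_neg]
      linarith
    · rw [dist_circle_sq, show θ - Real.pi / 3 - (θ + ε) = -(Real.pi / 3 + ε) by ring,
        Real.cos_neg]
      linarith

/-- A common neighbour of `x` and `m`, both at distance 1. -/
noncomputable def nbr (x m : ℂ) : ℂ :=
  x + (m - x) / 2 + (Real.sqrt (1 - ‖m - x‖ ^ 2 / 4) : ℂ) * Complex.I * (m - x) / (‖m - x‖ : ℂ)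

lemma dist_nbr {x m : ℂ} (hne : m ≠ x) (h2 : ‖m - x‖ ≤ 2) :
    dist x (nbr x m) = 1 ∧ dist m (nbr x m) = 1 := by
  set w := m - x with hw
  have hwn : 0 < ‖w‖ := norm_pos_iff.2 (sub_ne_zero.2 hne)
  set r : ℝ := Real.sqrt (1 - ‖w‖ ^ 2 / 4) / ‖w‖ with hr
  have hsq : Real.sqrt (1 - ‖w‖ ^ 2 / 4) ^ 2 = 1 - ‖w‖ ^ 2 / 4 :=
    Real.sq_sqrt (by nlinarith)
  have e : nbr x m = x + w * ((1 / 2 : ℂ) + (r : ℂ) * Complex.I) := by
    simp only [nbr, hr, ← hw]
    push_cast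
    ring
  have key : ∀ s : ℝ, s ^ 2 = 1 / 4 → ‖w * ((s : ℂ) + (r : ℂ) * Complex.I)‖ = 1 := by
    intro s hs
    rw [norm_mul, Complex.norm_add_mul_I]
    have : Real.sqrt (s ^ 2 + r ^ 2) = 1 / ‖w‖ := by
      rw [Real.sqrt_eq_iff_eq_sq (by positivity) (by positivity), hs, hr, div_pow, hsq]
      field_simp
      ring
    rw [this]
    field_simp
  constructor
  · rw [e, dist_eq_norm, show x - (x + w * ((1 / 2 : ℂ) + (r : ℂ) * Complex.I))
        = -(w * (((1 / 2 : ℝ) : ℂ) + (r : ℂ) * Complex.I)) by push_cast; ring, norm_neg]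
    exact key _ (by norm_num)
  · rw [e, dist_eq_norm, show m - (x + w * ((1 / 2 : ℂ) + (r : ℂ) * Complex.I))
        = -(w * (((-(1 / 2) : ℝ) : ℂ) + (r : ℂ) * Complex.I)) by
          rw [show m = x + w by rw [hw]; ring]; push_cast; ring, norm_neg]
    exact key _ (by norm_num)

/-- The two-step lemma: in a two-coloured open set, a point with a partner in a two-coloured
open set is not a boundary point. -/
lemma twoStep {W W' : Set ℂ} (hW : IsOpen W) (hW' : IsOpen W') {a b : Fin 5}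
    (h2 : ∀ c, ∀ x ∈ W ∪ W', x ∈ C.U c → c = a ∨ c = b)
    {q y : ℂ} (hq : q ∈ W) (hy : y ∈ W') (hqy : dist q y = 1) : q ∈ C.U a ∪ C.U b := by
  set d : ℂ := q - y with hd
  have hdn : ‖d‖ = 1 := by rw [hd, ← dist_eq_norm]; exact hqy
  set n : ℂ := Complex.I * d with hn
  have hnn : ‖n‖ = 1 := by simp [hn, hdn]
  let g : ℝ → ℂ := fun K => q + (K / 2 : ℝ) * n - (Real.sqrt (1 - K ^ 2 / 4) : ℂ) * d
  have hg : Continuous g := by fun_prop
  have g0 : g 0 = y := by simp [g, hd]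
  have hm : Continuous fun K : ℝ => q + (K : ℂ) * n := by fun_prop
  obtain ⟨δ₀, hδ₀, hball⟩ := Metric.mem_nhds_iff.1 (Filter.inter_mem
    (hg.continuousAt.preimage_mem_nhds (x := (0 : ℝ)) (hW'.mem_nhds (g0 ▸ hy)))
    (hm.continuousAt.preimage_mem_nhds (x := (0 : ℝ)) (hW.mem_nhds (by simpa using hq))))
  obtain ⟨K, hK0, hKδ, hK1⟩ : ∃ K : ℝ, 0 < K ∧ K < δ₀ ∧ K < 1 :=
    ⟨min (δ₀ / 2) (1 / 2), lt_min (by linarith) (by norm_num),
      lt_of_le_of_lt (min_le_left _ _) (by linarith),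
      lt_of_le_of_lt (min_le_right _ _) (by norm_num)⟩
  obtain ⟨hgK, hmK⟩ := hball (show K ∈ Metric.ball (0 : ℝ) δ₀ by
    simp [abs_of_pos hK0, hKδ])
  simp only [mem_preimage] at hgK hmK
  set m₀ : ℂ := q + (K : ℂ) * n with hm₀
  have hmq : m₀ - q = (K : ℂ) * n := by rw [hm₀]; ring
  have hnorm : ‖m₀ - q‖ = K := by
    rw [hmq, norm_mul, hnn, Complex.norm_real, Real.norm_eq_abs, abs_of_pos hK0, mul_one]
  have hne₀ : m₀ ≠ q := fun h => by simp [h] at hnorm; linarith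
  have hnb : nbr q m₀ = g K := by
    unfold nbr
    rw [hnorm, hmq]
    simp only [g]
    have : (K : ℂ) ≠ 0 := by exact_mod_cast hK0.ne'
    rw [show (Real.sqrt (1 - K ^ 2 / 4) : ℂ) * Complex.I * ((K : ℂ) * n) / (K : ℂ)
      = (Real.sqrt (1 - K ^ 2 / 4) : ℂ) * Complex.I * n by field_simp, hn]
    push_cast
    linear_combination ((Real.sqrt (1 - K ^ 2 / 4) : ℂ) * d) * Complex.I_sq
  have hcont : ContinuousAt (fun xm : ℂ × ℂ => nbr xm.1 xm.2) (q, m₀) := by
    have h1 : ((‖m₀ - q‖ : ℝ) : ℂ) ≠ 0 := by rw [hnorm]; exact_mod_cast hK0.ne'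
    unfold nbr
    fun_prop (disch := exact h1)
  have h3 : ∀ᶠ xm : ℂ × ℂ in 𝓝 (q, m₀), xm.1 ∈ W ∧ xm.2 ∈ W ∧ nbr xm.1 xm.2 ∈ W' ∧
      xm.2 ≠ xm.1 ∧ ‖xm.2 - xm.1‖ ≤ 2 := by
    refine Filter.Eventually.and
      ((continuous_fst.tendsto (q, m₀)).eventually (hW.mem_nhds hq)) ?_
    refine Filter.Eventually.and
      ((continuous_snd.tendsto (q, m₀)).eventually (hW.mem_nhds hmK)) ?_
    refine Filter.Eventually.and
      (hcont.eventually (hW'.mem_nhds (show nbr q m₀ ∈ W' by rw [hnb]; exact hgK))) ?_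
    have hc : Continuous fun xm : ℂ × ℂ => ‖xm.2 - xm.1‖ := by fun_prop
    filter_upwards [hc.continuousAt.preimage_mem_nhds
      (Ioo_mem_nhds (show (0 : ℝ) < ‖m₀ - q‖ by rw [hnorm]; exact hK0)
        (show ‖m₀ - q‖ < 2 by rw [hnorm]; linarith))] with xm hxm
    exact ⟨fun h => by simp [h] at hxm, hxm.2.le⟩
  rw [nhds_prod_eq, Filter.eventually_prod_iff] at h3
  obtain ⟨P, hP, Q, hQ, hPQ⟩ := h3
  obtain ⟨N, hN, hNo, hqN⟩ := _root_.eventually_nhds_iff.1 hP
  obtain ⟨M, hM, hMo, hmM⟩ := _root_.eventually_nhds_iff.1 hQ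
  obtain ⟨m, hmM', hmU⟩ := C.dense.inter_open_nonempty M hMo ⟨m₀, hmM⟩
  obtain ⟨cm, hcm⟩ := mem_iUnion.1 hmU
  -- every coloured point of `N` has the colour of `m`
  have key : ∀ c, ∀ x ∈ N, x ∈ C.U c → c = cm := by
    intro c x hx hxc
    obtain ⟨hxW, hmW, hnW, hne, h2n⟩ := hPQ (hN x hx) (hM m hmM')
    obtain ⟨d1, d2⟩ := dist_nbr hne h2n
    obtain ⟨e, he⟩ := C.exists_F (nbr x m)
    have hec : e ≠ c := fun h => C.noUF hxc (h ▸ he) d1
    have hecm : e ≠ cm := fun h => C.noUF hcm (h ▸ he) d2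
    obtain ⟨w, hwW, hwU⟩ := mem_closure_iff.1 he W' hW' hnW
    have r1 := h2 c x (Or.inl hxW) hxc
    have r2 := h2 cm m (Or.inl hmW) hcm
    have r3 := h2 e w (Or.inr hwW) hwU
    rcases r1 with r1 | r1 <;> rcases r2 with r2 | r2 <;> rcases r3 with r3 | r3 <;>
      subst r1 <;> subst r2 <;> subst r3 <;> first | rfl | exact absurd rfl hec | exact absurd rfl hecm
  have hNU : N ⊆ C.U cm :=
    C.sub_U hNo fun j hj x hx hxj => hj (key j x hx hxj)
  rcases h2 cm q (Or.inl hq) (hNU hqN) with h | h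
  · exact Or.inl (h ▸ hNU hqN)
  · exact Or.inr (h ▸ hNU hqN)

/-- A lune between two unit circles always carries a third colour. -/
lemma lune {z z' : ℂ} (hne : z ≠ z') (hd : dist z z' ≤ 1) (a b : Fin 5) :
    ∃ c q, c ≠ a ∧ c ≠ b ∧ q ∈ C.U c ∧
      ((dist q z < 1 ∧ 1 < dist q z') ∨ (dist q z' < 1 ∧ 1 < dist q z)) := by
  by_contra hcon
  push Not at hcon
  let L : Set ℂ := {q | (dist q z < 1 ∧ 1 < dist q z') ∨ (dist q z' < 1 ∧ 1 < dist q z)}
  have hLo : IsOpen L := (isOpen_between z z').union (isOpen_between z' z)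
  have h2 : ∀ c, ∀ x ∈ L ∪ L, x ∈ C.U c → c = a ∨ c = b := by
    intro c x hx hxc
    by_contra h
    push Not at h
    have hx' : x ∈ L := by simpa using hx
    rcases hx' with hx' | hx'
    · exact absurd hx'.2 (not_lt.2 ((hcon c x h.1 h.2 hxc).1 hx'.1))
    · exact absurd hx'.2 (not_lt.2 ((hcon c x h.1 h.2 hxc).2 hx'.1))
  have hD0 : 0 < dist z z' := dist_pos.2 hne
  set D := dist z z' with hD
  set n : ℂ := (z' - z) / (D : ℂ) with hn
  have hnn : ‖n‖ = 1 := by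
    rw [hn, norm_div, Complex.norm_real, Real.norm_eq_abs, abs_of_pos hD0, hD, dist_comm,
      dist_eq_norm]
    exact div_self (by rw [norm_ne_zero_iff, sub_ne_zero]; exact hne.symm)
  have hzz : z' = z + (D : ℂ) * n := by
    rw [hn]
    have : (D : ℂ) ≠ 0 := by exact_mod_cast hD0.ne'
    field_simp
    ring
  set β := Real.sqrt (1 - (D / 2) ^ 2) with hβ
  have hβ2 : β ^ 2 = 1 - (D / 2) ^ 2 := Real.sq_sqrt (by nlinarith)
  have hβ34 : 3 / 4 ≤ β ^ 2 := by rw [hβ2]; nlinarith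
  let e : ℝ → ℂ := fun t =>
    z + n * (((D / 2 + Real.cos t : ℝ) : ℂ) + ((β * Real.sin t : ℝ) : ℂ) * Complex.I)
  have hec : Continuous e := by fun_prop
  have hde : ∀ s t, dist (e s) (e t) ^ 2
      = (Real.cos s - Real.cos t) ^ 2 + β ^ 2 * (Real.sin s - Real.sin t) ^ 2 := by
    intro s t
    have h1 : e s - e t = n * (((Real.cos s - Real.cos t : ℝ) : ℂ)
        + ((β * (Real.sin s - Real.sin t) : ℝ) : ℂ) * Complex.I) := by
      simp only [e]; push_cast; ring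
    rw [dist_eq_norm, h1, norm_mul, hnn, one_mul, Complex.norm_add_mul_I,
      Real.sq_sqrt (by positivity)]
    ring
  have hdz : ∀ t, dist (e t) z = 1 + D / 2 * Real.cos t := by
    intro t
    have hp : 0 ≤ 1 + D / 2 * Real.cos t := by nlinarith [Real.neg_one_le_cos t]
    rw [dist_eq_norm, show e t - z = n * (((D / 2 + Real.cos t : ℝ) : ℂ)
        + ((β * Real.sin t : ℝ) : ℂ) * Complex.I) by simp only [e]; ring,
      norm_mul, hnn, one_mul, Complex.norm_add_mul_I,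
      Real.sqrt_eq_iff_eq_sq (by positivity) hp, mul_pow, hβ2, Real.sin_sq]
    ring
  have hdz' : ∀ t, dist (e t) z' = 1 - D / 2 * Real.cos t := by
    intro t
    have hp : 0 ≤ 1 - D / 2 * Real.cos t := by nlinarith [Real.cos_le_one t]
    rw [dist_eq_norm, show e t - z' = n * (((Real.cos t - D / 2 : ℝ) : ℂ)
        + ((β * Real.sin t : ℝ) : ℂ) * Complex.I) by
          simp only [e, hzz]; push_cast; ring,
      norm_mul, hnn, one_mul, Complex.norm_add_mul_I,
      Real.sqrt_eq_iff_eq_sq (by positivity) hp, mul_pow, hβ2, Real.sin_sq]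
    ring
  set J : Set ℝ := Ioo (Real.pi / 2) (Real.pi + Real.pi / 2) with hJ
  have hJL : ∀ t ∈ J, e t ∈ L := by
    intro t ht
    have hc : Real.cos t < 0 := Real.cos_neg_of_pi_div_two_lt_of_lt ht.1 ht.2
    left
    rw [hdz, hdz']
    constructor <;> nlinarith
  have hpart : ∀ t ∈ J, ∃ s ∈ J, dist (e t) (e s) = 1 := by
    intro t ht
    have hc2 := Real.sin_sq_add_cos_sq t
    have hpos := Real.pi_pos
    have hf : Continuous fun s => dist (e t) (e s) := by fun_prop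
    rcases le_or_gt (Real.sin t) 0 with hs | hs
    · have hend : 1 < dist (e t) (e (Real.pi / 2)) := by
        apply one_lt_dist
        rw [hde, Real.cos_pi_div_two, Real.sin_pi_div_two]
        nlinarith
      obtain ⟨s, hs1, hs2⟩ := intermediate_value_Ioo' ht.1.le hf.continuousOn
        (show (1 : ℝ) ∈ Ioo (dist (e t) (e t)) (dist (e t) (e (Real.pi / 2))) from
          ⟨by simp, hend⟩)
      exact ⟨s, ⟨hs1.1, by linarith [hs1.2, ht.2]⟩, hs2⟩
    · have hend : 1 < dist (e t) (e (Real.pi + Real.pi / 2)) := by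
        apply one_lt_dist
        rw [hde, show Real.pi + Real.pi / 2 = Real.pi / 2 + Real.pi by ring, Real.cos_add_pi,
          Real.sin_add_pi, Real.cos_pi_div_two, Real.sin_pi_div_two]
        nlinarith
      obtain ⟨s, hs1, hs2⟩ := intermediate_value_Ioo ht.2.le hf.continuousOn
        (show (1 : ℝ) ∈ Ioo (dist (e t) (e t)) (dist (e t) (e (Real.pi + Real.pi / 2))) from
          ⟨by simp, hend⟩)
      exact ⟨s, ⟨by linarith [hs1.1, ht.1], hs1.2⟩, hs2⟩
  have hsub : e '' J ⊆ C.U a ∪ C.U b := by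
    rintro _ ⟨t, ht, rfl⟩
    obtain ⟨s, hs, hst⟩ := hpart t ht
    exact C.twoStep hLo hLo h2 (hJL t ht) (hJL s hs) hst
  have hπ : Real.pi ∈ J := ⟨by linarith [Real.pi_pos], by linarith [Real.pi_pos]⟩
  obtain ⟨s, hs, hst⟩ := hpart _ hπ
  have hcon' : IsPreconnected (e '' J) := isPreconnected_Ioo.image _ hec.continuousOn
  by_cases hab : a = b
  · subst hab
    simp only [union_self] at hsub
    exact C.noUnit a _ (hsub ⟨_, hπ, rfl⟩) _ (hsub ⟨_, hs, rfl⟩) hst
  · rcases hcon'.subset_or_subset (C.isOpen a) (C.isOpen b) (C.disj a b hab) hsub with h | h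
    · exact C.noUnit a _ (h ⟨_, hπ, rfl⟩) _ (h ⟨_, hs, rfl⟩) hst
    · exact C.noUnit b _ (h ⟨_, hπ, rfl⟩) _ (h ⟨_, hs, rfl⟩) hst

/-- No nondegenerate connected set lies in three closed classes. -/
lemma three_subsingleton {K : Set ℂ} (hK : IsPreconnected K) {i j k : Fin 5}
    (hij : i ≠ j) (hik : i ≠ k) (hjk : j ≠ k)
    (hi : K ⊆ C.F i) (hj : K ⊆ C.F j) (hk : K ⊆ C.F k) : K.Subsingleton := by
  intro x hx x' hx'
  by_contra hne
  obtain ⟨a, b, hab⟩ : ∃ a b : Fin 5, ∀ c, c ≠ a → c ≠ b → c = i ∨ c = j ∨ c = k := by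
    revert hij hik hjk
    clear hi hj hk
    revert i j k
    decide
  obtain ⟨c, q, hca, hcb, hq, hL⟩ := C.lune hne (C.dist_le_one hK hi hx hx') a b
  have hc : K ⊆ C.F c := by rcases hab c hca hcb with rfl | rfl | rfl <;> assumption
  rcases hL with ⟨h1, h2⟩ | ⟨h1, h2⟩
  · exact C.cross_U hK hc hx hx' h1.le h2.le hq
  · exact C.cross_U hK hc hx' hx h1.le h2.le hq

end Col

end Vale.P032
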