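import Vale.Agent.P032.Arms

/-!
P032, part 6: all but countably many tri-coloured points `z` have, on the unit circle about `z`,
arcs in all but two of their colours.
-/

namespace Vale.P032

open Set Filter Topology Metric

lemma cs_add (x y : ℝ) : cs (x + y) = cs x * cs y := by
  apply Complex.ext <;> simp [Real.cos_add, Real.sin_add] <;> ring

lemma cs_add_pi (x : ℝ) : cs (x + Real.pi) = -cs x := by
  apply Complex.ext <;> simp

lemma cs_sum (φ : ℝ) : cs (φ + Real.pi / 3) + cs (φ - Real.pi / 3) = cs φ := by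
  apply Complex.ext <;>
    simp [Real.cos_add, Real.cos_sub, Real.sin_add, Real.sin_sub, Real.cos_pi_div_three,
      Real.sin_pi_div_three] <;> ring

/-- An interval covered by finitely many closed sets contains an interval inside one of them. -/
lemma sub_interval {ι : Type*} (A : Finset ι) {f : ι → Set ℝ} (hf : ∀ i, IsClosed (f i))
    {s t : ℝ} (hst : s < t) (h : Ioo s t ⊆ ⋃ i ∈ A, f i) :
    ∃ i ∈ A, ∃ s' t', s' < t' ∧ Ioo s' t' ⊆ Ioo s t ∧ Ioo s' t' ⊆ f i := by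
  classical
  induction A using Finset.induction generalizing s t with
  | empty =>
    have hm : (s + t) / 2 ∈ Ioo s t := ⟨by linarith, by linarith⟩
    simpa using h hm
  | insert i A hi ih =>
    by_cases hs : Ioo s t ⊆ f i
    · exact ⟨i, Finset.mem_insert_self i A, s, t, hst, subset_rfl, hs⟩
    · obtain ⟨x, hx, hxi⟩ := Set.not_subset.1 hs
      obtain ⟨δ, hδ, hb⟩ := Metric.isOpen_iff.1 (isOpen_Ioo.inter (hf i).isOpen_compl) x ⟨hx, hxi⟩
      rw [Real.ball_eq_Ioo] at hb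
      obtain ⟨j, hj, s', t', h1, h2, h3⟩ :=
        ih (s := x - δ) (t := x + δ) (by linarith) fun y hy => by
          have := h (hb hy).1
          simp only [Finset.mem_insert, mem_iUnion, exists_prop] at this ⊢
          obtain ⟨j, rfl | hj, hyj⟩ := this
          · exact absurd hyj (hb hy).2
          · exact ⟨j, hj, hyj⟩
      exact ⟨j, Finset.mem_insert_of_mem hj, s', t', h1, h2.trans fun y hy => (hb hy).1, h3⟩

/-- Arbitrarily short arcs avoid a finite set. -/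
lemma exists_avoid_finite (z : ℂ) {Z : Set ℂ} (hZ : Z.Finite) {s t : ℝ} (hst : s < t) :
    ∃ φ ∈ Ioo s t, z + cs φ ∉ Z := by
  by_contra h
  push Not at h
  have hlt : min t (s + 1) ≤ s + 1 := min_le_right _ _
  have hinj : InjOn (fun φ => z + cs φ) (Ioo s (min t (s + 1))) := by
    intro a ha b hb hab
    simp only [add_right_inj] at hab
    have h1 := congrArg Complex.re hab
    have h2 := congrArg Complex.im hab
    simp only [cs_re, cs_im] at h1 h2
    have h3 : Real.cos (a - b) = 1 := by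
      rw [Real.cos_sub, h1, h2]; linarith [Real.sin_sq_add_cos_sq b]
    rw [Real.cos_eq_one_iff_of_lt_of_lt (by linarith [ha.1, hb.2, Real.two_le_pi])
      (by linarith [ha.2, hb.1, Real.two_le_pi])] at h3
    linarith
  refine ((Ioo_infinite (lt_min hst (by linarith : s < s + 1))).image hinj) (hZ.subset ?_)
  rintro _ ⟨φ, hφ, rfl⟩
  exact h φ ⟨hφ.1, hφ.2.trans_le (min_le_left _ _)⟩

/-- Baire category in a compact set. -/
lemma baire_piece {E : Type*} [MetricSpace E] {X W : Set E} (hX : IsCompact X) (hW : IsOpen W)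
    (hne : (X ∩ W).Nonempty) {ι : Type*} [Countable ι] (Z : ι → Set E)
    (hZ : ∀ i, IsClosed (Z i)) (hcov : X ∩ W ⊆ ⋃ i, Z i) :
    ∃ i, ∃ V, IsOpen V ∧ V ⊆ W ∧ (X ∩ V).Nonempty ∧ X ∩ V ⊆ Z i := by
  haveI : CompactSpace X := isCompact_iff_compactSpace.1 hX
  let f : Option ι → Set X := fun o => Subtype.val ⁻¹' o.elim Wᶜ Z
  have hfc : ∀ o, IsClosed (f o) := fun o => by
    cases o
    · exact hW.isClosed_compl.preimage continuous_subtype_val
    · exact (hZ _).preimage continuous_subtype_val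
  have hfu : ⋃ o, f o = univ := eq_univ_of_forall fun x => by
    by_cases hx : (x : E) ∈ W
    · obtain ⟨i, hi⟩ := mem_iUnion.1 (hcov ⟨x.2, hx⟩)
      exact mem_iUnion.2 ⟨some i, hi⟩
    · exact mem_iUnion.2 ⟨none, hx⟩
  obtain ⟨x₀, hx₀X, hx₀W⟩ := hne
  obtain ⟨x, hxW, hx⟩ := (dense_iUnion_interior_of_closed hfc hfu).inter_open_nonempty
    (Subtype.val ⁻¹' W) (hW.preimage continuous_subtype_val) ⟨⟨x₀, hx₀X⟩, hx₀W⟩
  obtain ⟨o, ho⟩ := mem_iUnion.1 hx
  cases o with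
  | none => exact absurd hxW (interior_subset (s := f none) ho)
  | some i =>
    obtain ⟨V, hV, hVeq⟩ := isOpen_induced_iff.1 (isOpen_interior (s := f (some i)))
    refine ⟨i, V ∩ W, hV.inter hW, inter_subset_right, ⟨x, x.2, ?_, hxW⟩, ?_⟩
    · rw [← hVeq] at ho; exact ho
    · rintro y ⟨hyX, hyV, -⟩
      have : (⟨y, hyX⟩ : X) ∈ interior (f (some i)) := by rw [← hVeq]; exact hyV
      exact interior_subset (s := f (some i)) this

lemma key_five : ∀ a b c d c' d' : Fin 5, a ≠ b → c ≠ d → c' ≠ d' → (c ≠ a ∧ c ≠ b) →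
    (d ≠ a ∧ d ≠ b) → (c' ≠ a ∧ c' ≠ b) → (d' ≠ a ∧ d' ≠ b) →
    c' ≠ c → c' ≠ d → d' ≠ c → d' ≠ d → False := by decide +kernel

/-- All colours outside `{n, m, l}` other than `a`, `b` coincide. -/
def Rest (a b n m l : Fin 5) : Prop :=
  ∀ c d : Fin 5, c ≠ n → c ≠ m → c ≠ l → d ≠ n → d ≠ m → d ≠ l →
    c = a ∨ c = b ∨ d = a ∨ d = b ∨ c = d

instance decRest (a b n m l : Fin 5) : Decidable (Rest a b n m l) := by
  unfold Rest; infer_instance

lemma key_four : ∀ a b n m : Fin 5, a ≠ b → a ≠ n → b ≠ n → a ≠ m → b ≠ m →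
    ∃ l, l ≠ a ∧ l ≠ b ∧ (m = n ∨ m = l) ∧ Rest a b n m l := by decide +kernel

/-- A short vector is not nearly orthogonal to two independent directions. -/
lemma arc_sep_aux {u w m κ D : ℝ} (hD0 : 0 < D) (hDD : D ^ 2 = u ^ 2 + w ^ 2)
    (hsin : 0 < Real.sin κ) (hDs : D < Real.sin κ / 4)
    (h1 : |u * Real.cos m + w * Real.sin m| ≤ D ^ 2 / 2)
    (h2 : |u * Real.cos (m + κ) + w * Real.sin (m + κ)| ≤ D ^ 2 / 2) : False := by
  set α := u * Real.cos m + w * Real.sin m with hα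
  set β := w * Real.cos m - u * Real.sin m with hβ
  have e3 : u * Real.cos (m + κ) + w * Real.sin (m + κ)
      = α * Real.cos κ + β * Real.sin κ := by
    rw [Real.cos_add, Real.sin_add, hα, hβ]; ring
  rw [e3] at h2
  have hDsq : D ^ 2 = α ^ 2 + β ^ 2 := by
    rw [hDD, hα, hβ]; linear_combination (-(u ^ 2 + w ^ 2)) * Real.sin_sq_add_cos_sq m
  have hαc : |α * Real.cos κ| ≤ D ^ 2 / 2 := by
    rw [abs_mul]
    exact (mul_le_of_le_one_right (abs_nonneg _) (Real.abs_cos_le_one κ)).trans h1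
  have hβb : |β| * Real.sin κ ≤ D ^ 2 := by
    have e : |β * Real.sin κ| = |β| * Real.sin κ := by rw [abs_mul, abs_of_pos hsin]
    rw [← e]
    calc |β * Real.sin κ| = |(α * Real.cos κ + β * Real.sin κ) - α * Real.cos κ| := by
          congr 1; ring
      _ ≤ |α * Real.cos κ + β * Real.sin κ| + |α * Real.cos κ| := abs_sub _ _
      _ ≤ D ^ 2 := by linarith
  have hsum : D ≤ |α| + |β| := by
    nlinarith [sq_abs α, sq_abs β, abs_nonneg α, abs_nonneg β]
  have := Real.sin_le_one κ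
  have h3 := mul_le_mul_of_nonneg_right hsum hsin.le
  have h4 := mul_le_mul_of_nonneg_right h1 hsin.le
  have h5 : D ^ 2 / 2 * Real.sin κ ≤ D ^ 2 / 2 :=
    mul_le_of_le_one_right (by positivity) this
  nlinarith

/-- Polar coordinates near a point of a unit circle, uniformly in the centre. -/
lemma exists_polar {a b δ : ℝ} (hab : a < b) (hδ : 0 < δ) :
    ∃ ε > 0, ∀ t y : ℂ, dist y (t + cs ((a + b) / 2)) < ε →
      ∃ r ψ, y = pol t r ψ ∧ |r - 1| < δ ∧ ψ ∈ Ioo a b := by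
  set m := (a + b) / 2 with hm
  have h1 : ∀ᶠ w : ℂ in 𝓝 1, |‖w‖ - 1| < δ ∧ |Complex.arg w| < (b - a) / 2 := by
    refine Filter.Eventually.and ?_ ?_
    · have hc : Continuous fun w : ℂ => |‖w‖ - 1| := by fun_prop
      exact hc.continuousAt.eventually (Iio_mem_nhds (by simpa using hδ))
    · have hc : ContinuousAt (fun w : ℂ => |Complex.arg w|) 1 :=
        (Complex.continuousAt_arg (by simp [Complex.slitPlane])).abs
      exact hc.eventually (Iio_mem_nhds (by simp; linarith))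
  obtain ⟨ε, hε, hh⟩ := Metric.eventually_nhds_iff.1 h1
  refine ⟨ε, hε, fun t y hy => ?_⟩
  have hinv : cs (-m) * cs m = 1 := by
    rw [← cs_add]; apply Complex.ext <;> simp
  set w := (y - t) * cs (-m) with hw
  have hw1 : dist w 1 < ε := by
    rw [dist_eq_norm, hw, ← hinv, show (y - t) * cs (-m) - cs (-m) * cs m
      = (y - (t + cs m)) * cs (-m) by ring, norm_mul, norm_cs, mul_one, ← dist_eq_norm]
    exact hy
  obtain ⟨g1, g2⟩ := hh hw1
  have hwp : (‖w‖ : ℂ) * cs (Complex.arg w) = w := by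
    apply Complex.ext <;> simp
  refine ⟨‖w‖, m + Complex.arg w, ?_, g1, ?_⟩
  · rw [pol, cs_add, ← mul_assoc, mul_comm (‖w‖ : ℂ) (cs m), mul_assoc, hwp, hw,
      show cs m * ((y - t) * cs (-m)) = (y - t) * (cs (-m) * cs m) by ring, hinv]
    ring
  · obtain ⟨h2, h3⟩ := abs_lt.1 g2
    constructor <;> linarith

lemma radial_of_side {t : ℂ} {σ : Bool} {δ r ψ : ℝ} (hδ : δ ≤ 1) (hr : |r - 1| < δ)
    (hs : pol t r ψ ∈ side t σ) : r ∈ radial σ δ := by
  obtain ⟨h1, h2⟩ := abs_lt.1 hr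
  have hd : dist (pol t r ψ) t = r := dist_pol (by linarith) t ψ
  cases σ
  · have : 1 < dist (pol t r ψ) t := hs
    simp only [radial, Bool.false_eq_true, ↓reduceIte, mem_Ioo]; constructor <;> linarith
  · have : dist (pol t r ψ) t < 1 := hs
    simp only [radial, ↓reduceIte, mem_Ioo]; constructor <;> linarith

namespace Col

variable (C : Col)

/-- The angles at which the unit circle about `z` meets `F p`. -/
def ang (z : ℂ) (p : Fin 5) : Set ℝ := {φ | z + cs φ ∈ C.F p}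

lemma isClosed_ang (z : ℂ) (p : Fin 5) : IsClosed (C.ang z p) :=
  (C.isClosed_F p).preimage (continuous_circle z)

lemma arcX_iv {z : ℂ} {p : Fin 5} {s t φ : ℝ} (h : Ioo s t ⊆ C.ang z p) (hφ : φ ∈ Ioo s t) :
    φ + Real.pi / 3 ∉ C.ang z p ∧ φ - Real.pi / 3 ∉ C.ang z p := by
  refine C.arcX (η := min (φ - s) (t - φ)) (lt_min (by linarith [hφ.1]) (by linarith [hφ.2]))
    fun ψ hψ => h ⟨?_, ?_⟩
  · linarith [hψ.1, min_le_left (φ - s) (t - φ)]
  · linarith [hψ.2, min_le_right (φ - s) (t - φ)]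

/-- A colour of `z` is never the only colour of a point at distance 1. -/
lemma circle_colours (z : ℂ) (φ : ℝ) : ∃ c ∈ C.S (z + cs φ),
    c ∉ C.S z ∨ ∃ d ∈ C.S (z + cs φ), d ≠ c := by
  obtain ⟨c, hc⟩ := C.S_nonempty (z + cs φ)
  refine ⟨c, hc, ?_⟩
  by_contra hcon
  push Not at hcon
  have hU : z + cs φ ∈ C.U c :=
    C.U_iff_S.2 (Finset.eq_singleton_iff_unique_mem.2 ⟨hc, hcon.2⟩)
  exact C.noUF hU (C.mem_S.1 hcon.1) (dist_cs z φ)

/-- The colours of `z` having an arc on the unit circle about `z`. -/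
def HasArc (z : ℂ) (x : Fin 5) : Prop := ∃ a b : ℚ, a < b ∧ ∀ φ ∈ Icc (a : ℝ) b, φ ∈ C.ang z x

lemma hasArc_of_iv {z : ℂ} {x : Fin 5} {s t : ℝ} (hst : s < t) (h : Ioo s t ⊆ C.ang z x) :
    C.HasArc z x := by
  obtain ⟨a, ha1, ha2⟩ := exists_rat_btwn hst
  obtain ⟨b, hb1, hb2⟩ := exists_rat_btwn ha2
  exact ⟨a, b, by exact_mod_cast hb1, fun φ hφ => h ⟨ha1.trans_le hφ.1, hφ.2.trans_lt hb2⟩⟩

/-- Some open interval of angles avoids a colour. -/
lemma exists_off (z : ℂ) (m : Fin 5) : ∃ φ, φ ∉ C.ang z m := by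
  by_contra h
  push Not at h
  have h1 := C.dist_le_one (isPreconnected_univ.image _ (continuous_circle z).continuousOn)
    (p := m) (by rintro _ ⟨φ, -, rfl⟩; exact h φ) ⟨0, trivial, rfl⟩ ⟨Real.pi, trivial, rfl⟩
  have h2 := dist_circle_sq z 0 Real.pi
  simp only [zero_sub, Real.cos_neg, Real.cos_pi] at h2
  nlinarith [dist_nonneg (x := z + cs 0) (y := z + cs Real.pi)]

/-- An interval on which every point has two colours from `A` has a two-coloured subinterval. -/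
lemma exists_pair {z : ℂ} {s t : ℝ} (hst : s < t) (A : Finset (Fin 5))
    (h : ∀ φ ∈ Ioo s t, ∃ c ∈ A, ∃ d ∈ A, c ≠ d ∧ φ ∈ C.ang z c ∧ φ ∈ C.ang z d) :
    ∃ c ∈ A, ∃ d ∈ A, c ≠ d ∧ ∃ s' t', s' < t' ∧ Ioo s' t' ⊆ Ioo s t ∧
      Ioo s' t' ⊆ C.ang z c ∧ Ioo s' t' ⊆ C.ang z d := by
  obtain ⟨⟨c, d⟩, hcd, s', t', h1, h2, h3⟩ := sub_interval
    ((A ×ˢ A).filter fun x => x.1 ≠ x.2) (f := fun x => C.ang z x.1 ∩ C.ang z x.2)
    (fun x => (C.isClosed_ang z _).inter (C.isClosed_ang z _)) hst fun φ hφ => by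
      obtain ⟨c, hc, d, hd, hne, h1, h2⟩ := h φ hφ
      exact mem_iUnion₂.2 ⟨(c, d), by simp [hc, hd, hne], h1, h2⟩
  simp only [Finset.mem_filter, Finset.mem_product] at hcd
  exact ⟨c, hcd.1.1, d, hcd.1.2, hcd.2, s', t', h1, h2, fun φ hφ => (h3 hφ).1,
    fun φ hφ => (h3 hφ).2⟩

/-- Four or five colours: all but two of them have arcs. -/
lemma arcs_big {z : ℂ} (h : 4 ≤ (C.S z).card) :
    ∃ X ⊆ C.S z, (C.S z \ X).card ≤ 2 ∧ ∀ x ∈ X, C.HasArc z x := by
  classical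
  refine ⟨(C.S z).filter (C.HasArc z), Finset.filter_subset _ _, ?_,
    fun x hx => (Finset.mem_filter.1 hx).2⟩
  have hmem : ∀ {x s t}, x ∈ C.S z → s < t → Ioo s t ⊆ C.ang z x →
      x ∈ (C.S z).filter (C.HasArc z) := fun hx hst hsub =>
    Finset.mem_filter.2 ⟨hx, C.hasArc_of_iv hst hsub⟩
  have hle : (C.S z).card ≤ 5 := by simpa using (C.S z).card_le_univ
  rcases (show (C.S z).card = 4 ∨ (C.S z).card = 5 by omega) with h4 | h5
  · obtain ⟨m, hm⟩ := Finset.card_eq_one.1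
      (show (Finset.univ \ C.S z).card = 1 by
        rw [Finset.card_sdiff_of_subset (Finset.subset_univ _), h4]; simp)
    obtain ⟨φ₀, hφ₀⟩ := C.exists_off z m
    obtain ⟨δ, hδ, hb⟩ := Metric.isOpen_iff.1 (C.isClosed_ang z m).isOpen_compl φ₀ hφ₀
    rw [Real.ball_eq_Ioo] at hb
    obtain ⟨c, hc, d, hd, hcd, s, t, hst, -, hsc, hsd⟩ :=
      C.exists_pair (z := z) (show φ₀ - δ < φ₀ + δ by linarith) (C.S z) fun φ hφ => by
        have hS : ∀ c ∈ C.S (z + cs φ), c ∈ C.S z := by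
          intro c hc
          by_contra hcS
          have : c ∈ ({m} : Finset (Fin 5)) := hm ▸ Finset.mem_sdiff.2 ⟨Finset.mem_univ _, hcS⟩
          rw [Finset.mem_singleton] at this
          exact hb hφ (this ▸ C.mem_S.1 hc)
        obtain ⟨c, hc, h' | ⟨d, hd, hdc⟩⟩ := C.circle_colours z φ
        · exact absurd (hS c hc) h'
        · exact ⟨c, hS c hc, d, hS d hd, hdc.symm, C.mem_S.1 hc, C.mem_S.1 hd⟩
    have hsub : {c, d} ⊆ (C.S z).filter (C.HasArc z) :=
      Finset.insert_subset (hmem hc hst hsc) (Finset.singleton_subset_iff.2 (hmem hd hst hsd))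
    have := Finset.card_le_card hsub
    rw [Finset.card_pair hcd] at this
    rw [Finset.card_sdiff_of_subset (Finset.filter_subset _ _)]
    omega
  · have huniv : C.S z = Finset.univ := Finset.eq_univ_of_card _ (by simpa using h5)
    have hall : ∀ φ, ∃ c ∈ C.S z, ∃ d ∈ C.S z, c ≠ d ∧ φ ∈ C.ang z c ∧ φ ∈ C.ang z d := by
      intro φ
      obtain ⟨c, hc, h' | ⟨d, hd, hdc⟩⟩ := C.circle_colours z φ
      · exact absurd (huniv ▸ Finset.mem_univ c) h'
      · exact ⟨c, by simp [huniv], d, by simp [huniv], hdc.symm, C.mem_S.1 hc, C.mem_S.1 hd⟩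
    obtain ⟨c, hc, d, hd, hcd, s, t, hst, -, hsc, hsd⟩ :=
      C.exists_pair (z := z) zero_lt_one (C.S z) fun φ _ => hall φ
    obtain ⟨c', hc', d', hd', hcd', s', t', hst', hsub', hsc', hsd'⟩ :=
      C.exists_pair (z := z) (show s + Real.pi / 3 < t + Real.pi / 3 by linarith) (C.S z)
        fun φ _ => hall φ
    obtain ⟨φ, hφ⟩ := nonempty_Ioo.2 hst'
    have hφ0 : φ - Real.pi / 3 ∈ Ioo s t :=
      ⟨by linarith [(hsub' hφ).1], by linarith [(hsub' hφ).2]⟩
    have hx := (C.arcX_iv hsc hφ0).1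
    have hy := (C.arcX_iv hsd hφ0).1
    rw [sub_add_cancel] at hx hy
    have n1 : c' ≠ c := fun e => hx (e ▸ hsc' hφ)
    have n2 : c' ≠ d := fun e => hy (e ▸ hsc' hφ)
    have hsub : {c', c, d} ⊆ (C.S z).filter (C.HasArc z) :=
      Finset.insert_subset (hmem hc' hst' hsc') (Finset.insert_subset (hmem hc hst hsc)
        (Finset.singleton_subset_iff.2 (hmem hd hst hsd)))
    have := Finset.card_le_card hsub
    rw [Finset.card_eq_three.2 ⟨c', c, d, n1, n2, hcd, rfl⟩] at this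
    rw [Finset.card_sdiff_of_subset (Finset.filter_subset _ _)]
    omega

/-- An arc of `C_q` in `F p` expels `p` from nearby points `q + cs φ + cs ψ`. -/
lemma cross_pair {q : ℂ} {p : Fin 5} {φ ψ : ℝ} (hφ : C.ang q p ∈ 𝓝 φ)
    (hsin : 1 / 2 ≤ |Real.sin (ψ - φ)|) : ∀ᶠ y in 𝓝 (q + cs φ + cs ψ), y ∉ C.U p := by
  obtain ⟨η, hη, hb⟩ := Metric.mem_nhds_iff.1 hφ
  rw [Real.ball_eq_Ioo] at hb
  obtain ⟨κ, hκ, hκη, hκ8⟩ : ∃ κ : ℝ, 0 < κ ∧ κ < η ∧ κ ≤ 1 / 16 :=
    ⟨min (η / 2) (1 / 16), lt_min (by linarith) (by norm_num),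
      lt_of_le_of_lt (min_le_left _ _) (by linarith), min_le_right _ _⟩
  set x := q + cs φ + cs ψ with hx
  have hd : ∀ h, dist x (q + cs (φ + h)) ^ 2 = 1 + 2 * (1 - Real.cos h) * (1 + Real.cos (ψ - φ))
      - 2 * Real.sin (ψ - φ) * Real.sin h := by
    intro h
    rw [dist_sq, hx]
    simp only [Complex.add_re, Complex.add_im, cs_re, cs_im, Real.cos_add, Real.sin_add,
      Real.cos_sub, Real.sin_sub]
    linear_combination (Real.cos h ^ 2 + Real.sin h ^ 2 - 2 * Real.cos h + 1)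
      * Real.sin_sq_add_cos_sq φ + Real.sin_sq_add_cos_sq ψ + Real.sin_sq_add_cos_sq h
  have hK : IsPreconnected ((fun u => q + cs u) '' Ioo (φ - η) (φ + η)) :=
    isPreconnected_Ioo.image _ (continuous_circle q).continuousOn
  have hKF : (fun u => q + cs u) '' Ioo (φ - η) (φ + η) ⊆ C.F p := by
    rintro _ ⟨u, hu, rfl⟩; exact hb hu
  have hs : κ / 2 ≤ Real.sin κ := by
    refine le_trans ?_ (Real.mul_le_sin hκ.le (by linarith [Real.two_le_pi]))
    have h' : 1 / 2 ≤ 2 / Real.pi := by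
      rw [div_le_div_iff₀ (by norm_num) Real.pi_pos]; linarith [Real.pi_le_four]
    nlinarith
  have hc := Real.one_sub_sq_div_two_le_cos (x := κ)
  have hc1 := Real.cos_le_one κ
  have hm : ∀ h, |h| = κ → φ + h ∈ Ioo (φ - η) (φ + η) := fun h hh => by
    have := abs_le.1 hh.le; constructor <;> linarith
  have hcD := Real.cos_le_one (ψ - φ)
  have hcD' := Real.neg_one_le_cos (ψ - φ)
  have hquad : 2 * (1 - Real.cos κ) * (1 + Real.cos (ψ - φ)) ≤ 2 * κ ^ 2 :=
    le_trans (mul_le_mul_of_nonneg_left (by linarith : 1 + Real.cos (ψ - φ) ≤ 2) (by linarith))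
      (by nlinarith)
  obtain ⟨h₁, h₂, hh1, hh2, e1, e2⟩ : ∃ h₁ h₂, |h₁| = κ ∧ |h₂| = κ ∧
      dist x (q + cs (φ + h₁)) < 1 ∧ 1 < dist x (q + cs (φ + h₂)) := by
    rcases le_or_gt 0 (Real.sin (ψ - φ)) with hp | hp
    · rw [abs_of_nonneg hp] at hsin
      refine ⟨κ, -κ, abs_of_pos hκ, by rw [abs_neg, abs_of_pos hκ], dist_lt_one ?_,
        one_lt_dist ?_⟩
      · rw [hd]; nlinarith [mul_le_mul hsin hs (by linarith) hp]
      · rw [hd, Real.cos_neg, Real.sin_neg]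
        nlinarith [mul_le_mul hsin hs (by linarith) hp,
          mul_nonneg (by linarith : 0 ≤ 1 - Real.cos κ)
            (by linarith : 0 ≤ 1 + Real.cos (ψ - φ))]
    · rw [abs_of_neg hp] at hsin
      refine ⟨-κ, κ, by rw [abs_neg, abs_of_pos hκ], abs_of_pos hκ, dist_lt_one ?_,
        one_lt_dist ?_⟩
      · rw [hd, Real.cos_neg, Real.sin_neg]
        nlinarith [mul_le_mul hsin hs (by linarith) (neg_nonneg.2 hp.le)]
      · rw [hd]
        nlinarith [mul_le_mul hsin hs (by linarith) (neg_nonneg.2 hp.le),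
          mul_nonneg (by linarith : 0 ≤ 1 - Real.cos κ)
            (by linarith : 0 ≤ 1 + Real.cos (ψ - φ))]
  filter_upwards [(isOpen_between (q + cs (φ + h₁)) (q + cs (φ + h₂))).mem_nhds ⟨e1, e2⟩]
    with y hy
  exact C.cross_U hK hKF ⟨_, hm h₁ hh1, rfl⟩ ⟨_, hm h₂ hh2, rfl⟩ hy.1.le hy.2.le

/-- A three-coloured point whose circle lies in the two other closed classes. -/
structure Split (q : ℂ) (a b : Fin 5) : Prop where
  ne : a ≠ b
  hS : C.S q = Finset.univ \ {a, b}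
  cov : ∀ φ, φ ∈ C.ang q a ∨ φ ∈ C.ang q b

variable {C}

lemma Split.symm {q : ℂ} {a b : Fin 5} (h : C.Split q a b) : C.Split q b a :=
  ⟨h.ne.symm, by rw [h.hS, Finset.pair_comm], fun φ => (h.cov φ).symm⟩

/-- The angles of the colour changes. -/
def jset (C : Col) (q : ℂ) (a b : Fin 5) : Set ℝ :=
  (interior (C.ang q a) ∪ interior (C.ang q b))ᶜ

lemma jset_comm (q : ℂ) (a b : Fin 5) : C.jset q a b = C.jset q b a := by
  rw [jset, jset, Set.union_comm]

lemma Split.shift {q : ℂ} {a b : Fin 5} (h : C.Split q a b) {φ : ℝ}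
    (hφ : φ ∈ interior (C.ang q a)) :
    φ + Real.pi / 3 ∈ interior (C.ang q b) ∧ φ - Real.pi / 3 ∈ interior (C.ang q b) := by
  obtain ⟨δ, hδ, hb⟩ := Metric.isOpen_iff.1 isOpen_interior φ hφ
  rw [Real.ball_eq_Ioo] at hb
  have hsub : Ioo (φ - δ) (φ + δ) ⊆ C.ang q a := hb.trans interior_subset
  constructor
  · refine mem_interior.2 ⟨Ioo (φ + Real.pi / 3 - δ) (φ + Real.pi / 3 + δ), ?_, isOpen_Ioo,
      by constructor <;> linarith⟩
    intro ψ hψ
    have := (C.arcX_iv hsub (φ := ψ - Real.pi / 3)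
      ⟨by linarith [hψ.1], by linarith [hψ.2]⟩).1
    rw [sub_add_cancel] at this
    exact (h.cov ψ).resolve_left this
  · refine mem_interior.2 ⟨Ioo (φ - Real.pi / 3 - δ) (φ - Real.pi / 3 + δ), ?_, isOpen_Ioo,
      by constructor <;> linarith⟩
    intro ψ hψ
    have := (C.arcX_iv hsub (φ := ψ + Real.pi / 3)
      ⟨by linarith [hψ.1], by linarith [hψ.2]⟩).2
    rw [add_sub_cancel_right] at this
    exact (h.cov ψ).resolve_left this

lemma Split.disjoint {q : ℂ} {a b : Fin 5} (h : C.Split q a b) :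
    Disjoint (interior (C.ang q a)) (interior (C.ang q b)) := by
  rw [Set.disjoint_left]
  intro φ ha hb
  obtain ⟨δ, hδ, hsub⟩ := Metric.isOpen_iff.1 (isOpen_interior.inter isOpen_interior) φ ⟨ha, hb⟩
  rw [Real.ball_eq_Ioo] at hsub
  have hm : φ ∈ Ioo (φ - δ) (φ + δ) := ⟨by linarith, by linarith⟩
  have x1 := (C.arcX_iv (fun ψ hψ => interior_subset (s := C.ang q a) (hsub hψ).1) hm).1
  have x2 := (C.arcX_iv (fun ψ hψ => interior_subset (s := C.ang q b) (hsub hψ).2) hm).1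
  rcases h.cov (φ + Real.pi / 3) with h' | h'
  · exact x1 h'
  · exact x2 h'

lemma Split.jset_shift {q : ℂ} {a b : Fin 5} (h : C.Split q a b) {φ : ℝ}
    (hφ : φ ∈ C.jset q a b) :
    φ + Real.pi / 3 ∈ C.jset q a b ∧ φ - Real.pi / 3 ∈ C.jset q a b := by
  constructor <;> intro hh <;> refine hφ ?_
  · rcases hh with hh | hh
    · exact Or.inr (by simpa using (h.shift hh).2)
    · exact Or.inl (by simpa using (h.symm.shift hh).2)
  · rcases hh with hh | hh
    · exact Or.inr (by simpa using (h.shift hh).1)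
    · exact Or.inl (by simpa using (h.symm.shift hh).1)

lemma Split.mem_closure {q : ℂ} {a b : Fin 5} (h : C.Split q a b) {φ : ℝ}
    (hφ : φ ∈ C.jset q a b) : φ ∈ closure (interior (C.ang q a)) := by
  rw [Metric.mem_closure_iff]
  intro δ hδ
  by_contra hcon
  push Not at hcon
  refine hφ (Or.inr (interior_maximal ?_ (isOpen_ball (x := φ) (ε := δ)) (mem_ball_self hδ)))
  intro ψ hψ
  by_contra hψb
  have hWa : ball φ δ ∩ (C.ang q b)ᶜ ⊆ interior (C.ang q a) :=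
    interior_maximal (fun x hx => (h.cov x).resolve_right hx.2)
      (isOpen_ball.inter (C.isClosed_ang q b).isOpen_compl)
  have hψ' := mem_ball.1 hψ
  have := hcon ψ (hWa ⟨hψ, hψb⟩)
  rw [dist_comm] at this
  linarith

lemma Split.jset_colour {q : ℂ} {a b : Fin 5} (h : C.Split q a b) {φ : ℝ}
    (hφ : φ ∈ C.jset q a b) : φ ∈ C.ang q a :=
  closure_minimal interior_subset (C.isClosed_ang q a) (h.mem_closure hφ)

lemma Split.jset_nonempty {q : ℂ} {a b : Fin 5} (h : C.Split q a b) :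
    (C.jset q a b).Nonempty := by
  by_contra hne
  have hcov : (univ : Set ℝ) ⊆ interior (C.ang q a) ∪ interior (C.ang q b) := fun φ _ => by
    by_contra hφ; exact hne ⟨φ, hφ⟩
  rcases isPreconnected_univ.subset_or_subset isOpen_interior isOpen_interior h.disjoint hcov
    with hs | hs
  · obtain ⟨φ, hφ⟩ := C.exists_off q a
    exact hφ (interior_subset (hs trivial))
  · obtain ⟨φ, hφ⟩ := C.exists_off q b
    exact hφ (interior_subset (hs trivial))

/-- Colour changes happen at tri-coloured points. -/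
lemma Split.third {q : ℂ} {a b : Fin 5} (h : C.Split q a b) {φ : ℝ} (hφ : φ ∈ C.jset q a b) :
    3 ≤ (C.S (q + cs φ)).card := by
  by_contra hlt
  have hab : ({a, b} : Finset (Fin 5)) ⊆ C.S (q + cs φ) := by
    refine Finset.insert_subset (C.mem_S.2 (h.jset_colour hφ))
      (Finset.singleton_subset_iff.2 (C.mem_S.2 (h.symm.jset_colour (jset_comm q a b ▸ hφ))))
  have hSeq : C.S (q + cs φ) = {a, b} :=
    (Finset.eq_of_subset_of_card_le hab (by rw [Finset.card_pair h.ne]; omega)).symm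
  obtain ⟨hplus, hminus⟩ := h.jset_shift hφ
  have hG : Continuous fun x : ℝ × ℝ => q + cs x.1 + cs x.2 := by
    have h1 := continuous_circle 0
    simp only [zero_add] at h1
    fun_prop
  have hsin : Continuous fun x : ℝ × ℝ => |Real.sin (x.2 - x.1)| := by fun_prop
  have hev : ∀ᶠ x : ℝ × ℝ in 𝓝 (φ + Real.pi / 3, φ - Real.pi / 3),
      C.S (q + cs x.1 + cs x.2) ⊆ C.S (q + cs φ) ∧ 1 / 2 < |Real.sin (x.2 - x.1)| := by
    refine Filter.Eventually.and ?_ ?_
    · have h0 : q + cs (φ + Real.pi / 3) + cs (φ - Real.pi / 3) = q + cs φ := by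
        rw [add_assoc, cs_sum]
      exact (hG.continuousAt (x := (φ + Real.pi / 3, φ - Real.pi / 3))).eventually
        (show ∀ᶠ y in 𝓝 (q + cs (φ + Real.pi / 3) + cs (φ - Real.pi / 3)),
          C.S y ⊆ C.S (q + cs φ) by rw [h0]; exact C.S_nhds _)
    · refine hsin.continuousAt.eventually (Ioi_mem_nhds ?_)
      show 1 / 2 < |Real.sin (φ - Real.pi / 3 - (φ + Real.pi / 3))|
      rw [show φ - Real.pi / 3 - (φ + Real.pi / 3) = -(Real.pi - Real.pi / 3) by ring,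
        Real.sin_neg, Real.sin_pi_sub, Real.sin_pi_div_three, abs_neg, abs_of_pos (by positivity)]
      nlinarith [Real.sq_sqrt (show (0 : ℝ) ≤ 3 by norm_num), Real.sqrt_nonneg 3]
  rw [nhds_prod_eq, Filter.eventually_prod_iff] at hev
  obtain ⟨P, hP, Q, hQ, hPQ⟩ := hev
  obtain ⟨φ₁, hφ₁, hP₁⟩ := ((mem_closure_iff_frequently.1 (h.mem_closure hplus)).and_eventually
    hP).exists
  obtain ⟨φ₂, hφ₂, hQ₂⟩ := ((mem_closure_iff_frequently.1
    (h.symm.mem_closure (jset_comm q a b ▸ hminus))).and_eventually hQ).exists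
  obtain ⟨hS, hs⟩ := hPQ hP₁ hQ₂
  have ev1 := C.cross_pair (mem_interior_iff_mem_nhds.1 hφ₁) (ψ := φ₂) hs.le
  have ev2 := C.cross_pair (mem_interior_iff_mem_nhds.1 hφ₂) (ψ := φ₁)
    (by rw [← neg_sub, Real.sin_neg, abs_neg]; exact hs.le)
  rw [show q + cs φ₂ + cs φ₁ = q + cs φ₁ + cs φ₂ by ring] at ev2
  obtain ⟨W, hW, hWo, hxW⟩ := _root_.eventually_nhds_iff.1
    (ev1.and (ev2.and (C.S_nhds (q + cs φ₁ + cs φ₂))))
  obtain ⟨y, hyW, hyU⟩ := C.dense.inter_open_nonempty W hWo ⟨_, hxW⟩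
  obtain ⟨c, hc⟩ := mem_iUnion.1 hyU
  obtain ⟨na, nb, hSy⟩ := hW y hyW
  have := hS (hSy (C.mem_S.2 (C.U_subset_F c hc)))
  rw [hSeq, Finset.mem_insert, Finset.mem_singleton] at this
  rcases this with rfl | rfl
  · exact na hc
  · exact nb hc

/-- On one of the two circles through `q` and a colour change there is an arc of `a` or `b`. -/
lemma Split.line_aux {q : ℂ} {a b : Fin 5} (h : C.Split q a b) {α β φ₀ δ : ℝ}
    (hα : α ∈ C.jset q a b) (hβ : β ∈ C.jset q a b) (hs : cs β + cs φ₀ = cs α)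
    (hδ : δ = Real.pi / 3 ∨ δ = -(Real.pi / 3)) (hq : cs (φ₀ + δ) = -cs β)
    (hno : ∀ r r' : ℝ, r < r' →
      ¬Ioo r r' ⊆ C.ang (q + cs β) a ∧ ¬Ioo r r' ⊆ C.ang (q + cs β) b) :
    (C.S (q + cs α)).card ≠ 3 ∧ (C.S (q + cs β)).card ≠ 5 ∧
      ((C.S (q + cs α)).card = 4 → (C.S (q + cs β)).card = 4 → False) := by
  classical
  set t := q + cs β with ht
  have hts : t + cs φ₀ = q + cs α := by rw [ht, add_assoc, hs]
  have htq : t + cs (φ₀ + δ) = q := by rw [ht, hq]; ring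
  have hab : ∀ {γ}, γ ∈ C.jset q a b → a ∈ C.S (q + cs γ) ∧ b ∈ C.S (q + cs γ) := fun hγ =>
    ⟨C.mem_S.2 (h.jset_colour hγ),
      C.mem_S.2 (h.symm.jset_colour (jset_comm q a b ▸ hγ))⟩
  have hSq : ∀ l, l ≠ a → l ≠ b → l ∈ C.S q := fun l h1 h2 => by simp [h.hS, h1, h2]
  obtain ⟨η, hη, hwin⟩ : ∃ η > 0, ∀ ψ ∈ Ioo (φ₀ - η) (φ₀ + η),
      C.S (t + cs ψ) ⊆ C.S (q + cs α) ∧ C.S (t + cs (ψ + δ)) ⊆ C.S q := by
    have c1 := (continuous_circle t).continuousAt (x := φ₀)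
    have c2 := ((continuous_circle t).comp (continuous_add_const δ)).continuousAt (x := φ₀)
    obtain ⟨η, hη, hh⟩ := Metric.eventually_nhds_iff_ball.1
      ((c1.eventually (show ∀ᶠ y in 𝓝 (t + cs φ₀), C.S y ⊆ C.S (q + cs α) by
        rw [hts]; exact C.S_nhds _)).and
      (c2.eventually (show ∀ᶠ y in 𝓝 (t + cs (φ₀ + δ)), C.S y ⊆ C.S q by
        rw [htq]; exact C.S_nhds _)))
    exact ⟨η, hη, fun ψ hψ => hh ψ (by rwa [Real.ball_eq_Ioo])⟩
  -- a colour of `q` fills no window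
  have hfull : ∀ l, l ≠ a → l ≠ b →
      (∀ ψ ∈ Ioo (φ₀ - η) (φ₀ + η), ψ ∉ C.ang t l → ψ ∈ C.ang t a ∨ ψ ∈ C.ang t b) → False := by
    intro l hla hlb hl
    have hsub : Ioo (φ₀ - η) (φ₀ + η) ⊆ C.ang t l := by
      intro ψ hψ
      by_contra hψl
      obtain ⟨ε, hε, hb⟩ :=
        Metric.isOpen_iff.1 (isOpen_Ioo.inter (C.isClosed_ang t l).isOpen_compl) ψ ⟨hψ, hψl⟩
      rw [Real.ball_eq_Ioo] at hb
      obtain ⟨i, hi, r, r', hr, -, hri⟩ := sub_interval {a, b} (C.isClosed_ang t)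
        (show ψ - ε < ψ + ε by linarith) fun x hx => by
          rcases hl x (hb hx).1 (hb hx).2 with hh | hh
          · exact mem_iUnion₂.2 ⟨a, by simp, hh⟩
          · exact mem_iUnion₂.2 ⟨b, by simp, hh⟩
      rcases Finset.mem_insert.1 hi with rfl | hi
      · exact (hno r r' hr).1 hri
      · rw [Finset.mem_singleton] at hi; subst hi; exact (hno r r' hr).2 hri
    have hx := C.arcX_iv hsub (φ := φ₀) ⟨by linarith, by linarith⟩
    have hql : φ₀ + δ ∈ C.ang t l := by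
      show t + cs (φ₀ + δ) ∈ C.F l
      rw [htq]; exact C.mem_S.1 (hSq l hla hlb)
    rcases hδ with rfl | rfl
    · exact hx.1 hql
    · rw [← sub_eq_add_neg] at hql; exact hx.2 hql
  refine ⟨fun h3 => ?_, fun h5 => ?_, fun hs4 ht4 => ?_⟩
  · obtain ⟨l, hl⟩ := Finset.card_eq_one.1 (show (C.S (q + cs α) \ {a, b}).card = 1 by
      rw [Finset.card_sdiff_of_subset (Finset.insert_subset (hab hα).1
        (Finset.singleton_subset_iff.2 (hab hα).2)), h3, Finset.card_pair h.ne])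
    have hlm : l ∈ C.S (q + cs α) \ {a, b} := by rw [hl]; simp
    simp only [Finset.mem_sdiff, Finset.mem_insert, Finset.mem_singleton, not_or] at hlm
    refine hfull l hlm.2.1 hlm.2.2 fun ψ hψ hψl => ?_
    obtain ⟨c, hc⟩ := C.S_nonempty (t + cs ψ)
    have hca := (hwin ψ hψ).1 hc
    by_cases h1 : c = a
    · exact Or.inl (h1 ▸ C.mem_S.1 hc)
    by_cases h2 : c = b
    · exact Or.inr (h2 ▸ C.mem_S.1 hc)
    have : c ∈ ({l} : Finset (Fin 5)) := hl ▸ by simp [hca, h1, h2]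
    rw [Finset.mem_singleton] at this
    exact absurd (this ▸ C.mem_S.1 hc) hψl
  · have huniv : C.S t = Finset.univ := Finset.eq_univ_of_card _ (by simpa using h5)
    have hall : ∀ ψ, ∃ c, ∃ d, c ≠ d ∧ c ∈ C.S (t + cs ψ) ∧ d ∈ C.S (t + cs ψ) := by
      intro ψ
      obtain ⟨c, hc, h' | ⟨d, hd, hdc⟩⟩ := C.circle_colours t ψ
      · exact absurd (huniv ▸ Finset.mem_univ c) h'
      · exact ⟨c, d, hdc.symm, hc, hd⟩
    obtain ⟨c, -, d, -, hcd, r, r', hr, hrsub, hrc, hrd⟩ := C.exists_pair (z := t)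
      (show φ₀ - η < φ₀ + η by linarith) Finset.univ fun ψ _ => by
        obtain ⟨c, d, h1, h2, h3⟩ := hall ψ
        exact ⟨c, Finset.mem_univ _, d, Finset.mem_univ _, h1, C.mem_S.1 h2, C.mem_S.1 h3⟩
    have hnc : ∀ x, Ioo r r' ⊆ C.ang t x → x ≠ a ∧ x ≠ b := fun x hx =>
      ⟨fun e => (hno r r' hr).1 (e ▸ hx), fun e => (hno r r' hr).2 (e ▸ hx)⟩
    set ψ := (r + r') / 2 with hψ
    have hψm : ψ ∈ Ioo r r' := ⟨by linarith, by linarith⟩
    obtain ⟨c', d', hcd', hc', hd'⟩ := hall (ψ + δ)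
    have hcq := (hwin ψ (hrsub hψm)).2 hc'
    have hdq := (hwin ψ (hrsub hψm)).2 hd'
    have hne : ∀ x y, x ∈ C.S (t + cs (ψ + δ)) → Ioo r r' ⊆ C.ang t y → x ≠ y := by
      intro x y hx hy e
      have hxX := C.arcX_iv hy hψm
      have hm : ψ + δ ∈ C.ang t y := e ▸ C.mem_S.1 hx
      rcases hδ with rfl | rfl
      · exact hxX.1 hm
      · rw [← sub_eq_add_neg] at hm; exact hxX.2 hm
    simp only [h.hS, Finset.mem_sdiff, Finset.mem_univ, Finset.mem_insert, Finset.mem_singleton,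
      true_and, not_or] at hcq hdq
    exact key_five a b c d c' d' h.ne hcd hcd' (hnc c hrc) (hnc d hrd) hcq hdq (hne c' c hc' hrc)
      (hne c' d hc' hrd) (hne d' c hd' hrc) (hne d' d hd' hrd)
  · have miss : ∀ x : ℂ, (C.S x).card = 4 → ∃ m, ∀ c, c ∈ C.S x ↔ c ≠ m := by
      intro x hx
      obtain ⟨m, hm⟩ := Finset.card_eq_one.1 (show (Finset.univ \ C.S x).card = 1 by
        rw [Finset.card_sdiff_of_subset (Finset.subset_univ _), hx]; simp)
      refine ⟨m, fun c => ?_⟩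
      have : c ∈ (Finset.univ \ C.S x) ↔ c ∈ ({m} : Finset (Fin 5)) := by rw [hm]
      simp only [Finset.mem_sdiff, Finset.mem_univ, true_and, Finset.mem_singleton] at this
      tauto
    obtain ⟨n, hn⟩ := miss _ hs4
    obtain ⟨m, hm⟩ := miss _ ht4
    have hna := (hn a).1 (hab hα).1
    have hnb := (hn b).1 (hab hα).2
    have hma := (hm a).1 (hab hβ).1
    have hmb := (hm b).1 (hab hβ).2
    obtain ⟨l, hla, hlb, hml, hpair⟩ := key_four a b n m h.ne hna hnb hma hmb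
    refine hfull l hla hlb fun ψ hψ hψl => ?_
    have hnS : ∀ x ∈ C.S (t + cs ψ), x ≠ n := fun x hx => (hn x).1 ((hwin ψ hψ).1 hx)
    have hlS : ∀ x ∈ C.S (t + cs ψ), x ≠ l := fun x hx e => hψl (e ▸ C.mem_S.1 hx)
    have hmS : ∀ x ∈ C.S (t + cs ψ), x ≠ m := by
      intro x hx e
      subst e
      exact hlS x hx (hml.resolve_left (hnS x hx))
    obtain ⟨c, hc, h' | ⟨d, hd, hdc⟩⟩ := C.circle_colours t ψ
    · exact absurd ((hm c).2 (hmS c hc)) h'
    · rcases hpair c d (hnS c hc) (hmS c hc) (hlS c hc) (hnS d hd) (hmS d hd) (hlS d hd)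
        with rfl | rfl | rfl | rfl | rfl
      · exact Or.inl (C.mem_S.1 hc)
      · exact Or.inr (C.mem_S.1 hc)
      · exact Or.inl (C.mem_S.1 hd)
      · exact Or.inr (C.mem_S.1 hd)
      · exact absurd rfl hdc

/-- An arc of `a` or `b` on one of the circles about two neighbouring colour changes. -/
lemma Split.line {q : ℂ} {a b : Fin 5} (h : C.Split q a b) {φ : ℝ} (hφ : φ ∈ C.jset q a b) :
    ∃ (u v : Bool) (r r' : ℚ), r < r' ∧ ∀ ψ ∈ Icc (r : ℝ) r',
      ψ ∈ C.ang (q + cs (φ + if v then Real.pi / 3 else 0)) (if u then a else b) := by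
  by_contra hcon
  have hno : ∀ (v : Bool) (r r' : ℝ), r < r' →
      ¬Ioo r r' ⊆ C.ang (q + cs (φ + if v then Real.pi / 3 else 0)) a ∧
      ¬Ioo r r' ⊆ C.ang (q + cs (φ + if v then Real.pi / 3 else 0)) b := by
    intro v r r' hr
    constructor <;> intro hs
    · obtain ⟨x, y, hxy, hI⟩ := C.hasArc_of_iv hr hs
      exact hcon ⟨true, v, x, y, hxy, hI⟩
    · obtain ⟨x, y, hxy, hI⟩ := C.hasArc_of_iv hr hs
      exact hcon ⟨false, v, x, y, hxy, hI⟩
  have hplus := (h.jset_shift hφ).1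
  have n1 := hno true
  have n0 := hno false
  simp only [↓reduceIte, Bool.false_eq_true, add_zero] at n1 n0
  have A := h.line_aux hφ hplus (φ₀ := φ - Real.pi / 3) (δ := -(Real.pi / 3))
    (cs_sum φ) (Or.inr rfl) (by
      rw [← cs_add_pi, show φ + Real.pi / 3 + Real.pi
        = φ - Real.pi / 3 + -(Real.pi / 3) + 2 * Real.pi by ring]
      apply Complex.ext <;> simp) n1
  have B := h.line_aux hplus hφ (φ₀ := φ + 2 * Real.pi / 3) (δ := Real.pi / 3)
    (by
      have := cs_sum (φ + Real.pi / 3)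
      rw [add_sub_cancel_right, show φ + Real.pi / 3 + Real.pi / 3 = φ + 2 * Real.pi / 3 by ring]
        at this
      rw [add_comm]; exact this)
    (Or.inl rfl) (by rw [← cs_add_pi]; congr 1; ring) n0
  have t1 := h.third hφ
  have t2 := h.third hplus
  have u1 := (C.S (q + cs φ)).card_le_univ
  have u2 := (C.S (q + cs (φ + Real.pi / 3))).card_le_univ
  simp only [Fintype.card_fin] at u1 u2
  exact A.2.2 (by have := A.1; have := B.2.1; omega) (by have := A.2.1; have := B.1; omega)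

variable (C)

/-- Arcs in a closed class with a free side. -/
def SP (t : ℂ) : Prop :=
  ∃ (p : Fin 5) (σ : Bool) (a b : ℚ) (k : ℕ), a < b ∧ (∀ ψ ∈ Icc (a : ℝ) b, ψ ∈ C.ang t p) ∧
    ∀ r ∈ radial σ (1 / ((k : ℝ) + 2)), ∀ ψ ∈ Ioo (a : ℝ) b, pol t r ψ ∉ C.U p

lemma countable_SP : {t | C.SP t}.Countable := by
  have hsub : {t | C.SP t} ⊆ ⋃ x : Fin 5 × Bool × ℚ × ℚ × ℕ, {t | x.2.2.1 < x.2.2.2.1 ∧
      (∀ ψ ∈ Icc (x.2.2.1 : ℝ) x.2.2.2.1, ψ ∈ C.ang t x.1) ∧
      ∀ r ∈ radial x.2.1 (1 / ((x.2.2.2.2 : ℝ) + 2)), ∀ ψ ∈ Ioo (x.2.2.1 : ℝ) x.2.2.2.1,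
        pol t r ψ ∉ C.U x.1} := by
    rintro t ⟨p, σ, a, b, k, h⟩
    exact mem_iUnion.2 ⟨(p, σ, a, b, k), h⟩
  refine (countable_iUnion fun x => ?_).mono hsub
  obtain ⟨p, σ, a, b, k⟩ := x
  dsimp only
  by_cases hab : a < b
  swap
  · exact countable_empty.mono fun t ht => absurd ht.1 hab
  have hab' : (a : ℝ) < b := by exact_mod_cast hab
  obtain ⟨ε, hε, hpol⟩ := exists_polar hab' (show (0 : ℝ) < 1 / ((k : ℝ) + 2) by positivity)
  have hk2 : 1 / ((k : ℝ) + 2) ≤ 1 := by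
    rw [div_le_one (by positivity)]; linarith [show (0 : ℝ) ≤ k from Nat.cast_nonneg k]
  set m := ((a : ℝ) + b) / 2 with hm
  obtain ⟨κ₀, hκ₀, hκcs⟩ := Metric.eventually_nhds_iff.1
    ((continuous_circle 0).continuousAt.preimage_mem_nhds (x := m) (ball_mem_nhds _ (half_pos hε)))
  obtain ⟨κ, hκ, hκ1, hκ2, hκ3⟩ : ∃ κ : ℝ, 0 < κ ∧ κ < κ₀ ∧ κ < 1 ∧ m + κ < b := by
    refine ⟨min (κ₀ / 2) (min (1 / 2) ((b - a) / 4)),
      lt_min (by linarith) (lt_min (by norm_num) (by linarith)),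
      lt_of_le_of_lt (min_le_left _ _) (by linarith),
      lt_of_le_of_lt ((min_le_right _ _).trans (min_le_left _ _)) (by norm_num), ?_⟩
    linarith [min_le_right (κ₀ / 2) (min (1 / 2) (((b : ℝ) - a) / 4)),
      min_le_right (1 / 2 : ℝ) (((b : ℝ) - a) / 4)]
  have hsin : 0 < Real.sin κ :=
    Real.sin_pos_of_pos_of_lt_pi hκ (by linarith [Real.two_le_pi])
  set c := min (ε / 2) (Real.sin κ / 4) with hc
  have hc0 : 0 < c := lt_min (half_pos hε) (by linarith)
  set Z := {t : ℂ | a < b ∧ (∀ ψ ∈ Icc (a : ℝ) b, ψ ∈ C.ang t p) ∧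
    ∀ r ∈ radial σ (1 / ((k : ℝ) + 2)), ∀ ψ ∈ Ioo (a : ℝ) b, pol t r ψ ∉ C.U p} with hZ
  -- the arc of a nearby point stays off the free side
  have off : ∀ t ∈ Z, ∀ t' ∈ Z, dist t' t < c → ∀ ψ, ψ = m ∨ ψ = m + κ →
      t' + cs ψ ∉ side t σ := by
    intro t ht t' ht' hd ψ hψ hside
    have hψI : ψ ∈ Icc (a : ℝ) b := by rcases hψ with rfl | rfl <;> constructor <;> linarith
    have hcs : dist (cs ψ) (cs m) < ε / 2 := by
      have h1 : dist ψ m < κ₀ := by
        rw [Real.dist_eq]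
        rcases hψ with rfl | rfl
        · simpa using hκ₀
        · rw [add_sub_cancel_left, abs_of_pos hκ]; exact hκ1
      simpa using hκcs h1
    have hy : dist (t' + cs ψ) (t + cs m) < ε :=
      lt_of_le_of_lt (dist_add_add_le _ _ _ _) (by linarith [min_le_left (ε / 2) (Real.sin κ / 4)])
    refine C.not_F_of_open (i := p)
      ((isOpen_ball (x := t + cs m) (ε := ε)).inter (isOpen_side t σ)) ?_ _ ⟨hy, hside⟩
      (ht'.2.1 ψ hψI)
    rintro y ⟨hy1, hy2⟩
    obtain ⟨r, χ, rfl, hr, hχ⟩ := hpol t y hy1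
    exact ht.2.2 r (radial_of_side hk2 hr hy2) χ hχ
  have sep : ∀ t ∈ Z, ∀ t' ∈ Z, t ≠ t' → c ≤ dist t t' := by
    intro t ht t' ht' hne
    by_contra hlt
    push Not at hlt
    have o1 := off t ht t' ht' (by rwa [dist_comm])
    have o2 := off t' ht' t ht hlt
    set u := t'.re - t.re with hu
    set w := t'.im - t.im with hw
    have hD : 0 < u ^ 2 + w ^ 2 := by
      have := dist_sq t' t
      rw [← hu, ← hw] at this
      rw [← this]
      exact pow_pos (dist_pos.2 hne.symm) 2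
    have e1 : ∀ ψ, dist (t' + cs ψ) t ^ 2
        = 1 + (u ^ 2 + w ^ 2) + 2 * (u * Real.cos ψ + w * Real.sin ψ) := by
      intro ψ
      rw [dist_sq, hu, hw]
      simp only [Complex.add_re, Complex.add_im, cs_re, cs_im]
      linear_combination Real.sin_sq_add_cos_sq ψ
    have e2 : ∀ ψ, dist (t + cs ψ) t' ^ 2
        = 1 + (u ^ 2 + w ^ 2) - 2 * (u * Real.cos ψ + w * Real.sin ψ) := by
      intro ψ
      rw [dist_sq, hu, hw]
      simp only [Complex.add_re, Complex.add_im, cs_re, cs_im]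
      linear_combination Real.sin_sq_add_cos_sq ψ
    cases σ
    · have a1 : dist (t' + cs m) t ≤ 1 := not_lt.1 (o1 m (Or.inl rfl))
      have a2 : dist (t + cs m) t' ≤ 1 := not_lt.1 (o2 m (Or.inl rfl))
      have b1 := pow_le_one₀ (n := 2) dist_nonneg a1
      have b2 := pow_le_one₀ (n := 2) dist_nonneg a2
      rw [e1] at b1; rw [e2] at b2
      linarith
    · have bound : ∀ ψ, ψ = m ∨ ψ = m + κ →
          |u * Real.cos ψ + w * Real.sin ψ| ≤ (u ^ 2 + w ^ 2) / 2 := by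
        intro ψ hψ
        have a1 : 1 ≤ dist (t' + cs ψ) t := not_lt.1 (o1 ψ hψ)
        have a2 : 1 ≤ dist (t + cs ψ) t' := not_lt.1 (o2 ψ hψ)
        have b1 := one_le_pow₀ (n := 2) a1
        have b2 := one_le_pow₀ (n := 2) a2
        rw [e1] at b1; rw [e2] at b2
        rw [abs_le]; constructor <;> linarith
      refine arc_sep_aux (D := dist t' t) (dist_pos.2 hne.symm) (by rw [dist_sq]) hsin
        (by rw [dist_comm]; exact hlt.trans_le (min_le_right _ _)) ?_ ?_ (u := u) (w := w) (m := m)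
      · rw [dist_sq]; exact bound m (Or.inl rfl)
      · rw [dist_sq]; exact bound (m + κ) (Or.inr rfl)
  refine Set.PairwiseDisjoint.countable_of_isOpen (s := fun t => ball t (c / 2)) ?_
    (fun _ _ => isOpen_ball) (fun _ _ => nonempty_ball.2 (half_pos hc0))
  intro t ht t' ht' hne
  exact ball_disjoint_ball (by linarith [sep t ht t' ht' hne])

variable {C}

/-- The endpoint of a gap gives a point of `SP`. -/
lemma Split.sp_of_line {q : ℂ} {a b : Fin 5} {r r' : ℚ} (hr : r < r') {φs g : ℝ}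
    (harc : ∀ ψ ∈ Icc (r : ℝ) r', ψ ∈ C.ang (q + cs φs) a)
    (hgap : uIcc φs g ⊆ C.ang q a) (hne : φs ≠ g) (hg : |g - φs| < 1)
    (_h : C.Split q a b) : C.SP (q + cs φs) := by
  set t := q + cs φs with ht
  set P := q + cs g with hP
  have htP : t ≠ P := by
    intro e
    rw [ht, hP, add_right_inj] at e
    have h1 := congrArg Complex.re e
    have h2 := congrArg Complex.im e
    simp only [cs_re, cs_im] at h1 h2
    have h3 : Real.cos (g - φs) = 1 := by
      rw [Real.cos_sub, h1, h2]; linarith [Real.sin_sq_add_cos_sq g]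
    obtain ⟨g1, g2⟩ := abs_lt.1 hg
    rw [Real.cos_eq_one_iff_of_lt_of_lt (by linarith [Real.two_le_pi])
      (by linarith [Real.two_le_pi])] at h3
    exact hne (by linarith)
  have hr' : (r : ℝ) < r' := by exact_mod_cast hr
  obtain ⟨ψ₀, hψ₀, hψP⟩ := exists_avoid_finite t (circles_finite htP) hr'
  have hd1 : dist (t + cs ψ₀) P ≠ 1 := fun e => hψP ⟨dist_cs t ψ₀, e⟩
  have key : ∀ y : ℂ, (dist y t ≤ 1 ∧ 1 ≤ dist y P) ∨ (dist y P ≤ 1 ∧ 1 ≤ dist y t) →
      y ∉ C.U a := by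
    intro y hy
    have hK : IsPreconnected ((fun u => q + cs u) '' uIcc φs g) :=
      isPreconnected_uIcc.image _ (continuous_circle q).continuousOn
    have hKF : (fun u => q + cs u) '' uIcc φs g ⊆ C.F a := by
      rintro _ ⟨u, hu, rfl⟩; exact hgap hu
    rcases hy with ⟨h1, h2⟩ | ⟨h1, h2⟩
    · exact C.cross_U hK hKF ⟨φs, left_mem_uIcc, rfl⟩ ⟨g, right_mem_uIcc, rfl⟩ h1 h2
    · exact C.cross_U hK hKF ⟨g, right_mem_uIcc, rfl⟩ ⟨φs, left_mem_uIcc, rfl⟩ h1 h2
  have hc : Continuous fun y : ℂ => dist y P := continuous_id.dist continuous_const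
  obtain ⟨σ, W, hW, hWfree⟩ : ∃ σ, ∃ W ∈ 𝓝 (t + cs ψ₀), ∀ y ∈ W, y ∈ side t σ → y ∉ C.U a := by
    rcases lt_or_gt_of_ne hd1 with h | h
    · exact ⟨false, _, hc.continuousAt.preimage_mem_nhds (Iio_mem_nhds h), fun y hy hs =>
        key y (Or.inr ⟨le_of_lt (show dist y P < 1 from hy), le_of_lt (show 1 < dist y t from hs)⟩)⟩
    · exact ⟨true, _, hc.continuousAt.preimage_mem_nhds (Ioi_mem_nhds h), fun y hy hs =>
        key y (Or.inl ⟨le_of_lt (show dist y t < 1 from hs), le_of_lt (show 1 < dist y P from hy)⟩)⟩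
  obtain ⟨η, hη, hη1, hbox⟩ := exists_box t ψ₀ hW
  obtain ⟨x, hx1, hx2⟩ := exists_rat_btwn
    (show max (r : ℝ) (ψ₀ - η) < ψ₀ from max_lt hψ₀.1 (by linarith))
  obtain ⟨y, hy1, hy2⟩ := exists_rat_btwn
    (show ψ₀ < min (r' : ℝ) (ψ₀ + η) from lt_min hψ₀.2 (by linarith))
  obtain ⟨k, hk⟩ := exists_nat_one_div_lt hη
  refine ⟨a, σ, x, y, k, by exact_mod_cast hx2.trans hy1, fun ψ hψ => harc ψ ⟨?_, ?_⟩,
    fun ρ hρ ψ hψ => ?_⟩
  · linarith [le_max_left (r : ℝ) (ψ₀ - η), hψ.1]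
  · linarith [min_le_left (r' : ℝ) (ψ₀ + η), hψ.2]
  · have hk' : 1 / ((k : ℝ) + 2) < η :=
      lt_of_le_of_lt (one_div_le_one_div_of_le (by positivity) (by linarith)) hk
    obtain ⟨h1, h2⟩ := pol_mem_side (z := t) (η := 1 / ((k : ℝ) + 2)) (by linarith) hρ ψ
    exact hWfree _ (hbox ρ ψ (h2.trans hk') (abs_lt.2
      ⟨by linarith [le_max_right (r : ℝ) (ψ₀ - η), hψ.1],
       by linarith [min_le_right (r' : ℝ) (ψ₀ + η), hψ.2]⟩)) h1

/-- Near a colour change with lines there is a gap endpoint giving a point of `SP`. -/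
lemma Split.sp_piece {q : ℂ} {a b : Fin 5} (h : C.Split q a b) {r r' : ℚ} (hr : r < r')
    {V : Set ℝ} (hV : IsOpen V) {p₀ : ℝ} (hp : p₀ ∈ V ∩ C.jset q a b)
    (harc : ∀ φ ∈ V ∩ C.jset q a b, ∀ ψ ∈ Icc (r : ℝ) r', ψ ∈ C.ang (q + cs φ) a) :
    ∃ φs ∈ V, C.SP (q + cs φs) := by
  obtain ⟨δ, hδ, hb⟩ := Metric.isOpen_iff.1 hV p₀ hp.1
  obtain ⟨g, hg, hgd⟩ := Metric.mem_closure_iff.1 (h.mem_closure hp.2) (min δ 1)
    (lt_min hδ one_pos)
  rw [dist_comm, Real.dist_eq] at hgd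
  obtain ⟨hgδ, hg1⟩ := lt_min_iff.1 hgd
  obtain ⟨g1, g2⟩ := abs_lt.1 hgδ
  obtain ⟨g3, g4⟩ := abs_lt.1 hg1
  have hgi : g ∉ C.jset q a b := fun hh => hh (Or.inl hg)
  have finish : ∀ φs ∈ uIcc g p₀, φs ∉ interior (C.ang q a) →
      (∀ ψ, ψ ∈ uIcc φs g → ψ ≠ φs → ψ ∈ interior (C.ang q a)) →
      φs ∈ closure (interior (C.ang q a)) → ∃ φs ∈ V, C.SP (q + cs φs) := by
    intro φs hφs hn hin hcl
    have hJ : φs ∈ C.jset q a b := by
      rintro (hh | hh)
      · exact hn hh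
      · obtain ⟨x, hx, hxa⟩ := mem_closure_iff.1 hcl _ isOpen_interior hh
        exact Set.disjoint_left.1 h.disjoint hxa hx
    obtain ⟨k1, k2⟩ : min g p₀ ≤ φs ∧ φs ≤ max g p₀ := hφs
    have hφV : φs ∈ V := hb (by
      rw [Real.ball_eq_Ioo]
      constructor
      · rcases le_total g p₀ with hgp | hgp
        · rw [min_eq_left hgp] at k1; linarith
        · rw [min_eq_right hgp] at k1; linarith
      · rcases le_total g p₀ with hgp | hgp
        · rw [max_eq_right hgp] at k2; linarith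
        · rw [max_eq_left hgp] at k2; linarith)
    refine ⟨φs, hφV, h.sp_of_line hr (g := g) (fun ψ hψ => harc φs ⟨hφV, hJ⟩ ψ hψ) ?_ ?_ ?_⟩
    · intro ψ hψ
      by_cases he : ψ = φs
      · rw [he]; exact h.jset_colour hJ
      · exact interior_subset (hin ψ hψ he)
    · intro e; exact hn (e ▸ hg)
    · rcases le_total g p₀ with hgp | hgp
      · rw [min_eq_left hgp] at k1; rw [max_eq_right hgp] at k2
        rw [abs_lt]; constructor <;> linarith
      · rw [min_eq_right hgp] at k1; rw [max_eq_left hgp] at k2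
        rw [abs_lt]; constructor <;> linarith
  have hp0 : p₀ ∉ interior (C.ang q a) := fun hh => hp.2 (Or.inl hh)
  rcases le_total g p₀ with hgp | hgp
  · set B := Icc g p₀ \ interior (C.ang q a) with hB
    have hBne : B.Nonempty := ⟨p₀, ⟨hgp, le_rfl⟩, hp0⟩
    have hBbd : BddBelow B := ⟨g, fun x hx => hx.1.1⟩
    obtain ⟨hm1, hm2⟩ := IsClosed.csInf_mem (isClosed_Icc.sdiff isOpen_interior) hBne hBbd
    refine finish (sInf B) (by rw [uIcc_of_le hgp]; exact hm1) hm2 ?_ ?_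
    · intro ψ hψ hne
      rw [uIcc_of_ge hm1.1] at hψ
      by_contra hh
      exact hne (le_antisymm hψ.2 (csInf_le hBbd ⟨⟨hψ.1, hψ.2.trans hm1.2⟩, hh⟩))
    · have hlt : g < sInf B := lt_of_le_of_ne hm1.1 fun e => hm2 (by rw [← e]; exact hg)
      refine closure_mono (s := Ioo g (sInf B)) ?_ ?_
      · intro ψ hψ
        by_contra hh
        have := csInf_le hBbd (show ψ ∈ B from ⟨⟨hψ.1.le, by linarith [hψ.2, hm1.2]⟩, hh⟩)
        linarith [hψ.2]
      · rw [closure_Ioo hlt.ne]; exact ⟨hlt.le, le_rfl⟩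
  · set B := Icc p₀ g \ interior (C.ang q a) with hB
    have hBne : B.Nonempty := ⟨p₀, ⟨le_rfl, hgp⟩, hp0⟩
    have hBbd : BddAbove B := ⟨g, fun x hx => hx.1.2⟩
    obtain ⟨hm1, hm2⟩ := IsClosed.csSup_mem (isClosed_Icc.sdiff isOpen_interior) hBne hBbd
    refine finish (sSup B) (by rw [uIcc_of_ge hgp]; exact hm1) hm2 ?_ ?_
    · intro ψ hψ hne
      rw [uIcc_of_le hm1.2] at hψ
      by_contra hh
      exact hne (le_antisymm (le_csSup hBbd ⟨⟨hm1.1.trans hψ.1, hψ.2⟩, hh⟩) hψ.1)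
    · have hlt : sSup B < g := lt_of_le_of_ne hm1.2 fun e => hm2 (by rw [e]; exact hg)
      refine closure_mono (s := Ioo (sSup B) g) ?_ ?_
      · intro ψ hψ
        by_contra hh
        have := le_csSup hBbd (show ψ ∈ B from ⟨⟨by linarith [hψ.1, hm1.1], hψ.2.le⟩, hh⟩)
        linarith [hψ.1]
      · rw [closure_Ioo hlt.ne]; exact ⟨le_rfl, hlt.le⟩

lemma Split.exists_sp {q : ℂ} {a b : Fin 5} (h : C.Split q a b) {j : ℝ}
    (hj : j ∈ C.jset q a b) :
    ∃ φs ∈ Ioo (j - 1 / 10) (j + Real.pi / 3 + 1 / 10), C.SP (q + cs φs) := by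
  let Z : Bool × Bool × ℚ × ℚ → Set ℝ := fun x => {φ | x.2.2.1 < x.2.2.2 ∧
    ∀ ψ ∈ Icc (x.2.2.1 : ℝ) x.2.2.2,
      ψ ∈ C.ang (q + cs (φ + if x.2.1 then Real.pi / 3 else 0)) (if x.1 then a else b)}
  have hZc : ∀ x, IsClosed (Z x) := by
    intro x
    by_cases hx : x.2.2.1 < x.2.2.2
    · have : Z x = ⋂ ψ ∈ Icc (x.2.2.1 : ℝ) x.2.2.2,
          (fun φ => q + cs (φ + if x.2.1 then Real.pi / 3 else 0) + cs ψ) ⁻¹'
            C.F (if x.1 then a else b) := by
        ext φ; simp [Z, hx, ang]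
      rw [this]
      exact isClosed_biInter fun ψ _ => (C.isClosed_F _).preimage
        (((continuous_circle q).comp (continuous_add_const _)).add continuous_const)
    · have : Z x = ∅ := Set.eq_empty_iff_forall_notMem.2 fun φ hφ => hx hφ.1
      rw [this]; exact isClosed_empty
  have hX : IsCompact (C.jset q a b ∩ Icc (j - 1) (j + 1)) :=
    isCompact_Icc.inter_left (isOpen_interior.union isOpen_interior).isClosed_compl
  obtain ⟨⟨u, v, r, r'⟩, V, hV, hVW, ⟨p₀, ⟨hp₀, -⟩, hpV⟩, hVZ⟩ :=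
    baire_piece hX (isOpen_Ioo (a := j - 1 / 10) (b := j + 1 / 10))
      ⟨j, ⟨hj, by constructor <;> linarith⟩, by constructor <;> linarith⟩ Z hZc fun φ hφ => by
        obtain ⟨u, v, r, r', hr, hh⟩ := h.line hφ.1.1
        exact mem_iUnion.2 ⟨(u, v, r, r'), hr, hh⟩
  have hin : ∀ {φ}, φ ∈ V → φ ∈ C.jset q a b → φ ∈ Z (u, v, r, r') := fun {φ} hV' hJ' =>
    hVZ ⟨⟨hJ', by constructor <;> linarith [(hVW hV').1, (hVW hV').2]⟩, hV'⟩
  set d : ℝ := if v then Real.pi / 3 else 0 with hd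
  have hV' : IsOpen ((fun φ => φ - d) ⁻¹' V) := hV.preimage (continuous_sub_right d)
  have hJd : ∀ φ, φ ∈ C.jset q a b ↔ φ - d ∈ C.jset q a b := by
    intro φ
    cases v
    · simp [hd]
    · simp only [hd, ↓reduceIte]
      exact ⟨fun hh => (h.jset_shift hh).2, fun hh => by
        simpa using (h.jset_shift hh).1⟩
  have hr : r < r' := (hin hpV hp₀).1
  have harc : ∀ φ ∈ (fun φ => φ - d) ⁻¹' V ∩ C.jset q a b, ∀ ψ ∈ Icc (r : ℝ) r',
      ψ ∈ C.ang (q + cs φ) (if u then a else b) := by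
    rintro φ ⟨h1, h2⟩ ψ hψ
    have h3 := (hin h1 ((hJd φ).1 h2)).2 ψ hψ
    dsimp only at h3
    rwa [← hd, sub_add_cancel] at h3
  have hp' : p₀ + d ∈ (fun φ => φ - d) ⁻¹' V ∩ C.jset q a b :=
    ⟨by simpa using hpV, (hJd _).2 (by simpa using hp₀)⟩
  have hdb : 0 ≤ d ∧ d ≤ Real.pi / 3 := by
    have := Real.pi_pos
    cases v <;> simp only [hd, Bool.false_eq_true, ↓reduceIte] <;> constructor <;> linarith
  obtain ⟨φs, hφs, hsp⟩ : ∃ φs ∈ (fun φ => φ - d) ⁻¹' V, C.SP (q + cs φs) := by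
    cases u
    · exact h.symm.sp_piece hr hV' (jset_comm q a b ▸ hp') (jset_comm q a b ▸ harc)
    · exact h.sp_piece hr hV' hp' harc
  refine ⟨φs, ⟨?_, ?_⟩, hsp⟩
  · linarith [(hVW hφs).1, hdb.1]
  · linarith [(hVW hφs).2, hdb.2]

variable (C)

lemma countable_split : {q | ∃ a b, C.Split q a b}.Countable := by
  have hsub : {q | ∃ a b, C.Split q a b} ⊆
      ⋃ t ∈ {t | C.SP t}, ⋃ t' ∈ {t | C.SP t} \ {t}, {q | dist q t = 1 ∧ dist q t' = 1} := by
    rintro q ⟨a, b, h⟩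
    obtain ⟨j, hj⟩ := h.jset_nonempty
    have hj' : j + Real.pi ∈ C.jset q a b := by
      have := (h.jset_shift (h.jset_shift (h.jset_shift hj).1).1).1
      convert this using 1
      ring
    obtain ⟨f, hf, hsf⟩ := h.exists_sp hj
    obtain ⟨f', hf', hsf'⟩ := h.exists_sp hj'
    refine mem_iUnion₂.2 ⟨q + cs f, hsf, mem_iUnion₂.2 ⟨q + cs f', ⟨hsf', ?_⟩, ?_, ?_⟩⟩
    · intro e
      rw [mem_singleton_iff, add_right_inj] at e
      have h1 := congrArg Complex.re e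
      have h2 := congrArg Complex.im e
      simp only [cs_re, cs_im] at h1 h2
      have h3 : Real.cos (f' - f) = 1 := by
        rw [Real.cos_sub, h1, h2]; linarith [Real.sin_sq_add_cos_sq f]
      rw [Real.cos_eq_one_iff_of_lt_of_lt
        (by linarith [hf.1, hf.2, hf'.1, hf'.2, Real.two_le_pi])
        (by linarith [hf.1, hf.2, hf'.1, hf'.2, Real.two_le_pi])] at h3
      linarith [hf.1, hf.2, hf'.1, hf'.2, Real.two_le_pi]
    · rw [dist_comm]; exact dist_cs q f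
    · rw [dist_comm]; exact dist_cs q f'
  refine Set.Countable.mono hsub (C.countable_SP.biUnion fun t _ =>
    (C.countable_SP.mono Set.sdiff_subset).biUnion fun t' ht' => ?_)
  exact (circles_finite (fun e => ht'.2 (by simp [e]))).countable

/-- All but countably many tri-coloured points have arcs in all but two of their colours. -/
theorem exists_arcs : ∃ E : Set ℂ, E.Countable ∧ ∀ z ∈ C.Tri, z ∉ E →
    ∃ X ⊆ C.S z, (C.S z \ X).card ≤ 2 ∧ ∀ x ∈ X, C.HasArc z x := by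
  classical
  refine ⟨{q | ∃ a b, C.Split q a b}, C.countable_split, fun z hz hE => ?_⟩
  rcases Nat.lt_or_ge (C.S z).card 4 with h | h
  swap
  · exact C.arcs_big h
  have h3 : (C.S z).card = 3 := by have : 3 ≤ (C.S z).card := hz; omega
  by_cases hx : ∃ x ∈ C.S z, C.HasArc z x
  · obtain ⟨x, hx, hxa⟩ := hx
    refine ⟨{x}, Finset.singleton_subset_iff.2 hx, ?_, fun y hy => ?_⟩
    · rw [Finset.card_sdiff_of_subset (Finset.singleton_subset_iff.2 hx), h3]; simp
    · rw [Finset.mem_singleton.1 hy]; exact hxa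
  push Not at hx
  exfalso
  obtain ⟨a, b, hab, hS⟩ := Finset.card_eq_two.1 (show (Finset.univ \ C.S z).card = 2 by
    rw [Finset.card_sdiff_of_subset (Finset.subset_univ _), h3]; simp)
  refine hE ⟨a, b, hab, ?_, fun φ => ?_⟩
  · rw [← hS, Finset.sdiff_sdiff_eq_self (Finset.subset_univ _)]
  by_contra hφ
  push Not at hφ
  obtain ⟨δ, hδ, hb⟩ := Metric.isOpen_iff.1
    ((C.isClosed_ang z a).isOpen_compl.inter (C.isClosed_ang z b).isOpen_compl) φ hφ
  rw [Real.ball_eq_Ioo] at hb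
  obtain ⟨i, hi, s, t, hst, -, hs⟩ := sub_interval (C.S z) (C.isClosed_ang z)
    (show φ - δ < φ + δ by linarith) fun ψ hψ => by
      obtain ⟨c, hc⟩ := C.exists_F (z + cs ψ)
      refine mem_iUnion₂.2 ⟨c, ?_, hc⟩
      by_contra hcS
      have : c ∈ ({a, b} : Finset (Fin 5)) := hS ▸ Finset.mem_sdiff.2 ⟨Finset.mem_univ _, hcS⟩
      rcases Finset.mem_insert.1 this with rfl | hcb
      · exact (hb hψ).1 hc
      · rw [Finset.mem_singleton] at hcb; subst hcb; exact (hb hψ).2 hc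
  exact hx i hi (C.hasArc_of_iv hst hs)

end Col

end Vale.P032
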