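import Vale.Agent.P032.Arms

/-!
P032, part 6: no cycle of interfaces passes through a point. Triangles are excluded in `Arms`; for
longer cycles a parity count across a short segment shows that the options along the unit circle
are locally constant.
-/

namespace Vale.P032

open Set Filter Topology Metric

/-- Every region containing a non-null tri-coloured point contains an isolated one. -/
def Isolation : Prop :=
  ∀ (C : Col) (O : Set ℂ), IsOpen O → (∃ x ∈ O, x ∈ C.Tri ∧ ¬C.IsNull x) →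
    ∃ x ∈ O, x ∈ C.Tri ∧ ¬C.IsNull x ∧
      ∃ r > 0, ∀ y ∈ Metric.ball x r, y ≠ x → y ∈ C.Tri → C.IsNull y

namespace Col

variable (C : Col)

/-- Permuting the names of the colours. -/
def relabel (π : Fin 5 ≃ Fin 5) : Col where
  U i := C.U (π i)
  isOpen i := C.isOpen (π i)
  disj i j h := C.disj _ _ (π.injective.ne h)
  regular i := C.regular (π i)
  dense := by rw [π.surjective.iUnion_comp C.U]; exact C.dense
  noUnit i := C.noUnit (π i)

/-- The rigid motion `x ↦ z + w x`. -/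
noncomputable def rigid (z w : ℂ) (hw : w ≠ 0) : ℂ ≃ₜ ℂ :=
  (Homeomorph.mulLeft₀ w hw).trans (Homeomorph.addLeft z)

@[simp] lemma rigid_apply (z w : ℂ) (hw : w ≠ 0) (x : ℂ) : rigid z w hw x = z + w * x := rfl

lemma dist_rigid {z w : ℂ} (hw : ‖w‖ = 1) (hw0 : w ≠ 0) (x y : ℂ) :
    dist (rigid z w hw0 x) (rigid z w hw0 y) = dist x y := by
  rw [rigid_apply, rigid_apply, dist_eq_norm, dist_eq_norm,
    show z + w * x - (z + w * y) = w * (x - y) by ring, norm_mul, hw, one_mul]

/-- A colouring seen in moved coordinates. -/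
noncomputable def move (z w : ℂ) (hw : ‖w‖ = 1) (hw0 : w ≠ 0) : Col where
  U i := rigid z w hw0 ⁻¹' C.U i
  isOpen i := (C.isOpen i).preimage (rigid z w hw0).continuous
  disj i j h := (C.disj i j h).preimage _
  regular i := by
    rw [← (rigid z w hw0).preimage_closure, ← (rigid z w hw0).preimage_interior, C.regular]
  dense := by
    rw [← Set.preimage_iUnion]
    exact C.dense.preimage (rigid z w hw0).isOpenMap
  noUnit i x hx y hy := by
    rw [← dist_rigid (z := z) hw hw0 x y]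
    exact C.noUnit i _ hx _ hy

lemma move_F (z w : ℂ) (hw : ‖w‖ = 1) (hw0 : w ≠ 0) (i : Fin 5) :
    (C.move z w hw hw0).F i = rigid z w hw0 ⁻¹' C.F i :=
  ((rigid z w hw0).preimage_closure _).symm

lemma card_le_three (a p q : Fin 5) : ({a, p, q} : Finset (Fin 5)).card ≤ 3 := by
  revert a p q; decide

/-- No triangle, with any colours. -/
lemma no_triangle' {z : ℂ} {i j k : Fin 5} (hij : i ≠ j) (hik : i ≠ k) (hjk : j ≠ k)
    (h1 : C.Arm z i j) (h2 : C.Arm z j k) (h3 : C.Arm z k i) : False := by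
  obtain ⟨l, m, hinj⟩ : ∃ l m, Function.Injective ![i, j, k, l, m] := by
    revert hij hik hjk
    clear h1 h2 h3
    revert i j k
    decide +kernel
  exact (C.relabel (Equiv.ofBijective _ (Finite.injective_iff_bijective.1 hinj))).no_triangle
    (z := z) h1 h2 h3

/-- Three colours only: every tri-coloured point is null. -/
lemma null_of_three (hiso : Isolation) {O : Set ℂ} (hO : IsOpen O) {T : Finset (Fin 5)}
    (hT : T.card ≤ 3) (hS : ∀ y ∈ O, C.S y ⊆ T) : ∀ y ∈ O, y ∈ C.Tri → C.IsNull y := by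
  intro y hy hyT
  by_contra hn
  obtain ⟨x, hx, -, hxn, r, hr, hiso'⟩ := hiso C O hO ⟨y, hy, hyT, hn⟩
  rcases C.arms_of_isolated hxn hr hiso' with ⟨i, j, k, hij, hik, hjk, h1, h2, h3⟩ |
    ⟨i, j, k, l, hij, hik, hil, hjk, hjl, hkl, h1, h2, h3, h4⟩ |
    ⟨i, j, k, l, m, hij, hik, hil, -, hjk, hjl, -, hkl, -, -, h1, h2, h3, h4, -⟩
  · exact C.no_triangle' hij hik hjk h1 h2 h3
  all_goals
    have hsub : ({i, j, k, l} : Finset (Fin 5)) ⊆ T := by
      intro c hc
      simp only [Finset.mem_insert, Finset.mem_singleton] at hc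
      refine hS x hx ?_
      rcases hc with rfl | rfl | rfl | rfl
      · exact h1.mem.1
      · exact h2.mem.1
      · exact h3.mem.1
      · exact h3.mem.2
    have hc4 : ({i, j, k, l} : Finset (Fin 5)).card = 4 := by
      simp [Finset.card_insert_of_notMem, hij, hik, hil, hjk, hjl, hkl]
    have := Finset.card_le_card hsub
    omega

lemma sum_telescope (P : ℤ → ZMod 2) (lo hi : ℤ) (h : lo ≤ hi) :
    ∑ i ∈ Finset.Ico lo hi, (P i + P (i + 1)) = P lo + P hi := by
  have h2 : (2 : ZMod 2) = 0 := rfl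
  induction hi, h using Int.leInduction with
  | base =>
    simp only [Finset.Ico_self, Finset.sum_empty]
    linear_combination -(P lo) * h2
  | succ n hn ih =>
    rw [show Finset.Ico lo (n + 1) = insert n (Finset.Ico lo n) by
        ext x; simp only [Finset.mem_Ico, Finset.mem_insert]; omega,
      Finset.sum_insert (by simp), ih]
    linear_combination (P n) * h2

/-- The counting core of the box lemma: a single straight crossing of a `{p,q}` interface by the
frontier of a region has odd count. -/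
lemma cnt_crossing {A : Set ℂ} {p q : Fin 5} (hpq : p ≠ q) {u b t : ℂ} {δ : ℝ} (hδ : 0 < δ)
    (hb : b = ⟨u.re, u.im - δ⟩) (ht : t = ⟨u.re, u.im + δ⟩) (right : Bool)
    (hA : ∀ w : ℂ, |w.re - u.re| ≤ 2 * δ → |w.im - u.im| ≤ 2 * δ →
      (w ∈ A ↔ if right then u.re < w.re else w.re < u.re))
    (hcol : ∀ w : ℂ, |w.re - u.re| ≤ 2 * δ → |w.im - u.im| ≤ 2 * δ → C.κ w = p ∨ C.κ w = q)
    (hbot : ∀ᶠ w in 𝓝 b, C.κ w = q) (htop : ∀ᶠ w in 𝓝 t, C.κ w = p) :
    ∀ᶠ n in atTop,
      C.cnt n A {w | |w.re - u.re| < δ ∧ |w.im - u.im| < δ} p q = 1 := by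
  obtain ⟨ρb, hρb, hbot'⟩ := Metric.eventually_nhds_iff.1 hbot
  obtain ⟨ρt, hρt, htop'⟩ := Metric.eventually_nhds_iff.1 htop
  filter_upwards [tendsto_mesh.eventually (Iio_mem_nhds (show (0 : ℝ) <
    min (δ / 2) (min (ρb / 3) (ρt / 3)) by positivity))] with n hn
  simp only [lt_min_iff] at hn
  obtain ⟨hnδ, hnb, hnt⟩ := hn
  have hm := mesh_pos n
  set N : Set ℂ := {w | |w.re - u.re| < δ ∧ |w.im - u.im| < δ} with hN
  set x := u.re with hx
  set y := u.im with hy
  set m := mesh n with hm'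
  -- the column where membership changes
  obtain ⟨j, hj, hjd⟩ : ∃ j : ℤ, |m * (j : ℝ) - x| ≤ m ∧ ∀ k : ℤ,
      ((if right then x < m * (k : ℝ) else m * (k : ℝ) < x) ↔
        (if right then x < m * (k - 1 : ℝ) else m * (k - 1 : ℝ) < x)) ↔ k ≠ j := by
    cases right
    · refine ⟨⌈x / m⌉, ?_, fun k => ?_⟩
      · have h1 := Int.le_ceil (x / m)
        have h2 := Int.ceil_lt_add_one (x / m)
        rw [div_le_iff₀ hm] at h1
        rw [← sub_lt_iff_lt_add, lt_div_iff₀ hm] at h2
        exact abs_le.2 ⟨by linarith, by linarith⟩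
      · have e : ∀ k : ℤ, m * (k : ℝ) < x ↔ k < ⌈x / m⌉ := fun k => by
          rw [Int.lt_ceil, lt_div_iff₀ hm, mul_comm]
        have e' := e (k - 1)
        push_cast at e'
        simp only [Bool.false_eq_true, ↓reduceIte, e k, e']
        omega
    · refine ⟨⌊x / m⌋ + 1, ?_, fun k => ?_⟩
      · have h1 := Int.floor_le (x / m)
        have h2 := Int.lt_floor_add_one (x / m)
        rw [le_div_iff₀ hm] at h1
        rw [div_lt_iff₀ hm] at h2
        push_cast
        exact abs_le.2 ⟨by linarith, by linarith⟩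
      · have e : ∀ k : ℤ, x < m * (k : ℝ) ↔ ⌊x / m⌋ < k := fun k => by
          rw [Int.floor_lt, div_lt_iff₀ hm, mul_comm]
        have e' := e (k - 1)
        push_cast at e'
        simp only [↓reduceIte, e k, e']
        omega
  set lo := ⌊(y - δ) / m⌋ + 1 with hlo
  set hi := ⌈(y + δ) / m⌉ with hhi
  have hlo' : y - δ < m * (lo : ℝ) ∧ m * (lo : ℝ) ≤ y - δ + m := by
    have h1 := Int.floor_le ((y - δ) / m)
    have h2 := Int.lt_floor_add_one ((y - δ) / m)
    rw [le_div_iff₀ hm] at h1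
    rw [div_lt_iff₀ hm] at h2
    rw [hlo]
    push_cast
    constructor <;> linarith
  have hhi' : y + δ ≤ m * (hi : ℝ) ∧ m * (hi : ℝ) < y + δ + m := by
    have h1 := Int.le_ceil ((y + δ) / m)
    have h2 := Int.ceil_lt_add_one ((y + δ) / m)
    rw [div_le_iff₀ hm] at h1
    rw [← sub_lt_iff_lt_add, lt_div_iff₀ hm] at h2
    rw [hhi]
    constructor <;> linarith
  have hjre : |(pt n (j, lo)).re - x| ≤ m ∧ |(pt n (j, hi)).re - x| ≤ m := ⟨hj, hj⟩
  have hterm : ∀ v, ind n N v * C.term n A p q v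
      = if v.1 = j ∧ v.2 ∈ Finset.Ico lo hi then C.gV n p q v else 0 := by
    intro v
    have hI : v.2 ∈ Finset.Ico lo hi ↔ |(pt n v).im - y| < δ := by
      rw [Finset.mem_Ico, hlo, hhi, Int.add_one_le_iff, Int.floor_lt, Int.lt_ceil,
        div_lt_iff₀ hm, lt_div_iff₀ hm, abs_lt]
      simp only [pt, ← hm']
      constructor <;> rintro ⟨h1, h2⟩ <;> constructor <;> linarith
    by_cases hv : pt n v ∈ N
    · obtain ⟨hvre, hvim⟩ := hv
      have h0 := hA (pt n v) (by linarith) (by linarith)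
      have i1 : (pt n (v - e₁)).re = m * (v.1 - 1 : ℝ) := by simp [pt, e₁, ← hm']
      have i1' : (pt n (v - e₁)).im = (pt n v).im := by simp [pt, e₁]
      have i2 : (pt n (v - e₂)).re = (pt n v).re := by simp [pt, e₂]
      have i2' : (pt n (v - e₂)).im = (pt n v).im - m := by
        simp [pt, e₂, ← hm']; ring
      have h1 := hA (pt n (v - e₁))
        (by
          have : (pt n (v - e₁)).re - x = (pt n v).re - x - m := by
            rw [i1]; simp only [pt, ← hm']; ring
          rw [this]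
          exact abs_le.2 ⟨by linarith [(abs_lt.1 hvre).1], by linarith [(abs_lt.1 hvre).2]⟩)
        (by rw [i1']; linarith)
      have h2 := hA (pt n (v - e₂)) (by rw [i2]; linarith)
        (by
          rw [i2']
          exact abs_le.2 ⟨by linarith [(abs_lt.1 hvim).1], by linarith [(abs_lt.1 hvim).2]⟩)
      rw [i2, ← h0] at h2
      rw [i1] at h1
      have h0' : pt n v ∈ A ↔ (if right then x < m * (v.1 : ℝ) else m * (v.1 : ℝ) < x) := h0
      have hs : ind n A v + ind n A (v - e₂) = 0 := by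
        by_cases hh : pt n v ∈ A
        · simp [ind, hh, h2.2 hh, CharTwo.add_self_eq_zero]
        · simp [ind, hh, mt h2.1 hh]
      have hd : ind n A v + ind n A (v - e₁) = if v.1 = j then 1 else 0 := by
        have key := hjd v.1
        rw [← h0', ← h1] at key
        by_cases hh : pt n v ∈ A <;> by_cases hh' : pt n (v - e₁) ∈ A <;>
          simp [hh, hh'] at key <;>
          simp [ind, hh, hh', key, CharTwo.add_self_eq_zero]
      have hin : ind n N v = 1 := by simp [ind, show pt n v ∈ N from ⟨hvre, hvim⟩]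
      rw [hin, one_mul, Col.term, hs, zero_mul, zero_add, hd]
      have hvim' : |(pt n v).im - y| < δ := hvim
      simp only [hI, hvim', and_true]
      split_ifs <;> simp
    · have : ¬(v.1 = j ∧ v.2 ∈ Finset.Ico lo hi) := by
        rintro ⟨h1, h2⟩
        refine hv ⟨?_, hI.1 h2⟩
        have : (pt n v).re = m * (j : ℝ) := by simp [pt, h1, ← hm']
        rw [this]
        linarith
      rw [if_neg this]
      simp [ind, hv]
  have hsum : C.cnt n A N p q = ∑ i ∈ Finset.Ico lo hi, C.gV n p q (j, i) := by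
    rw [cnt, finsum_congr hterm,
      finsum_eq_sum_of_support_subset (s := (Finset.Ico lo hi).image fun i => ((j, i) : ℤ × ℤ))]
    · rw [Finset.sum_image (fun a _ b _ h => by simpa using h)]
      exact Finset.sum_congr rfl fun i hi' => by simp only [hi', and_self, if_true]
    · intro v hv
      simp only [Function.mem_support, ne_eq, ite_eq_right_iff, Classical.not_imp] at hv
      simp only [Finset.coe_image, Set.mem_image, Finset.mem_coe]
      exact ⟨v.2, hv.1.2, Prod.ext hv.1.1.symm rfl⟩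
  have hcol' : ∀ i, lo ≤ i → i ≤ hi → C.κ (pt n (j, i)) = p ∨ C.κ (pt n (j, i)) = q := by
    intro i h1 h2
    have a1 : m * (lo : ℝ) ≤ m * (i : ℝ) :=
      mul_le_mul_of_nonneg_left (by exact_mod_cast h1) hm.le
    have a2 : m * (i : ℝ) ≤ m * (hi : ℝ) :=
      mul_le_mul_of_nonneg_left (by exact_mod_cast h2) hm.le
    refine hcol _ (le_trans hj (by linarith)) (abs_le.2 ⟨?_, ?_⟩) <;>
      simp only [pt, ← hm'] <;> linarith
  have hgc : ∀ p q a b : Fin 5, p ≠ q → (a = p ∨ a = q) → (b = p ∨ b = q) →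
      gc p q a b = (if a = p then 1 else 0) + (if b = p then 1 else 0) := by decide
  have hlh : lo ≤ hi := by
    have h' : (lo : ℝ) < hi := lt_of_mul_lt_mul_left (by linarith) hm.le
    exact_mod_cast h'.le
  rw [hsum]
  have hg : ∀ i ∈ Finset.Ico lo hi, C.gV n p q (j, i)
      = (fun i => if C.κ (pt n (j, i)) = p then (1 : ZMod 2) else 0) i
        + (fun i => if C.κ (pt n (j, i)) = p then (1 : ZMod 2) else 0) (i + 1) := by
    intro i hi'
    rw [Finset.mem_Ico] at hi'
    simp only [gV, e₂, Prod.mk_add_mk, add_zero]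
    exact hgc _ _ _ _ hpq (hcol' i hi'.1 hi'.2.le) (hcol' (i + 1) (by omega) (by omega))
  rw [Finset.sum_congr rfl hg,
    sum_telescope (fun i => if C.κ (pt n (j, i)) = p then (1 : ZMod 2) else 0) lo hi hlh]
  have hlow : C.κ (pt n (j, lo)) = q := by
    refine hbot' (lt_of_le_of_lt (Complex.dist_eq _ _ ▸ Complex.norm_le_abs_re_add_abs_im _) ?_)
    rw [hb]
    simp only [pt, Complex.sub_re, Complex.sub_im, ← hm']
    have : |m * (lo : ℝ) - (y - δ)| ≤ m := abs_le.2 ⟨by linarith, by linarith⟩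
    linarith
  have hhigh : C.κ (pt n (j, hi)) = p := by
    refine htop' (lt_of_le_of_lt (Complex.dist_eq _ _ ▸ Complex.norm_le_abs_re_add_abs_im _) ?_)
    rw [ht]
    simp only [pt, Complex.sub_re, Complex.sub_im, ← hm']
    have : |m * (hi : ℝ) - (y + δ)| ≤ m := abs_le.2 ⟨by linarith, by linarith⟩
    linarith
  simp [hlow, hhigh, hpq.symm]

/-- The top of the unit circle. -/
noncomputable def top' (x : ℝ) : ℂ := ⟨x, Real.sqrt (1 - x ^ 2)⟩

/-- The box lemma at the top of the unit circle. -/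
lemma box_core (hiso : Isolation) {a p q : Fin 5} (hap : a ≠ p) (haq : a ≠ q) (hpq : p ≠ q)
    {ε : ℝ} (hε : 0 < ε)
    (hin : ∀ w ∈ ball Complex.I ε, dist w 0 < 1 → ∀ c, w ∈ C.U c → c = q ∨ c = a)
    (hout : ∀ w ∈ ball Complex.I ε, 1 < dist w 0 → ∀ c, w ∈ C.U c → c = p ∨ c = a)
    (hS : ∀ w ∈ ball Complex.I ε, C.S w ⊆ {a, p, q}) :
    ∃ h > 0, (∀ x ∈ Ioo (-h) h, top' x ∈ C.F a) ∨
      (∀ x ∈ Ioo (-h) h, top' x ∈ C.F p ∧ top' x ∈ C.F q) := by
  set k := min (ε / 2) (1 / 2) with hk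
  set h := min (ε / 4) (min (1 / 4) (k / 2)) with hh
  have hk0 : 0 < k := lt_min (by linarith) (by norm_num)
  have hh0 : 0 < h := lt_min (by linarith) (lt_min (by norm_num) (by linarith))
  have hh1 : h ≤ 1 / 4 := (min_le_right _ _).trans (min_le_left _ _)
  have hhk : h ≤ k / 2 := (min_le_right _ _).trans (min_le_right _ _)
  have hhε : h ≤ ε / 4 := min_le_left _ _
  have hkε : k ≤ ε / 2 := min_le_left _ _
  have hk1 : k ≤ 1 / 2 := min_le_right _ _
  have hrect : ∀ w : ℂ, |w.re| ≤ h → |w.im - 1| ≤ k → w ∈ ball Complex.I ε := by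
    intro w h1 h2
    rw [mem_ball, Complex.dist_eq]
    refine lt_of_le_of_lt (Complex.norm_le_abs_re_add_abs_im _) ?_
    simp only [Complex.sub_re, Complex.sub_im, Complex.I_re, Complex.I_im, sub_zero]
    linarith
  have hy : ∀ x : ℝ, |x| ≤ h → |Real.sqrt (1 - x ^ 2) - 1| < k := by
    intro x hx
    obtain ⟨hx1, hx2⟩ := abs_le.1 hx
    have hsq : x ^ 2 ≤ h * (1 / 4) := by nlinarith
    have h1 : 1 - x ^ 2 ≤ Real.sqrt (1 - x ^ 2) := by
      refine Real.le_sqrt_of_sq_le ?_
      nlinarith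
    have h2 : Real.sqrt (1 - x ^ 2) ≤ 1 := by
      rw [Real.sqrt_le_one]; nlinarith
    exact abs_lt.2 ⟨by linarith, by linarith⟩
  -- off the circle one of `p`, `q` is missing
  have hnp : ∀ w ∈ ball Complex.I ε, dist w 0 < 1 → w ∉ C.F p := fun w hw hd =>
    C.not_F_of_open (isOpen_ball.inter (isOpen_side 0 true)) (fun y hy hyp => by
      rcases hin y hy.1 hy.2 p hyp with e | e
      · exact hpq e
      · exact hap e.symm) w ⟨hw, hd⟩
  have hnq : ∀ w ∈ ball Complex.I ε, 1 < dist w 0 → w ∉ C.F q := fun w hw hd =>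
    C.not_F_of_open (isOpen_ball.inter (isOpen_side 0 false)) (fun y hy hyq => by
      rcases hout y hy.1 hy.2 q hyq with e | e
      · exact hpq e.symm
      · exact haq e.symm) w ⟨hw, hd⟩
  have hcirc : ∀ w : ℂ, |w.re| ≤ h → |w.im - 1| ≤ k → w ∈ C.F p → w ∈ C.F q →
      w = top' w.re := by
    intro w h1 h2 hp hq
    have hd : dist w 0 = 1 := by
      rcases lt_trichotomy (dist w 0) 1 with hd | hd | hd
      · exact absurd hp (hnp w (hrect w h1 h2) hd)
      · exact hd
      · exact absurd hq (hnq w (hrect w h1 h2) hd)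
    apply Complex.ext
    · rfl
    · have e := dist_sq w 0
      rw [hd] at e
      simp only [Complex.zero_re, Complex.zero_im, sub_zero] at e
      simp only [top']
      rw [show 1 - w.re ^ 2 = w.im ^ 2 by linarith, Real.sqrt_sq]
      linarith [(abs_le.1 h2).1]
  have hnull := C.null_of_three hiso isOpen_ball (card_le_three a p q) hS
  by_contra hcon
  push Not at hcon
  obtain ⟨⟨x₂, hx₂, hx₂a⟩, x₁, hx₁, hx₁pq⟩ := hcon h hh0
  have hx₁' : |x₁| ≤ h := (abs_lt.2 hx₁).le
  have hx₂' : |x₂| ≤ h := (abs_lt.2 hx₂).le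
  set u := top' x₂ with hu
  have hu1 : |u.re| ≤ h := hx₂'
  have hu2 : |u.im - 1| < k := hy x₂ hx₂'
  have hupos : 0 < u.im := by linarith [(abs_lt.1 hu2).1]
  have hucirc : u.re ^ 2 + u.im ^ 2 = 1 := by
    simp only [hu, top']
    rw [Real.sq_sqrt]
    · ring
    · nlinarith [abs_le.1 hx₂']
  obtain ⟨r, hr, hrF⟩ := Metric.isOpen_iff.1
    (isOpen_ball.inter (C.isClosed_F a).isOpen_compl) u
    (show u ∈ ball Complex.I ε ∩ (C.F a)ᶜ from ⟨hrect u hu1 hu2.le, hx₂a⟩)
  have huF : u ∈ C.F p ∧ u ∈ C.F q := by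
    have key : ∀ σ c, (∀ w ∈ ball Complex.I ε, w ∈ side 0 σ → ∀ d, w ∈ C.U d → d = c ∨ d = a) →
        u ∈ C.F c := by
      intro σ c hc
      have hsub : ball u r ∩ side 0 σ ⊆ C.U c :=
        C.sub_U (isOpen_ball.inter (isOpen_side 0 σ)) fun d hd w hw hwd => by
          rcases hc w (hrF hw.1).1 hw.2 d hwd with e | e
          · exact hd e
          · exact (hrF hw.1).2 (e ▸ C.U_subset_F d hwd)
      have hcl : u ∈ closure (side (0 : ℂ) σ) := by
        have hnear : ∀ η > 0, (ball u η ∩ side 0 σ).Nonempty := by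
          intro η hη
          have hu' : u = 0 + cs (Complex.arg u) := by
            have hn : ‖u‖ = 1 := by
              rw [Complex.norm_eq_sqrt_sq_add_sq, hucirc, Real.sqrt_one]
            have hne : u ≠ 0 := fun h => by simp [h] at hn
            rw [zero_add]
            apply Complex.ext
            · rw [cs_re, Complex.cos_arg hne, hn, div_one]
            · rw [cs_im, Complex.sin_arg, hn, div_one]
          rw [hu']
          exact side_ball_nonempty 0 _ σ hη
        rw [Metric.mem_closure_iff]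
        intro η hη
        obtain ⟨w, hw, hws⟩ := hnear η hη
        exact ⟨w, hws, by rw [dist_comm]; exact hw⟩
      refine closure_mono hsub ?_
      exact isOpen_ball.inter_closure ⟨mem_ball_self hr, hcl⟩
    exact ⟨key false p fun w hw hs d hd => hout w hw hs d hd,
      key true q fun w hw hs d hd => hin w hw hs d hd⟩
  have hne : x₁ ≠ x₂ := fun e => hx₁pq (e ▸ huF.1) (e ▸ huF.2)
  -- the rectangle
  set R : Set ℂ := {w | w.re ∈ Ioo (min x₁ x₂) (max x₁ x₂) ∧ w.im ∈ Ioo (1 - k) (1 + k)} with hR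
  have hRo : IsOpen R :=
    (isOpen_Ioo.preimage Complex.continuous_re).inter (isOpen_Ioo.preimage Complex.continuous_im)
  have hRcl : ∀ w ∈ closure R, w.re ∈ Icc (min x₁ x₂) (max x₁ x₂) ∧ |w.im - 1| ≤ k := by
    intro w hw
    have : closure R ⊆ {w : ℂ | w.re ∈ Icc (min x₁ x₂) (max x₁ x₂) ∧
        w.im ∈ Icc (1 - k) (1 + k)} := by
      refine closure_minimal (fun w hw => ⟨Ioo_subset_Icc_self hw.1, Ioo_subset_Icc_self hw.2⟩) ?_
      exact (isClosed_Icc.preimage Complex.continuous_re).inter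
        (isClosed_Icc.preimage Complex.continuous_im)
    obtain ⟨h1, h2⟩ := this hw
    exact ⟨h1, abs_le.2 ⟨by linarith [h2.1], by linarith [h2.2]⟩⟩
  have hRh : ∀ w ∈ closure R, |w.re| ≤ h := by
    intro w hw
    obtain ⟨⟨h1, h2⟩, -⟩ := hRcl w hw
    refine abs_le.2 ⟨le_trans ?_ h1, le_trans h2 ?_⟩
    · exact le_min (abs_le.1 hx₁').1 (abs_le.1 hx₂').1
    · exact max_le (abs_le.1 hx₁').2 (abs_le.1 hx₂').2
  have hRball : closure R ⊆ ball Complex.I ε := fun w hw => hrect w (hRh w hw) (hRcl w hw).2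
  have hfr : ∀ w ∈ frontier R, w ∈ C.F p → w ∈ C.F q → w = u := by
    intro w hw hp hq
    rw [hRo.frontier_eq] at hw
    have hwt := hcirc w (hRh w hw.1) (hRcl w hw.1).2 hp hq
    have hwi : |w.im - 1| < k := by
      rw [hwt]; exact hy _ (hRh w hw.1)
    obtain ⟨hi1, hi2⟩ := abs_lt.1 hwi
    obtain ⟨h1, h2⟩ := (hRcl w hw.1).1
    have hor : w.re = x₁ ∨ w.re = x₂ := by
      by_contra hno
      push Not at hno
      refine hw.2 ⟨⟨lt_of_le_of_ne h1 ?_, lt_of_le_of_ne h2 ?_⟩, by linarith, by linarith⟩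
      · rcases min_choice x₁ x₂ with e | e <;> rw [e]
        · exact hno.1.symm
        · exact hno.2.symm
      · rcases max_choice x₁ x₂ with e | e <;> rw [e]
        · exact hno.1
        · exact hno.2
    rcases hor with e | e
    · rw [hwt, e] at hp hq
      exact absurd hq (hx₁pq hp)
    · rw [hwt, e]
  have hgood : C.Good R := by
    refine ⟨hRo, Bornology.IsBounded.subset isBounded_ball (subset_closure.trans hRball),
      Set.disjoint_left.2 fun w hw hT => ?_⟩
    have hS' := hS w (hRball (frontier_subset_closure hw))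
    have heq : C.S w = {a, p, q} := Finset.eq_of_subset_of_card_le hS'
      ((card_le_three a p q).trans hT)
    have hp : w ∈ C.F p := C.mem_S.1 (by rw [heq]; simp)
    have hq : w ∈ C.F q := C.mem_S.1 (by rw [heq]; simp)
    have ha : w ∈ C.F a := C.mem_S.1 (by rw [heq]; simp)
    exact hx₂a (hfr w hw hp hq ▸ ha)
  have hzero := C.cl_zero_of_null hgood fun w hw hT => hnull w (hRball (subset_closure hw)) hT
  -- the crossing
  obtain ⟨δ, hδ, hδr, hδk, hδx⟩ : ∃ δ > 0, 4 * δ < r ∧ 2 * δ < k - |u.im - 1| ∧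
      2 * δ < |x₁ - x₂| := by
    have h1 : 0 < k - |u.im - 1| := by linarith
    have h2 : 0 < |x₁ - x₂| := abs_pos.2 (sub_ne_zero.2 hne)
    refine ⟨min (r / 8) (min ((k - |u.im - 1|) / 4) (|x₁ - x₂| / 4)),
      lt_min (by linarith) (lt_min (by linarith) (by linarith)), ?_, ?_, ?_⟩
    · linarith [min_le_left (r / 8) (min ((k - |u.im - 1|) / 4) (|x₁ - x₂| / 4))]
    · linarith [(min_le_right (r / 8) (min ((k - |u.im - 1|) / 4) (|x₁ - x₂| / 4))).trans
        (min_le_left _ _)]
    · linarith [(min_le_right (r / 8) (min ((k - |u.im - 1|) / 4) (|x₁ - x₂| / 4))).trans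
        (min_le_right _ _)]
  have hbox : ∀ w : ℂ, |w.re - u.re| ≤ 2 * δ → |w.im - u.im| ≤ 2 * δ → w ∈ ball u r := by
    intro w h1 h2
    rw [mem_ball, Complex.dist_eq]
    refine lt_of_le_of_lt (Complex.norm_le_abs_re_add_abs_im _) ?_
    simp only [Complex.sub_re, Complex.sub_im]
    linarith
  have hpq' : ∀ w ∈ ball u r, C.κ w = p ∨ C.κ w = q := by
    intro w hw
    have hc : C.κ w ∈ ({a, p, q} : Finset (Fin 5)) := hS w (hrF hw).1 (C.κ_mem w)
    simp only [Finset.mem_insert, Finset.mem_singleton] at hc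
    rcases hc with e | e | e
    · exact absurd (C.mem_S.1 (e ▸ C.κ_mem w)) (hrF hw).2
    · exact Or.inl e
    · exact Or.inr e
  set b : ℂ := ⟨u.re, u.im - δ⟩ with hb
  set t : ℂ := ⟨u.re, u.im + δ⟩ with ht
  have hδ1 : δ < u.im := by linarith [(abs_le.1 (le_refl |u.im - 1|)).1, abs_nonneg (u.im - 1)]
  have hbd : dist b 0 < 1 := by
    refine dist_lt_one ?_
    rw [dist_sq]
    simp only [hb, Complex.zero_re, Complex.zero_im, sub_zero]
    nlinarith
  have htd : 1 < dist t 0 := by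
    refine one_lt_dist ?_
    rw [dist_sq]
    simp only [ht, Complex.zero_re, Complex.zero_im, sub_zero]
    nlinarith
  have hbot : ∀ᶠ w in 𝓝 b, C.κ w = q := by
    filter_upwards [(isOpen_side 0 true).mem_nhds (show b ∈ side 0 true from hbd),
      isOpen_ball.mem_nhds (hbox b (by simp [hb, hδ.le])
        (by simp [hb, abs_of_pos hδ]; linarith))] with w h1 h2
    rcases hpq' w h2 with e | e
    · exact absurd (C.mem_S.1 (e ▸ C.κ_mem w)) (hnp w (hrF h2).1 h1)
    · exact e
  have htop : ∀ᶠ w in 𝓝 t, C.κ w = p := by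
    filter_upwards [(isOpen_side 0 false).mem_nhds (show t ∈ side 0 false from htd),
      isOpen_ball.mem_nhds (hbox t (by simp [ht, hδ.le])
        (by simp [ht, abs_of_pos hδ]; linarith))] with w h1 h2
    rcases hpq' w h2 with e | e
    · exact e
    · exact absurd (C.mem_S.1 (e ▸ C.κ_mem w)) (hnq w (hrF h2).1 h1)
  set N : Set ℂ := {w | |w.re - u.re| < δ ∧ |w.im - u.im| < δ} with hN
  have hNo : IsOpen N :=
    (isOpen_lt (Complex.continuous_re.sub continuous_const).abs continuous_const).inter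
      (isOpen_lt (Complex.continuous_im.sub continuous_const).abs continuous_const)
  have hsplit := C.cl_split hgood.bdd (disjoint_empty N) (p := p) (q := q) fun w hw hp hq =>
    Or.inl (by
      rw [hNo.interior_eq, hfr w hw hp hq]
      exact ⟨by simp [hδ], by simp [hδ]⟩)
  have hside : ∀ w : ℂ, |w.re - u.re| ≤ 2 * δ → |w.im - u.im| ≤ 2 * δ →
      (w ∈ R ↔ if decide (x₂ < x₁) = true then u.re < w.re else w.re < u.re) := by
    intro w h1 h2
    obtain ⟨a1, a2⟩ := abs_le.1 h1
    obtain ⟨b1, b2⟩ := abs_le.1 h2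
    have c1 : w.im ∈ Ioo (1 - k) (1 + k) := by
      obtain ⟨d1, d2⟩ := abs_le.1 (le_refl |u.im - 1|)
      constructor <;> linarith
    have hre : u.re = x₂ := rfl
    rw [hre] at a1 a2 ⊢
    rcases lt_or_gt_of_ne hne with hlt | hlt
    · rw [abs_of_neg (by linarith)] at hδx
      simp only [hR, Set.mem_ofPred_eq, min_eq_left hlt.le, max_eq_right hlt.le,
        Set.mem_Ioo, not_lt.2 hlt.le, decide_false, Bool.false_eq_true, if_false]
      exact ⟨fun hh => hh.1.2, fun hh => ⟨⟨by linarith, hh⟩, c1⟩⟩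
    · rw [abs_of_pos (by linarith)] at hδx
      simp only [hR, Set.mem_ofPred_eq, min_eq_right hlt.le, max_eq_left hlt.le,
        Set.mem_Ioo, decide_eq_true hlt, if_true]
      exact ⟨fun hh => hh.1.1, fun hh => ⟨⟨hh, by linarith⟩, c1⟩⟩
  obtain ⟨n, hn1, hn2, hn3⟩ := (hzero.and (hsplit.and (C.cnt_crossing hpq hδ hb ht _ hside
    (fun w h1 h2 => hpq' w (hbox w h1 h2)) hbot htop))).exists
  have h0 : C.cnt n R ∅ p q = 0 := by simp [cnt, ind]
  rw [hn1 p q, hn3, h0, add_zero] at hn2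
  exact zero_ne_one hn2

/-- The box lemma. -/
lemma box (hiso : Isolation) {z : ℂ} {θ : ℝ} {σ : Bool} {a p q : Fin 5} (hap : a ≠ p)
    (haq : a ≠ q) (hpq : p ≠ q) (hA : C.Allow z θ σ {q, a}) (hB : C.Allow z θ (!σ) {p, a}) :
    ∃ η > 0, (∀ φ ∈ Ioo (θ - η) (θ + η), z + cs φ ∈ C.F a) ∨
      (∀ φ ∈ Ioo (θ - η) (θ + η), z + cs φ ∈ C.F p ∧ z + cs φ ∈ C.F q) := by
  wlog hσ : σ = true generalizing σ p q
  · have hf : σ = false := by simpa using hσ
    subst hf
    obtain ⟨η, hη, h⟩ := this (σ := true) haq hap hpq.symm hB hA rfl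
    exact ⟨η, hη, h.imp id fun h φ hφ => (h φ hφ).symm⟩
  subst hσ
  obtain ⟨ε₀, hε₀, hnear⟩ := Allow.near hA hB
  obtain ⟨ε₁, hε₁, h1⟩ := hA
  obtain ⟨ε₂, hε₂, h2⟩ := hB
  set ε := min ε₀ (min ε₁ ε₂) with hε
  set w := cs (θ - Real.pi / 2) with hw
  have hwn : ‖w‖ = 1 := norm_cs _
  have hw0 : w ≠ 0 := fun h => by simp [h] at hwn
  have hcs : ∀ φ : ℝ, w * cs φ = cs (θ - Real.pi / 2 + φ) := fun φ => by
    apply Complex.ext <;>
      simp only [hw, Complex.mul_re, Complex.mul_im, cs_re, cs_im, Real.cos_add, Real.sin_add]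
    ring
  have hI : rigid z w hw0 Complex.I = z + cs θ := by
    have : Complex.I = cs (Real.pi / 2) := by apply Complex.ext <;> simp
    rw [rigid_apply, this, hcs]
    ring_nf
  have h0 : rigid z w hw0 0 = z := by simp
  have hball : ∀ x ∈ ball Complex.I ε, rigid z w hw0 x ∈ ball (z + cs θ) ε := fun x hx => by
    rw [mem_ball, ← hI, dist_rigid hwn hw0]; exact hx
  have hsd : ∀ x, dist (rigid z w hw0 x) z = dist x 0 := fun x => by
    rw [← dist_rigid (z := z) hwn hw0 x 0, h0]
  set C' := C.move z w hwn hw0 with hC'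
  have hεpos : 0 < ε := lt_min hε₀ (lt_min hε₁ hε₂)
  obtain ⟨h, hh, hor⟩ := C'.box_core hiso hap haq hpq hεpos
    (fun x hx hd c hc => by
      have := h1 (rigid z w hw0 x) ⟨ball_subset_ball ((min_le_right _ _).trans (min_le_left _ _))
        (hball x hx), show dist (rigid z w hw0 x) z < 1 by rw [hsd]; exact hd⟩ c hc
      simpa using this)
    (fun x hx hd c hc => by
      have := h2 (rigid z w hw0 x) ⟨ball_subset_ball ((min_le_right _ _).trans (min_le_right _ _))
        (hball x hx), show 1 < dist (rigid z w hw0 x) z by rw [hsd]; exact hd⟩ c hc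
      simpa using this)
    (fun x hx c hc => by
      have := hnear (rigid z w hw0 x) (ball_subset_ball (min_le_left _ _) (hball x hx))
        (C.mem_S.2 (by
          have h' := C'.mem_S.1 hc
          rw [hC', move_F] at h'
          exact h'))
      simp only [Finset.mem_union, Finset.mem_insert, Finset.mem_singleton] at this ⊢
      tauto)
  refine ⟨min h 1, lt_min hh one_pos, ?_⟩
  have key : ∀ φ ∈ Ioo (θ - min h 1) (θ + min h 1), ∃ x ∈ Ioo (-h) h,
      rigid z w hw0 (top' x) = z + cs φ := by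
    intro φ hφ
    set d := φ - θ with hd
    have hd1 : |d| < min h 1 := abs_lt.2 ⟨by linarith [hφ.1], by linarith [hφ.2]⟩
    have hsin : |Real.sin d| ≤ |d| := Real.abs_sin_le_abs
    refine ⟨-Real.sin d, ?_, ?_⟩
    · obtain ⟨a1, a2⟩ := abs_lt.1 (hsin.trans_lt (hd1.trans_le (min_le_left _ _)))
      constructor <;> linarith
    · have hc : 0 ≤ Real.cos d := by
        refine Real.cos_nonneg_of_mem_Icc ?_
        obtain ⟨a1, a2⟩ := abs_lt.1 (hd1.trans_le (min_le_right _ _))
        constructor <;> linarith [Real.two_le_pi]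
      have : top' (-Real.sin d) = cs (Real.pi / 2 + d) := by
        apply Complex.ext
        · simp [top', Real.cos_add]
        · simp only [top', cs_im, Real.sin_add, Real.sin_pi_div_two, Real.cos_pi_div_two,
            one_mul, zero_mul, add_zero, neg_sq]
          rw [← Real.cos_sq', Real.sqrt_sq hc]
      rw [rigid_apply, this, hcs, hd]
      ring_nf
  rcases hor with hor | hor
  · refine Or.inl fun φ hφ => ?_
    obtain ⟨x, hx, e⟩ := key φ hφ
    rw [← e]
    have := hor x hx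
    rw [hC', move_F] at this
    exact this
  · refine Or.inr fun φ hφ => ?_
    obtain ⟨x, hx, e⟩ := key φ hφ
    rw [← e]
    have := hor x hx
    rw [hC', move_F, move_F] at this
    exact this

/-- Three closed classes share no arc. -/
lemma no_arc_three {z : ℂ} {s t : ℝ} (hst : s < t) {o : Finset (Fin 5)} (ho : 3 ≤ o.card)
    (h : ∀ φ ∈ Ioo s t, ∀ c ∈ o, z + cs φ ∈ C.F c) : False := by
  obtain ⟨T, hT, hTc⟩ := Finset.exists_subset_card_eq ho
  obtain ⟨i, j, k, hij, hik, hjk, rfl⟩ := Finset.card_eq_three.1 hTc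
  set K := (fun φ => z + cs φ) '' Ioo s t with hK
  have hmid : (s + t) / 2 ∈ Ioo s t := ⟨by linarith, by linarith⟩
  obtain ⟨φ, hφ, hne⟩ := exists_avoid z (fun _ => z + cs ((s + t) / 2)) hst
  have hsub : ∀ c ∈ ({i, j, k} : Finset (Fin 5)), K ⊆ C.F c := by
    rintro c hc _ ⟨ψ, hψ, rfl⟩
    exact h ψ hψ c (hT hc)
  exact hne 0 (C.three_subsingleton
    (isPreconnected_Ioo.image _ (continuous_circle z).continuousOn) hij hik hjk
    (hsub i (by simp)) (hsub j (by simp)) (hsub k (by simp)) ⟨φ, hφ, rfl⟩ ⟨_, hmid, rfl⟩)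

/-- No four-cycle of interfaces passes through a point. -/
lemma no_square (hiso : Isolation) {z : ℂ} (h01 : C.Arm z 0 1) (h12 : C.Arm z 1 2)
    (h23 : C.Arm z 2 3) (h30 : C.Arm z 3 0) : False := by
  let ed : Fin 5 → Fin 5 × Fin 5 := ![(0, 1), (1, 2), (2, 3), (3, 0), (0, 1)]
  have harm : ∀ i, C.Arm z (ed i).1 (ed i).2 := by
    intro i; fin_cases i <;> assumption
  choose K hK hKF hzK hne using fun i => harm i 1 one_pos
  obtain ⟨e, he⟩ := exists_exceptional hK hzK hne
  have hcomb : ∀ b : Fin 5 → Bool, ∃ σ,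
      allowed ![(0, 1), (1, 2), (2, 3), (3, 0), (0, 1)] b σ ⊆ {4} ∨
      (allowed ![(0, 1), (1, 2), (2, 3), (3, 0), (0, 1)] b σ ⊆ {1, 4} ∧
        allowed ![(0, 1), (1, 2), (2, 3), (3, 0), (0, 1)] b (!σ) ⊆ {3, 4}) ∨
      (allowed ![(0, 1), (1, 2), (2, 3), (3, 0), (0, 1)] b σ ⊆ {0, 4} ∧
        allowed ![(0, 1), (1, 2), (2, 3), (3, 0), (0, 1)] b (!σ) ⊆ {2, 4}) := by decide +kernel
  refine C.gap_lemma (z := z) e ({{4}, {1, 3}, {0, 2}} : Finset (Finset (Fin 5))) ?_ ?_ (by simp)
  · intro θ hθ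
    obtain ⟨b, hb⟩ := C.exists_signs (ed := ed) hK (fun i x hx => (hKF i hx).1) hzK (he θ hθ)
    obtain ⟨σ, hσ | ⟨hσ, hσ'⟩ | ⟨hσ, hσ'⟩⟩ := hcomb b
    · obtain ⟨η, hη, h⟩ := ((hb σ).mono hσ).single
      exact ⟨{4}, by simp, η, hη, fun φ hφ c hc => Finset.mem_singleton.1 hc ▸ h φ hφ⟩
    · obtain ⟨η, hη, h | h⟩ := C.box hiso (a := 4) (p := 3) (q := 1) (by decide) (by decide)
        (by decide) ((hb σ).mono hσ) ((hb (!σ)).mono hσ')
      · exact ⟨{4}, by simp, η, hη, fun φ hφ c hc => Finset.mem_singleton.1 hc ▸ h φ hφ⟩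
      · refine ⟨{1, 3}, by simp, η, hη, fun φ hφ c hc => ?_⟩
        simp only [Finset.mem_insert, Finset.mem_singleton] at hc
        rcases hc with rfl | rfl
        · exact (h φ hφ).2
        · exact (h φ hφ).1
    · obtain ⟨η, hη, h | h⟩ := C.box hiso (a := 4) (p := 2) (q := 0) (by decide) (by decide)
        (by decide) ((hb σ).mono hσ) ((hb (!σ)).mono hσ')
      · exact ⟨{4}, by simp, η, hη, fun φ hφ c hc => Finset.mem_singleton.1 hc ▸ h φ hφ⟩
      · refine ⟨{0, 2}, by simp, η, hη, fun φ hφ c hc => ?_⟩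
        simp only [Finset.mem_insert, Finset.mem_singleton] at hc
        rcases hc with rfl | rfl
        · exact (h φ hφ).2
        · exact (h φ hφ).1
  · intro o ho o' ho' hne' s t hst h
    have hcard : ∀ o ∈ ({{4}, {1, 3}, {0, 2}} : Finset (Finset (Fin 5))),
        ∀ o' ∈ ({{4}, {1, 3}, {0, 2}} : Finset (Finset (Fin 5))),
        o ≠ o' → 3 ≤ (o ∪ o').card := by decide
    refine C.no_arc_three (z := z) hst (hcard o ho o' ho' hne') fun φ hφ c hc => ?_
    rcases Finset.mem_union.1 hc with hc | hc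
    · exact (h φ hφ).1 c hc
    · exact (h φ hφ).2 c hc

/-- No five-cycle of interfaces passes through a point. -/
lemma no_pentagon (hiso : Isolation) {z : ℂ} (h01 : C.Arm z 0 1) (h12 : C.Arm z 1 2)
    (h23 : C.Arm z 2 3) (h34 : C.Arm z 3 4) (h40 : C.Arm z 4 0) : False := by
  let ed : Fin 5 → Fin 5 × Fin 5 := ![(0, 1), (1, 2), (2, 3), (3, 4), (4, 0)]
  have harm : ∀ i, C.Arm z (ed i).1 (ed i).2 := by
    intro i; fin_cases i <;> assumption
  choose K hK hKF hzK hne using fun i => harm i 1 one_pos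
  obtain ⟨e, he⟩ := exists_exceptional hK hzK hne
  have hcomb : ∀ b : Fin 5 → Bool, ∃ σ,
      allowed ![(0, 1), (1, 2), (2, 3), (3, 4), (4, 0)] b σ = ∅ ∨
      ∃ m, allowed ![(0, 1), (1, 2), (2, 3), (3, 4), (4, 0)] b σ ⊆ {m} ∧
        allowed ![(0, 1), (1, 2), (2, 3), (3, 4), (4, 0)] b (!σ) ⊆ {m + 2, m + 3} := by
    decide +kernel
  set opt : Finset (Finset (Fin 5)) := Finset.univ.image fun m : Fin 5 => {m, m + 2} with hopt
  refine C.gap_lemma (z := z) e opt ?_ ?_ (by simp [hopt])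
  · intro θ hθ
    obtain ⟨b, hb⟩ := C.exists_signs (ed := ed) hK (fun i x hx => (hKF i hx).1) hzK (he θ hθ)
    obtain ⟨σ, hσ | ⟨m, hσ, hσ'⟩⟩ := hcomb b
    · exact ((hb σ).mono hσ.le).not_empty.elim
    obtain ⟨η₁, hη₁, h₁⟩ := ((hb σ).mono hσ).single
    have hd : ∀ m : Fin 5, m + 3 ≠ m + 2 ∧ m + 3 ≠ m ∧ m + 2 ≠ m ∧ m + 3 + 2 = m := by decide
    obtain ⟨η₂, hη₂, h | h⟩ := C.box hiso (a := m + 3) (p := m + 2) (q := m) (hd m).1 (hd m).2.1
      (hd m).2.2.1 (((hb σ).mono hσ).mono (by simp)) ((hb (!σ)).mono hσ')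
    · refine ⟨{m + 3, m}, Finset.mem_image.2 ⟨m + 3, by simp, by rw [(hd m).2.2.2]⟩,
        min η₁ η₂, lt_min hη₁ hη₂, fun φ hφ c hc => ?_⟩
      simp only [Finset.mem_insert, Finset.mem_singleton] at hc
      rcases hc with rfl | rfl
      · exact h φ ⟨by linarith [hφ.1, min_le_right η₁ η₂], by linarith [hφ.2, min_le_right η₁ η₂]⟩
      · exact h₁ φ ⟨by linarith [hφ.1, min_le_left η₁ η₂], by linarith [hφ.2, min_le_left η₁ η₂]⟩
    · refine ⟨{m, m + 2}, Finset.mem_image.2 ⟨m, by simp, rfl⟩, η₂, hη₂, fun φ hφ c hc => ?_⟩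
      simp only [Finset.mem_insert, Finset.mem_singleton] at hc
      rcases hc with rfl | rfl
      · exact (h φ hφ).2
      · exact (h φ hφ).1
  · intro o ho o' ho' hne' s t hst h
    simp only [hopt, Finset.mem_image, Finset.mem_univ, true_and] at ho ho'
    obtain ⟨m, rfl⟩ := ho
    obtain ⟨m', rfl⟩ := ho'
    have hcard : ∀ m m' : Fin 5, ({m, m + 2} : Finset (Fin 5)) ≠ {m', m' + 2} →
        3 ≤ (({m, m + 2} : Finset (Fin 5)) ∪ {m', m' + 2}).card := by decide
    refine C.no_arc_three (z := z) hst (hcard m m' hne') fun φ hφ c hc => ?_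
    rcases Finset.mem_union.1 hc with hc | hc
    · exact (h φ hφ).1 c hc
    · exact (h φ hφ).2 c hc

/-- No cycle of interfaces passes through a point, given isolation. -/
theorem no_cycle
    (hiso : ∀ (C : Col) (O : Set ℂ), IsOpen O → (∃ x ∈ O, x ∈ C.Tri ∧ ¬C.IsNull x) →
      ∃ x ∈ O, x ∈ C.Tri ∧ ¬C.IsNull x ∧
        ∃ r > 0, ∀ y ∈ Metric.ball x r, y ≠ x → y ∈ C.Tri → C.IsNull y)
    (C : Col) (z : ℂ) : ¬HasCycle (C.Arm z) := by
  rintro (⟨i, j, k, hij, hik, hjk, h1, h2, h3⟩ |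
    ⟨i, j, k, l, hij, hik, hil, hjk, hjl, hkl, h1, h2, h3, h4⟩ |
    ⟨i, j, k, l, m, hij, hik, hil, him, hjk, hjl, hjm, hkl, hkm, hlm, h1, h2, h3, h4, h5⟩)
  · exact C.no_triangle' hij hik hjk h1 h2 h3
  · obtain ⟨m, hinj⟩ : ∃ m, Function.Injective ![i, j, k, l, m] := by
      revert hij hik hil hjk hjl hkl
      clear h1 h2 h3 h4
      revert i j k l
      decide +kernel
    exact (C.relabel (Equiv.ofBijective _ (Finite.injective_iff_bijective.1 hinj))).no_square
      hiso (z := z) h1 h2 h3 h4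
  · have hinj : Function.Injective ![i, j, k, l, m] := by
      intro a b hab
      fin_cases a <;> fin_cases b <;> simp_all
    exact (C.relabel (Equiv.ofBijective _ (Finite.injective_iff_bijective.1 hinj))).no_pentagon
      hiso (z := z) h1 h2 h3 h4 h5

end Col

end Vale.P032
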