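import Vale.Agent.P032.Basic

/-!
P032, part 3: discrete parities of colour changes on square grids.
-/

namespace Vale.P032

open Set Filter Topology Metric

/-- Mesh. -/
noncomputable def mesh (n : ℕ) : ℝ := 1 / (n + 1)

lemma mesh_pos (n : ℕ) : 0 < mesh n := by unfold mesh; positivity

lemma tendsto_mesh : Tendsto mesh atTop (𝓝 0) := tendsto_one_div_add_atTop_nhds_zero_nat

/-- Grid points. -/
noncomputable def pt (n : ℕ) (v : ℤ × ℤ) : ℂ := ⟨mesh n * v.1, mesh n * v.2⟩

def e₁ : ℤ × ℤ := (1, 0)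
def e₂ : ℤ × ℤ := (0, 1)

lemma dist_pt_le (n : ℕ) (v w : ℤ × ℤ) :
    dist (pt n v) (pt n w) ≤ mesh n * (|((v.1 : ℝ) - w.1)| + |((v.2 : ℝ) - w.2)|) := by
  rw [Complex.dist_eq, mul_add]
  refine (Complex.norm_le_abs_re_add_abs_im _).trans (le_of_eq ?_)
  simp only [pt, Complex.sub_re, Complex.sub_im]
  rw [← mul_sub, ← mul_sub, abs_mul, abs_mul, abs_of_pos (mesh_pos n)]

lemma dist_pt_add₁ (n : ℕ) (v : ℤ × ℤ) : dist (pt n (v + e₁)) (pt n v) ≤ mesh n := by
  refine (dist_pt_le n _ _).trans (le_of_eq ?_); simp [e₁]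

lemma dist_pt_add₂ (n : ℕ) (v : ℤ × ℤ) : dist (pt n (v + e₂)) (pt n v) ≤ mesh n := by
  refine (dist_pt_le n _ _).trans (le_of_eq ?_); simp [e₂]

lemma dist_pt_sub₁ (n : ℕ) (v : ℤ × ℤ) : dist (pt n (v - e₁)) (pt n v) ≤ mesh n := by
  simpa [dist_comm] using dist_pt_add₁ n (v - e₁)

lemma dist_pt_sub₂ (n : ℕ) (v : ℤ × ℤ) : dist (pt n (v - e₂)) (pt n v) ≤ mesh n := by
  simpa [dist_comm] using dist_pt_add₂ n (v - e₂)

lemma finite_pts (n : ℕ) {A : Set ℂ} (hA : Bornology.IsBounded A) :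
    {v : ℤ × ℤ | pt n v ∈ A}.Finite := by
  obtain ⟨R, hR⟩ := hA.subset_closedBall 0
  have hm := mesh_pos n
  set M : ℤ := ⌈R / mesh n⌉ with hM
  refine (Finset.Icc (-M) M ×ˢ Finset.Icc (-M) M).finite_toSet.subset fun v hv => ?_
  have hb : ‖pt n v‖ ≤ R := by simpa [dist_zero_right] using hR hv
  have hR' : R / mesh n ≤ (M : ℝ) := by rw [hM]; exact Int.le_ceil _
  have h : ∀ k : ℤ, |mesh n * (k : ℝ)| ≤ R → -M ≤ k ∧ k ≤ M := by
    intro k hk
    rw [abs_mul, abs_of_pos hm] at hk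
    have hk' : |(k : ℝ)| ≤ (M : ℝ) := le_trans ((le_div_iff₀' hm).2 hk) hR'
    obtain ⟨h1, h2⟩ := abs_le.1 hk'
    exact ⟨by exact_mod_cast h1, by exact_mod_cast h2⟩
  have h1 := h v.1 ((Complex.abs_re_le_norm (pt n v)).trans hb)
  have h2 := h v.2 ((Complex.abs_im_le_norm (pt n v)).trans hb)
  simp only [Finset.mem_coe, Finset.mem_product, Finset.mem_Icc]
  exact ⟨h1, h2⟩

/-- Uniform version of a local property along the grid. -/
lemma eventually_uniform {L : Set ℂ} (hL : IsCompact L) {P : ℂ → ℂ → Prop}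
    (h : ∀ x ∈ L, ∀ᶠ y in 𝓝 x, P x y) (k : ℝ) :
    ∀ᶠ n : ℕ in atTop, ∀ x ∈ L, ∃ x₀ ∈ L, ∀ y, dist y x ≤ k * mesh n → P x₀ y := by
  choose V hV hVo hxV using fun x : L => _root_.eventually_nhds_iff.1 (h x x.2)
  obtain ⟨δ, hδ, hball⟩ :=
    lebesgue_number_lemma_of_metric hL hVo fun x hx => mem_iUnion.2 ⟨⟨x, hx⟩, hxV _⟩
  have ht : Tendsto (fun n => k * mesh n) atTop (𝓝 0) := by
    simpa using tendsto_mesh.const_mul k
  filter_upwards [ht.eventually (Iio_mem_nhds hδ)] with n hn x hx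
  obtain ⟨i, hi⟩ := hball x hx
  exact ⟨i, i.2, fun y hy => hV i y (hi (lt_of_le_of_lt hy hn))⟩

/-- A segment leaving a set meets its frontier. -/
lemma exists_frontier_near {A : Set ℂ} {u v : ℂ} (h : ¬(u ∈ A ↔ v ∈ A)) :
    ∃ w ∈ frontier A, dist w u ≤ dist u v := by
  have hseg : IsPreconnected (segment ℝ u v) := (convex_segment u v).isPreconnected
  obtain ⟨w, hw, hwA⟩ : (segment ℝ u v ∩ frontier A).Nonempty := by
    by_contra hne
    rw [Set.not_nonempty_iff_eq_empty] at hne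
    have hu := left_mem_segment ℝ u v
    have hv := right_mem_segment ℝ u v
    have hcov : segment ℝ u v ⊆ interior A ∪ (closure A)ᶜ := by
      intro x hx
      by_cases hxA : x ∈ closure A
      · left
        by_contra hi
        exact Set.eq_empty_iff_forall_notMem.1 hne x ⟨hx, hxA, hi⟩
      · exact Or.inr hxA
    rcases hseg.subset_or_subset isOpen_interior isClosed_closure.isOpen_compl
      (Set.disjoint_left.2 fun x hx hx' => hx' (subset_closure (interior_subset hx))) hcov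
      with h' | h'
    · exact h ⟨fun _ => interior_subset (h' hv), fun _ => interior_subset (h' hu)⟩
    · exact h ⟨fun hh => absurd (subset_closure hh) (h' hu),
        fun hh => absurd (subset_closure hh) (h' hv)⟩
  refine ⟨w, hwA, ?_⟩
  have := dist_add_dist_of_mem_segment hw
  rw [dist_comm w u]
  linarith [dist_nonneg (x := w) (y := v)]

namespace Col

variable (C : Col)

/-- A fixed colour at every point. -/
noncomputable def κ (x : ℂ) : Fin 5 := (C.exists_F x).choose

lemma κ_mem (x : ℂ) : C.κ x ∈ C.S x := C.mem_S.2 (C.exists_F x).choose_spec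

end Col

/-- Indicator of an edge with end colours `a`, `b` being a `{p, q}` edge. -/
def gc (p q a b : Fin 5) : ZMod 2 :=
  if p ≠ q ∧ ((a = p ∧ b = q) ∨ (a = q ∧ b = p)) then 1 else 0

lemma gc_self (p q a : Fin 5) : gc p q a a = 0 := by revert p q a; decide

lemma gc_comm (p q a b : Fin 5) : gc p q a b = gc p q b a := by revert p q a b; decide

lemma gc_ne_zero {p q a b : Fin 5} (h : gc p q a b ≠ 0) :
    p ≠ q ∧ ((a = p ∧ b = q) ∨ (a = q ∧ b = p)) := by
  by_contra hh
  exact h (if_neg hh)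

lemma sum_gc (x a b : Fin 5) :
    ∑ q, gc x q a b = (if a = x then 1 else 0) + (if b = x then 1 else 0) := by
  revert x a b; decide

open scoped Classical in
/-- Indicator of a set at a grid point. -/
noncomputable def ind (n : ℕ) (A : Set ℂ) (v : ℤ × ℤ) : ZMod 2 := if pt n v ∈ A then 1 else 0

namespace Col

variable (C : Col)

noncomputable def gH (n : ℕ) (p q : Fin 5) (v : ℤ × ℤ) : ZMod 2 :=
  gc p q (C.κ (pt n v)) (C.κ (pt n (v + e₁)))

noncomputable def gV (n : ℕ) (p q : Fin 5) (v : ℤ × ℤ) : ZMod 2 :=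
  gc p q (C.κ (pt n v)) (C.κ (pt n (v + e₂)))

/-- Parity of `{p, q}` edges around a square. -/
noncomputable def sq (n : ℕ) (p q : Fin 5) (v : ℤ × ℤ) : ZMod 2 :=
  C.gH n p q v + C.gH n p q (v + e₂) + C.gV n p q v + C.gV n p q (v + e₁)

/-- The class of a region. -/
noncomputable def cl (n : ℕ) (A : Set ℂ) (p q : Fin 5) : ZMod 2 :=
  ∑ᶠ v, ind n A v * C.sq n p q v

/-- The contribution of a boundary edge based at `v`. -/
noncomputable def term (n : ℕ) (A : Set ℂ) (p q : Fin 5) (v : ℤ × ℤ) : ZMod 2 :=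
  (ind n A v + ind n A (v - e₂)) * C.gH n p q v + (ind n A v + ind n A (v - e₁)) * C.gV n p q v

/-- Boundary edges based in `N`. -/
noncomputable def cnt (n : ℕ) (A N : Set ℂ) (p q : Fin 5) : ZMod 2 :=
  ∑ᶠ v, ind n N v * C.term n A p q v

lemma ind_support {n : ℕ} {A : Set ℂ} (hA : Bornology.IsBounded A) (d : ℤ × ℤ)
    (f : ℤ × ℤ → ZMod 2) : (Function.support fun v => ind n A (v - d) * f v).Finite := by
  refine ((finite_pts n hA).image fun v => v + d).subset fun v hv => ⟨v - d, ?_, by simp⟩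
  by_contra h
  have h' : pt n (v - d) ∉ A := h
  exact hv (by simp [ind, h'])

lemma ind_support₀ {n : ℕ} {A : Set ℂ} (hA : Bornology.IsBounded A)
    (f : ℤ × ℤ → ZMod 2) : (Function.support fun v => ind n A v * f v).Finite := by
  simpa using ind_support hA (0 : ℤ × ℤ) f

lemma term_support {n : ℕ} {A : Set ℂ} (hA : Bornology.IsBounded A) (p q : Fin 5)
    (f : ℤ × ℤ → ZMod 2) : (Function.support fun v => f v * C.term n A p q v).Finite := by
  refine ((finite_pts n hA).union (((finite_pts n hA).image fun v => v + e₂).union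
    ((finite_pts n hA).image fun v => v + e₁))).subset fun v hv => ?_
  by_contra h
  have h0 : pt n v ∉ A := fun hh => h (Or.inl hh)
  have h2 : pt n (v - e₂) ∉ A := fun hh => h (Or.inr (Or.inl ⟨_, hh, by simp⟩))
  have h1 : pt n (v - e₁) ∉ A := fun hh => h (Or.inr (Or.inr ⟨_, hh, by simp⟩))
  exact hv (by simp [term, ind, h0, h1, h2])

lemma shift (d : ℤ × ℤ) (f : ℤ × ℤ → ZMod 2) : ∑ᶠ v, f v = ∑ᶠ v, f (v - d) :=
  (finsum_comp_equiv (Equiv.subRight d) (f := f)).symm

lemma cl_eq_sum_term {n : ℕ} {A : Set ℂ} (hA : Bornology.IsBounded A) (p q : Fin 5) :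
    C.cl n A p q = ∑ᶠ v, C.term n A p q v := by
  have h0 := fun f => ind_support₀ (n := n) hA f
  have hd := fun d f => ind_support (n := n) hA d f
  have e : C.cl n A p q = (((∑ᶠ v, ind n A v * C.gH n p q v)
      + ∑ᶠ v, ind n A v * C.gH n p q (v + e₂)) + ∑ᶠ v, ind n A v * C.gV n p q v)
      + ∑ᶠ v, ind n A v * C.gV n p q (v + e₁) := by
    rw [← finsum_add_distrib (h0 _) (h0 _), ← finsum_add_distrib ?_ (h0 _),
      ← finsum_add_distrib ?_ (h0 _)]
    · simp only [cl, sq, mul_add]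
    · exact ((h0 _).union (h0 _)).subset (Function.support_add _ _) |>.union (h0 _)
        |>.subset (Function.support_add _ _)
    · exact ((h0 _).union (h0 _)).subset (Function.support_add _ _)
  rw [e, shift e₂ (fun v => ind n A v * C.gH n p q (v + e₂)),
    shift e₁ (fun v => ind n A v * C.gV n p q (v + e₁))]
  simp only [sub_add_cancel]
  rw [← finsum_add_distrib (h0 _) (hd e₂ _), add_assoc, ← finsum_add_distrib (h0 _) (hd e₁ _),
    ← finsum_add_distrib (((h0 _).union (hd e₂ _)).subset (Function.support_add _ _))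
      (((h0 _).union (hd e₁ _)).subset (Function.support_add _ _))]
  exact finsum_congr fun v => by simp only [term]; ring

/-- Boundary edges sit near frontier points. -/
lemma edge_local {A : Set ℂ} (hA : Bornology.IsBounded A) {P : ℂ → ℂ → Prop}
    (h : ∀ x ∈ frontier A, ∀ᶠ y in 𝓝 x, P x y) :
    ∀ᶠ n : ℕ in atTop, ∀ v,
      (ind n A v + ind n A (v - e₂) ≠ 0 ∨ ind n A v + ind n A (v - e₁) ≠ 0) →
      ∃ x₀ ∈ frontier A, ∀ d : ℤ × ℤ, d = 0 ∨ d = e₁ ∨ d = e₂ →
        P x₀ (pt n (v + d)) ∧ C.κ (pt n (v + d)) ∈ C.S x₀ := by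
  have hc : IsCompact (frontier A) :=
    hA.isCompact_closure.of_isClosed_subset isClosed_frontier frontier_subset_closure
  filter_upwards [eventually_uniform hc (P := fun x y => P x y ∧ C.S y ⊆ C.S x)
    (fun x hx => (h x hx).and (C.S_nhds x)) 2] with n hn v hv
  have hiff : ∀ d, ind n A v + ind n A (v - d) ≠ 0 → ¬(pt n v ∈ A ↔ pt n (v - d) ∈ A) := by
    intro d hd hh
    refine hd ?_
    by_cases hv' : pt n v ∈ A
    · simp [ind, hv', hh.1 hv', CharTwo.add_self_eq_zero]
    · simp [ind, hv', mt hh.2 hv']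
  obtain ⟨w, hw, hwd⟩ : ∃ w ∈ frontier A, dist w (pt n v) ≤ mesh n := by
    rcases hv with h1 | h1
    · obtain ⟨w, hw, hd⟩ := exists_frontier_near (hiff e₂ h1)
      exact ⟨w, hw, hd.trans (by rw [dist_comm]; exact dist_pt_sub₂ n v)⟩
    · obtain ⟨w, hw, hd⟩ := exists_frontier_near (hiff e₁ h1)
      exact ⟨w, hw, hd.trans (by rw [dist_comm]; exact dist_pt_sub₁ n v)⟩
  obtain ⟨x₀, hx₀, hP⟩ := hn w hw
  refine ⟨x₀, hx₀, fun d hd => ?_⟩
  have hdd : dist (pt n (v + d)) (pt n v) ≤ mesh n := by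
    rcases hd with rfl | rfl | rfl
    · simp [(mesh_pos n).le]
    · exact dist_pt_add₁ n v
    · exact dist_pt_add₂ n v
  have hb := hP (pt n (v + d)) (by
    linarith [dist_triangle (pt n (v + d)) (pt n v) w, dist_comm (pt n v) w])
  exact ⟨hb.1, hb.2 (C.κ_mem _)⟩

/-- Boundary terms sit near frontier points carrying both colours. -/
lemma term_local {A : Set ℂ} (hA : Bornology.IsBounded A) {P : ℂ → ℂ → Prop}
    (h : ∀ x ∈ frontier A, ∀ᶠ y in 𝓝 x, P x y) :
    ∀ᶠ n : ℕ in atTop, ∀ p q v, C.term n A p q v ≠ 0 → ∃ x₀ ∈ frontier A,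
      p ∈ C.S x₀ ∧ q ∈ C.S x₀ ∧ P x₀ (pt n v) := by
  filter_upwards [C.edge_local hA h] with n hn p q v hv
  have hor : ind n A v + ind n A (v - e₂) ≠ 0 ∨ ind n A v + ind n A (v - e₁) ≠ 0 := by
    by_contra hh
    push Not at hh
    exact hv (by simp [term, hh.1, hh.2])
  obtain ⟨x₀, hx₀, hd⟩ := hn v hor
  have k0 := hd 0 (Or.inl rfl)
  rw [add_zero] at k0
  have key : ∀ d, d = e₁ ∨ d = e₂ → gc p q (C.κ (pt n v)) (C.κ (pt n (v + d))) ≠ 0 →
      p ∈ C.S x₀ ∧ q ∈ C.S x₀ := by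
    intro d hd' hg
    obtain ⟨-, ⟨ha, hb⟩ | ⟨ha, hb⟩⟩ := gc_ne_zero hg
    · exact ⟨ha ▸ k0.2, hb ▸ (hd d (Or.inr hd')).2⟩
    · exact ⟨hb ▸ (hd d (Or.inr hd')).2, ha ▸ k0.2⟩
  refine ⟨x₀, hx₀, ?_⟩
  by_cases hg : C.gH n p q v = 0
  · have hg2 : C.gV n p q v ≠ 0 := fun h2 => hv (by simp [term, hg, h2])
    exact ⟨(key e₂ (Or.inr rfl) hg2).1, (key e₂ (Or.inr rfl) hg2).2, k0.1⟩
  · exact ⟨(key e₁ (Or.inl rfl) hg).1, (key e₁ (Or.inl rfl) hg).2, k0.1⟩

/-- No `{p,q}` interface on the frontier: zero class. -/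
lemma cl_zero {A : Set ℂ} (hA : Bornology.IsBounded A) {p q : Fin 5}
    (h : ∀ x ∈ frontier A, x ∈ C.F p → x ∉ C.F q) :
    ∀ᶠ n in atTop, C.cl n A p q = 0 := by
  filter_upwards [C.term_local hA (P := fun _ _ => True)
    (fun _ _ => Eventually.of_forall fun _ => trivial)] with n hn
  rw [C.cl_eq_sum_term hA]
  refine finsum_eq_zero_of_forall_eq_zero fun v => ?_
  by_contra hv
  obtain ⟨x₀, hx₀, hp, hq, -⟩ := hn p q v hv
  exact h x₀ hx₀ (C.mem_S.1 hp) (C.mem_S.1 hq)

/-- The class splits over two disjoint neighbourhoods of the interface. -/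
lemma cl_split {A N₁ N₂ : Set ℂ} (hA : Bornology.IsBounded A) (hN : Disjoint N₁ N₂) {p q : Fin 5}
    (h : ∀ x ∈ frontier A, x ∈ C.F p → x ∈ C.F q → x ∈ interior N₁ ∨ x ∈ interior N₂) :
    ∀ᶠ n in atTop, C.cl n A p q = C.cnt n A N₁ p q + C.cnt n A N₂ p q := by
  filter_upwards [C.term_local hA
    (P := fun x y => x ∈ C.F p → x ∈ C.F q → y ∈ N₁ ∨ y ∈ N₂) fun x hx => by
      by_cases hpq : x ∈ C.F p ∧ x ∈ C.F q
      · rcases h x hx hpq.1 hpq.2 with h' | h'
        · filter_upwards [mem_interior_iff_mem_nhds.1 h'] with y hy using fun _ _ => Or.inl hy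
        · filter_upwards [mem_interior_iff_mem_nhds.1 h'] with y hy using fun _ _ => Or.inr hy
      · exact Eventually.of_forall fun y h1 h2 => absurd ⟨h1, h2⟩ hpq] with n hn
  rw [C.cl_eq_sum_term hA, cnt, cnt,
    ← finsum_add_distrib (C.term_support hA p q _) (C.term_support hA p q _)]
  refine finsum_congr fun v => ?_
  by_cases hv : C.term n A p q v = 0
  · simp [hv]
  obtain ⟨x₀, -, hp, hq, hP⟩ := hn p q v hv
  rcases hP (C.mem_S.1 hp) (C.mem_S.1 hq) with h' | h'
  · simp [ind, h', Set.disjoint_left.1 hN h']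
  · simp [ind, h', Set.disjoint_right.1 hN h']

/-- Boundary counts only depend on the region near `N`. -/
lemma cnt_congr {A A' N O : Set ℂ} (hN : Bornology.IsBounded N) (hO : IsOpen O)
    (hNO : closure N ⊆ O) (h : A ∩ O = A' ∩ O) :
    ∀ᶠ n in atTop, ∀ p q, C.cnt n A N p q = C.cnt n A' N p q := by
  filter_upwards [eventually_uniform hN.isCompact_closure (P := fun _ y => y ∈ O)
    (fun x hx => hO.mem_nhds (hNO hx)) 1] with n hn p q
  refine finsum_congr fun v => ?_
  by_cases hv : pt n v ∈ N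
  swap
  · simp [ind, hv]
  obtain ⟨x₀, -, hP⟩ := hn _ (subset_closure hv)
  have hiff : ∀ y, dist y (pt n v) ≤ mesh n → (y ∈ A ↔ y ∈ A') := fun y hy => by
    have hy' : y ∈ O := hP y (by linarith)
    have := Set.ext_iff.1 h y
    simpa [hy'] using this
  have i0 := hiff _ (by rw [dist_self]; exact (mesh_pos n).le)
  have i1 := hiff _ (dist_pt_sub₁ n v)
  have i2 := hiff _ (dist_pt_sub₂ n v)
  have hind : ∀ w, (pt n w ∈ A ↔ pt n w ∈ A') → ind n A w = ind n A' w := fun w hw => by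
    unfold ind; split_ifs <;> simp_all
  simp only [term, hind _ i0, hind _ i1, hind _ i2]

/-- Summing boundary counts over the second colour gives an even number. -/
lemma cnt_star {A N : Set ℂ} (hA : Bornology.IsBounded A) {x : Fin 5}
    (h : ∀ w ∈ frontier A, w ∈ C.F x → w ∉ frontier N) :
    ∀ᶠ n in atTop, ∑ q, C.cnt n A N x q = 0 := by
  classical
  filter_upwards [C.edge_local hA
    (P := fun w y => w ∈ C.F x → (y ∈ N ↔ w ∈ N)) fun w hw => by
      by_cases hwx : w ∈ C.F x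
      · by_cases hwi : w ∈ interior N
        · filter_upwards [mem_interior_iff_mem_nhds.1 hwi] with y hy using
            fun _ => ⟨fun _ => interior_subset hwi, fun _ => hy⟩
        · have hcl : w ∉ closure N := fun hc => h w hw hwx ⟨hc, hwi⟩
          filter_upwards [isClosed_closure.isOpen_compl.mem_nhds hcl] with y hy using
            fun _ => ⟨fun h' => absurd (subset_closure h') hy,
              fun h' => absurd (subset_closure h') hcl⟩
      · exact Eventually.of_forall fun y h' => absurd h' hwx] with n hn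
  set φ : ℤ × ℤ → ZMod 2 := fun v => (if C.κ (pt n v) = x then 1 else 0) * ind n N v with hφ
  set dh : ℤ × ℤ → ZMod 2 := fun v => ind n A v + ind n A (v - e₂) with hdh
  set dv : ℤ × ℤ → ZMod 2 := fun v => ind n A v + ind n A (v - e₁) with hdv
  have aux : ∀ v (d : ℤ × ℤ) (D : ZMod 2), (d = e₁ ∨ d = e₂) →
      (D ≠ 0 → dh v ≠ 0 ∨ dv v ≠ 0) →
      ind n N v * (D * ∑ q, gc x q (C.κ (pt n v)) (C.κ (pt n (v + d))))
        = φ v * D + φ (v + d) * D := by
    intro v d D hd hD
    by_cases hs : D = 0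
    · simp [hs]
    obtain ⟨w, -, hw⟩ := hn v (hD hs)
    rw [sum_gc]
    simp only [hφ]
    by_cases hb : C.κ (pt n (v + d)) = x
    · have hwx : w ∈ C.F x := C.mem_S.1 (hb ▸ (hw d (Or.inr hd)).2)
      have i0 := (hw 0 (Or.inl rfl)).1 hwx
      have i1 := (hw d (Or.inr hd)).1 hwx
      rw [add_zero] at i0
      simp only [ind, i0, i1]
      ring
    · simp only [if_neg hb]
      ring
  have key : ∀ v, ∑ q, ind n N v * C.term n A x q v
      = (φ v * dh v + φ (v + e₁) * dh v) + (φ v * dv v + φ (v + e₂) * dv v) := by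
    intro v
    rw [← aux v e₁ (dh v) (Or.inl rfl) Or.inl, ← aux v e₂ (dv v) (Or.inr rfl) Or.inr]
    simp only [term, gH, gV, Finset.mul_sum, ← Finset.sum_add_distrib, hdh, hdv]
    exact Finset.sum_congr rfl fun q _ => by ring
  simp only [cnt]
  rw [← finsum_sum_comm _ _ fun q _ => C.term_support hA x q _, finsum_congr key]
  have fh : ∀ f : ℤ × ℤ → ZMod 2, (Function.support fun v => f v * dh v).Finite := by
    intro f
    refine ((finite_pts n hA).union ((finite_pts n hA).image fun v => v + e₂)).subset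
      fun v hv => ?_
    by_contra hh
    have h0 : pt n v ∉ A := fun hh' => hh (Or.inl hh')
    have h2 : pt n (v - e₂) ∉ A := fun hh' => hh (Or.inr ⟨_, hh', by simp⟩)
    exact hv (by simp [hdh, ind, h0, h2])
  have fv : ∀ f : ℤ × ℤ → ZMod 2, (Function.support fun v => f v * dv v).Finite := by
    intro f
    refine ((finite_pts n hA).union ((finite_pts n hA).image fun v => v + e₁)).subset
      fun v hv => ?_
    by_contra hh
    have h0 : pt n v ∉ A := fun hh' => hh (Or.inl hh')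
    have h1 : pt n (v - e₁) ∉ A := fun hh' => hh (Or.inr ⟨_, hh', by simp⟩)
    exact hv (by simp [hdv, ind, h0, h1])
  rw [finsum_add_distrib (((fh φ).union (fh _)).subset (Function.support_add _ _))
      (((fv φ).union (fv _)).subset (Function.support_add _ _)),
    finsum_add_distrib (fh φ) (fh _), finsum_add_distrib (fv φ) (fv _),
    shift e₁ (fun v => φ (v + e₁) * dh v), shift e₂ (fun v => φ (v + e₂) * dv v)]
  simp only [sub_add_cancel]
  have fh' : (Function.support fun v => φ v * dh (v - e₁)).Finite :=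
    ((fh fun v => φ (v + e₁)).image fun v => v + e₁).subset fun v hv =>
      ⟨v - e₁, by simpa using hv, by simp⟩
  have fv' : (Function.support fun v => φ v * dv (v - e₂)).Finite :=
    ((fv fun v => φ (v + e₂)).image fun v => v + e₂).subset fun v hv =>
      ⟨v - e₂, by simpa using hv, by simp⟩
  rw [← finsum_add_distrib (fh φ) fh', ← finsum_add_distrib (fv φ) fv',
    ← finsum_add_distrib (((fh φ).union fh').subset (Function.support_add _ _))
      (((fv φ).union fv').subset (Function.support_add _ _))]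
  refine finsum_eq_zero_of_forall_eq_zero fun v => ?_
  simp only [hdh, hdv, sub_sub, add_comm e₂ e₁]
  have h2 : (2 : ZMod 2) = 0 := rfl
  linear_combination (φ v * (ind n A v + ind n A (v - e₁) + ind n A (v - e₂)
    + ind n A (v - (e₁ + e₂)))) * h2

/-- A square with at most two colours has zero class. -/
lemma sq_zero {n : ℕ} {r t : Fin 5} {v : ℤ × ℤ}
    (h : ∀ d : ℤ × ℤ, d = 0 ∨ d = e₁ ∨ d = e₂ ∨ d = e₁ + e₂ →
      C.κ (pt n (v + d)) = r ∨ C.κ (pt n (v + d)) = t) (p q : Fin 5) : C.sq n p q v = 0 := by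
  have h0 := h 0 (Or.inl rfl)
  rw [add_zero] at h0
  have h1 := h e₁ (Or.inr (Or.inl rfl))
  have h2 := h e₂ (Or.inr (Or.inr (Or.inl rfl)))
  have h3 := h (e₁ + e₂) (Or.inr (Or.inr (Or.inr rfl)))
  have h2' : (2 : ZMod 2) = 0 := rfl
  simp only [sq, gH, gV, add_assoc v, add_comm e₂ e₁]
  rcases h0 with h0 | h0 <;> rcases h1 with h1 | h1 <;> rcases h2 with h2 | h2 <;>
    rcases h3 with h3 | h3 <;> rw [h0, h1, h2, h3] <;>
    simp only [gc_self, gc_comm p q t r] <;> ring_nf <;> simp [h2', show (4 : ZMod 2) = 0 from rfl]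

/-- Each square meets every colour an even number of times. -/
lemma sum_sq (n : ℕ) (p : Fin 5) (v : ℤ × ℤ) : ∑ q, C.sq n p q v = 0 := by
  have h2' : (2 : ZMod 2) = 0 := rfl
  simp only [sq, gH, gV, Finset.sum_add_distrib, sum_gc, add_assoc v, add_comm e₂ e₁]
  ring_nf
  simp [h2']

/-- The class of a region only depends on the tri-coloured points it contains. -/
lemma cl_congr {A A' : Set ℂ} (hA : Bornology.IsBounded A) (hA' : Bornology.IsBounded A')
    (h : ∀ x ∈ closure ((A \ A') ∪ (A' \ A)), (C.S x).card ≤ 2) :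
    ∀ᶠ n in atTop, ∀ p q, C.cl n A p q = C.cl n A' p q := by
  classical
  have hD : IsCompact (closure ((A \ A') ∪ (A' \ A))) :=
    ((hA.subset Set.sdiff_subset).union (hA'.subset Set.sdiff_subset)).isCompact_closure
  filter_upwards [eventually_uniform hD (P := fun x y => C.S y ⊆ C.S x)
    (fun x _ => C.S_nhds x) 2] with n hn p q
  refine finsum_congr fun v => ?_
  by_cases hv : pt n v ∈ A ↔ pt n v ∈ A'
  · simp [ind, hv]
  have hmem : pt n v ∈ closure ((A \ A') ∪ (A' \ A)) := subset_closure <| by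
    simp only [Set.mem_union, Set.mem_sdiff]; tauto
  obtain ⟨x₀, hx₀, hP⟩ := hn _ hmem
  obtain ⟨r, t, hrt⟩ : ∃ r t, C.S x₀ ⊆ {r, t} := by
    have key : ∀ s : Finset (Fin 5), s.card ≤ 2 → ∃ r t, s ⊆ {r, t} := by decide
    exact key _ (h x₀ hx₀)
  rw [C.sq_zero (r := r) (t := t) (fun d hd => ?_) p q, mul_zero, mul_zero]
  have hb : dist (pt n (v + d)) (pt n v) ≤ 2 * mesh n := by
    refine (dist_pt_le n _ _).trans ?_
    rw [mul_comm]
    refine mul_le_mul_of_nonneg_right ?_ (mesh_pos n).le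
    rcases hd with rfl | rfl | rfl | rfl <;> norm_num [e₁, e₂]
  simpa using hrt (hP _ hb (C.κ_mem _))

lemma cl_union {n : ℕ} {A A' : Set ℂ} (hA : Bornology.IsBounded A) (hA' : Bornology.IsBounded A')
    (h : Disjoint A A') (p q : Fin 5) : C.cl n (A ∪ A') p q = C.cl n A p q + C.cl n A' p q := by
  rw [cl, cl, cl, ← finsum_add_distrib (ind_support₀ hA _) (ind_support₀ hA' _)]
  refine finsum_congr fun v => ?_
  by_cases hv : pt n v ∈ A
  · simp [ind, hv, Set.disjoint_left.1 h hv]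
  · by_cases hv' : pt n v ∈ A' <;> simp [ind, hv, hv']

lemma cl_star {n : ℕ} {A : Set ℂ} (hA : Bornology.IsBounded A) (p : Fin 5) :
    ∑ q, C.cl n A p q = 0 := by
  simp only [cl]
  rw [← finsum_sum_comm _ _ fun q _ => ind_support₀ hA _]
  refine finsum_eq_zero_of_forall_eq_zero fun v => ?_
  rw [← Finset.mul_sum, C.sum_sq, mul_zero]

lemma cl_comm (n : ℕ) (A : Set ℂ) (p q : Fin 5) : C.cl n A p q = C.cl n A q p := by
  have : ∀ a b : Fin 5, gc p q a b = gc q p a b := by
    revert p q; decide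
  simp only [cl, sq, gH, gV, this]

lemma cl_empty (n : ℕ) (p q : Fin 5) : C.cl n ∅ p q = 0 := by
  simp [cl, ind]

end Col

end Vale.P032
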