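import Vale.Agent.P032.Null

/-!
P032, global step: a Sperner argument. The pieces of the closed classes are small, so the sector
of a representative point is a labelling of degree one on a large circle; hence the tri-coloured
points cannot all be null.
-/

namespace Vale.P032

open Set Filter Topology Metric

/-- The three sectors of the plane. -/
noncomputable def sector (y : ℂ) : Fin 3 := if y.im ≤ 0 then 2 else if 0 < y.re then 0 else 1

/-- Indicator of an edge with end labels `0` and `1`. -/
def g01 (a b : Fin 3) : ZMod 2 := if (a = 0 ∧ b = 1) ∨ (a = 1 ∧ b = 0) then 1 else 0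

/-- Parity of `{0, 1}` edges around a square. -/
def ssq (l : ℤ × ℤ → Fin 3) (v : ℤ × ℤ) : ZMod 2 :=
  g01 (l v) (l (v + e₁)) + g01 (l (v + e₂)) (l (v + e₂ + e₁)) + g01 (l v) (l (v + e₂))
    + g01 (l (v + e₁)) (l (v + e₁ + e₂))

/-- Away from the centre, some sector is missed by a whole disc. -/
lemma sector_avoid {y : ℂ} (hy : 2 ≤ ‖y‖) :
    ∃ k, ∀ x, dist x y ≤ 23 / 20 → sector x ≠ k := by
  have hy2 : 4 ≤ y.re ^ 2 + y.im ^ 2 := by
    have h1 := dist_sq y 0
    simp only [dist_zero_right, Complex.zero_re, Complex.zero_im, sub_zero] at h1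
    nlinarith
  have hd : ∀ x : ℂ, dist x y ≤ 23 / 20 → (x.re - y.re) ^ 2 + (x.im - y.im) ^ 2 ≤ 529 / 400 := by
    intro x hx
    rw [← dist_sq]
    nlinarith [dist_nonneg (x := x) (y := y)]
  by_cases h1 : (-6 / 5 < y.re ∧ y.re < 6 / 5) ∧ 0 < y.im
  · refine ⟨2, fun x hx => ?_⟩
    have h := hd x hx
    have : 0 < x.im := by
      by_contra hn
      nlinarith [sq_nonneg (x.re - y.re), h1.1.1, h1.1.2, h1.2]
    unfold sector
    rw [if_neg (not_le.2 this)]
    split_ifs <;> decide
  · by_cases h2 : y.re ≤ 0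
    · refine ⟨0, fun x hx => ?_⟩
      have h := hd x hx
      have : x.im ≤ 0 ∨ ¬0 < x.re := by
        by_contra hn
        push Not at hn
        obtain ⟨hn1, hn2⟩ := hn
        by_cases hi : y.im ≤ 0
        · nlinarith [mul_nonneg hn2.le (neg_nonneg.2 h2), mul_nonneg hn1.le (neg_nonneg.2 hi)]
        · have : y.re ≤ -6 / 5 := by
            by_contra hr
            exact h1 ⟨⟨not_le.1 hr, by linarith⟩, not_le.1 hi⟩
          nlinarith [sq_nonneg (x.im - y.im)]
      unfold sector
      rcases this with h' | h'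
      · rw [if_pos h']; decide
      · rw [if_neg h']; split_ifs <;> decide
    · refine ⟨1, fun x hx => ?_⟩
      have h := hd x hx
      have h2' : 0 < y.re := not_le.1 h2
      have : x.im ≤ 0 ∨ 0 < x.re := by
        by_contra hn
        push Not at hn
        obtain ⟨hn1, hn2⟩ := hn
        by_cases hi : y.im ≤ 0
        · nlinarith [mul_nonneg (neg_nonneg.2 hn2) h2'.le, mul_nonneg hn1.le (neg_nonneg.2 hi)]
        · have : 6 / 5 ≤ y.re := by
            by_contra hr
            exact h1 ⟨⟨by linarith, not_le.1 hr⟩, not_le.1 hi⟩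
          nlinarith [sq_nonneg (x.im - y.im)]
      unfold sector
      rcases this with h' | h'
      · rw [if_pos h']; decide
      · rw [if_pos h']; split_ifs <;> decide

/-- The labels of the lattice itself: a single fully labelled square at the origin. -/
lemma ssq_lattice (n : ℕ) (v : ℤ × ℤ) :
    ssq (fun w => sector (pt n w)) v = if v = 0 then 1 else 0 := by
  have hm := mesh_pos n
  have hs : ∀ w : ℤ × ℤ, sector (pt n w)
      = if w.2 ≤ 0 then 2 else if 0 < w.1 then 0 else 1 := by
    intro w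
    have e1 : (pt n w).im ≤ 0 ↔ w.2 ≤ 0 := by
      simp only [pt]
      constructor <;> intro h
      · by_contra hn
        push Not at hn
        have : (0 : ℝ) < w.2 := by exact_mod_cast hn
        nlinarith
      · have : (w.2 : ℝ) ≤ 0 := by exact_mod_cast h
        nlinarith
    have e2 : 0 < (pt n w).re ↔ 0 < w.1 := by
      simp only [pt]
      rw [mul_pos_iff_of_pos_left hm]
      exact Int.cast_pos
    simp only [sector, e1, e2]
  obtain ⟨a, b⟩ := v
  simp only [ssq, hs, e₁, e₂, Prod.mk_add_mk, Prod.mk_eq_zero, add_zero]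
  split_ifs <;> first | (exfalso; omega) | decide

/-- Coefficients expressing a merged labelling through colour pairs. -/
def coef (h : Fin 5 → Fin 3) (p q : Fin 5) : ZMod 2 := if h p = 0 ∧ h q = 1 then 1 else 0

lemma g01_eq_sum (h : Fin 5 → Fin 3) (a b : Fin 5) :
    g01 (h a) (h b) = ∑ p, ∑ q, coef h p q * gc p q a b := by
  by_cases hab : a = b
  · subst hab
    simp only [gc_self, mul_zero, Finset.sum_const_zero]
    have : ∀ x : Fin 3, g01 x x = 0 := by decide
    exact this _
  · have hgc : ∀ p q a b : Fin 5, a ≠ b → gc p q a b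
        = (if p = a ∧ q = b then 1 else 0) + (if p = b ∧ q = a then 1 else 0) := by decide
    simp only [hgc _ _ a b hab, mul_add, Finset.sum_add_distrib, mul_ite, mul_one, mul_zero,
      ite_and, Finset.sum_ite_irrel, Finset.sum_const_zero, Finset.sum_ite_eq', Finset.mem_univ,
      if_true]
    have : ∀ x y : Fin 3, g01 x y
        = (if x = 0 ∧ y = 1 then 1 else 0) + (if y = 0 ∧ x = 1 then 1 else 0) := by decide
    simp only [coef, this]

lemma g01_avoid : ∀ k a b a' b' : Fin 3, a ≠ k → b ≠ k → a' ≠ k → b' ≠ k →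
    g01 a b + g01 a' b' = g01 a a' + g01 b b' := by decide

lemma corner_dist (n : ℕ) (v d : ℤ × ℤ) (hd : d = 0 ∨ d = e₁ ∨ d = e₂ ∨ d = e₁ + e₂) :
    dist (pt n (v + d)) (pt n v) ≤ 2 * mesh n := by
  refine (dist_pt_le n _ _).trans ?_
  rw [mul_comm]
  refine mul_le_mul_of_nonneg_right ?_ (mesh_pos n).le
  rcases hd with rfl | rfl | rfl | rfl <;> norm_num [e₁, e₂]

lemma finsum_ind {n : ℕ} {A : Set ℂ} (hA : Bornology.IsBounded A) (f : ℤ × ℤ → ZMod 2) :
    ∑ᶠ v, ind n A v * f v = ∑ v ∈ (finite_pts n hA).toFinset, f v := by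
  rw [finsum_eq_sum_of_support_subset (s := (finite_pts n hA).toFinset)]
  · refine Finset.sum_congr rfl fun v hv => ?_
    have : pt n v ∈ A := by simpa using hv
    simp [ind, this]
  · intro v hv
    simp only [Set.Finite.coe_toFinset, Set.mem_ofPred_eq]
    by_contra h
    exact hv (by simp [ind, h])

/-- A boundary term for general edge functions. -/
noncomputable def bt (n : ℕ) (A : Set ℂ) (gh gv : ℤ × ℤ → ZMod 2) (v : ℤ × ℤ) : ZMod 2 :=
  (ind n A v + ind n A (v - e₂)) * gh v + (ind n A v + ind n A (v - e₁)) * gv v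

lemma sum_squares_eq_bt {n : ℕ} {A : Set ℂ} (hA : Bornology.IsBounded A)
    (gh gv : ℤ × ℤ → ZMod 2) :
    ∑ᶠ v, ind n A v * (gh v + gh (v + e₂) + gv v + gv (v + e₁)) = ∑ᶠ v, bt n A gh gv v := by
  have h0 := fun f => Col.ind_support₀ (n := n) hA f
  have hd := fun d f => Col.ind_support (n := n) hA d f
  have e : ∑ᶠ v, ind n A v * (gh v + gh (v + e₂) + gv v + gv (v + e₁))
      = (((∑ᶠ v, ind n A v * gh v) + ∑ᶠ v, ind n A v * gh (v + e₂))
        + ∑ᶠ v, ind n A v * gv v) + ∑ᶠ v, ind n A v * gv (v + e₁) := by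
    simp only [finsum_ind hA, Finset.sum_add_distrib]
  rw [e, Col.shift e₂ (fun v => ind n A v * gh (v + e₂)),
    Col.shift e₁ (fun v => ind n A v * gv (v + e₁))]
  simp only [sub_add_cancel]
  rw [← finsum_add_distrib (h0 _) (hd e₂ _), add_assoc, ← finsum_add_distrib (h0 _) (hd e₁ _),
    ← finsum_add_distrib (((h0 _).union (hd e₂ _)).subset (Function.support_add _ _))
      (((h0 _).union (hd e₁ _)).subset (Function.support_add _ _))]
  exact finsum_congr fun v => by simp only [bt]; ring

namespace Col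

variable (C : Col)

/-- Each closed class in a large disc has a locally constant choice of the sector of a point at
distance less than 11/10. -/
lemma exists_label (i : Fin 5) : ∃ lab : ℂ → Fin 3,
    (∀ x, ∀ᶠ y in 𝓝 x, x ∈ C.F i ∩ closedBall 0 4 → y ∈ C.F i ∩ closedBall 0 4 →
      lab y = lab x) ∧
    ∀ x ∈ C.F i ∩ closedBall 0 4, ∃ r, dist r x < 11 / 10 ∧ lab x = sector r := by
  classical
  set X : Set ℂ := C.F i ∩ closedBall 0 4 with hX
  have : CompactSpace X :=
    isCompact_iff_compactSpace.1 ((isCompact_closedBall _ _).inter_left (C.isClosed_F i))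
  have hV : ∀ x : X, ∃ V : Set X, IsClopen V ∧ x ∈ V ∧ ∀ y ∈ V, dist (x : ℂ) y < 11 / 10 := by
    intro x
    set O : Set X := (Subtype.val : X → ℂ) ⁻¹' ball (x : ℂ) (11 / 10) with hO
    have hOo : IsOpen O := isOpen_ball.preimage continuous_subtype_val
    have hcc : connectedComponent x ⊆ O := by
      intro y hy
      have hK : IsPreconnected ((Subtype.val : X → ℂ) '' connectedComponent x) :=
        isPreconnected_connectedComponent.image _ continuous_subtype_val.continuousOn
      have := C.dist_le_one hK (p := i) (by rintro _ ⟨z, -, rfl⟩; exact z.2.1)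
        ⟨y, hy, rfl⟩ ⟨x, mem_connectedComponent, rfl⟩
      simp only [hO, Set.mem_preimage, mem_ball]
      linarith
    rw [connectedComponent_eq_iInter_isClopen] at hcc
    obtain ⟨t, ht⟩ := hOo.isClosed_compl.isCompact.elim_finite_subfamily_closed
      (fun s : { s : Set X // IsClopen s ∧ x ∈ s } => (s : Set X))
      (fun s => s.2.1.isClosed)
      (Set.eq_empty_iff_forall_notMem.2 fun y hy => hy.1 (hcc hy.2))
    refine ⟨⋂ s ∈ t, (s : Set X), isClopen_biInter_finset fun s _ => s.2.1,
      mem_iInter₂.2 fun s _ => s.2.2, fun y hy => ?_⟩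
    by_contra h
    refine Set.eq_empty_iff_forall_notMem.1 ht y ⟨?_, hy⟩
    simp only [hO, Set.mem_compl_iff, Set.mem_preimage, mem_ball, dist_comm]
    exact h
  choose V hVc hxV hVd using hV
  obtain ⟨t, ht⟩ := isCompact_univ.elim_finite_subcover V (fun x => (hVc x).isOpen)
    fun x _ => mem_iUnion.2 ⟨x, hxV x⟩
  let pat : X → Finset X := fun y => t.filter fun x => y ∈ V x
  let φ : Finset X → ℂ := fun s => if h : s.Nonempty then (h.choose : ℂ) else 0
  refine ⟨fun y => if h : y ∈ X then sector (φ (pat ⟨y, h⟩)) else 0, fun x => ?_, fun x hx => ?_⟩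
  · by_cases hx : x ∈ X
    · have h1 : ∀ᶠ y : X in 𝓝 ⟨x, hx⟩, ∀ z ∈ t, (y ∈ V z ↔ (⟨x, hx⟩ : X) ∈ V z) := by
        refine (Filter.eventually_all_finset t).2 fun z _ => ?_
        by_cases hz : (⟨x, hx⟩ : X) ∈ V z
        · filter_upwards [(hVc z).isOpen.mem_nhds hz] with y hy using iff_of_true hy hz
        · filter_upwards [(hVc z).isClosed.isOpen_compl.mem_nhds hz] with y hy
            using iff_of_false hy hz
      rw [nhds_subtype, Filter.eventually_comap] at h1
      filter_upwards [h1] with y hy _ hyX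
      have : pat ⟨y, hyX⟩ = pat ⟨x, hx⟩ := Finset.filter_congr fun z hz => hy ⟨y, hyX⟩ rfl z hz
      simp only [dif_pos hyX, dif_pos hx, this]
    · exact Eventually.of_forall fun y h => absurd h hx
  · have hne : (pat ⟨x, hx⟩).Nonempty := by
      have hm := ht (Set.mem_univ (⟨x, hx⟩ : X))
      simp only [mem_iUnion] at hm
      obtain ⟨z, hz, hm⟩ := hm
      exact ⟨z, Finset.mem_filter.2 ⟨hz, hm⟩⟩
    refine ⟨φ (pat ⟨x, hx⟩), ?_, by simp only [dif_pos hx]⟩
    simp only [φ, dif_pos hne]
    exact hVd _ _ (Finset.mem_filter.1 hne.choose_spec).2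

/-- The label of a grid point. -/
noncomputable def sLab (lab : Fin 5 → ℂ → Fin 3) (n : ℕ) (v : ℤ × ℤ) : Fin 3 :=
  lab (C.κ (pt n v)) (pt n v)

/-- The number of fully labelled squares in a region. -/
noncomputable def scl (lab : Fin 5 → ℂ → Fin 3) (n : ℕ) (A : Set ℂ) : ZMod 2 :=
  ∑ᶠ v, ind n A v * ssq (C.sLab lab n) v

/-- Near `x`, colours and pieces are those at `x`. -/
def Near (lab : Fin 5 → ℂ → Fin 3) (x y : ℂ) : Prop :=
  C.S y ⊆ C.S x ∧ ∀ p ∈ C.S y, lab p y = lab p x

lemma ssq_local {lab : Fin 5 → ℂ → Fin 3} {n : ℕ} {v : ℤ × ℤ} {x : ℂ}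
    (h : ∀ y, dist y (pt n v) ≤ 2 * mesh n → C.Near lab x y) :
    ssq (C.sLab lab n) v = ∑ p, ∑ q, coef (fun r => lab r x) p q * C.sq n p q v := by
  have hl : ∀ d : ℤ × ℤ, d = 0 ∨ d = e₁ ∨ d = e₂ ∨ d = e₁ + e₂ →
      C.sLab lab n (v + d) = lab (C.κ (pt n (v + d))) x := fun d hd =>
    (h _ (corner_dist n v d hd)).2 _ (C.κ_mem _)
  have h0 := hl 0 (Or.inl rfl)
  rw [add_zero] at h0
  have h1 := hl e₁ (Or.inr (Or.inl rfl))
  have h2 := hl e₂ (Or.inr (Or.inr (Or.inl rfl)))
  have h3 := hl (e₁ + e₂) (Or.inr (Or.inr (Or.inr rfl)))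
  simp only [ssq, add_assoc v, add_comm e₂ e₁, h0, h1, h2, h3,
    g01_eq_sum (fun r => lab r x)]
  simp only [sq, gH, gV, add_assoc v, add_comm e₂ e₁, mul_add, Finset.sum_add_distrib]

/-- The count only depends on the tri-coloured points of the region. -/
lemma scl_congr {lab : Fin 5 → ℂ → Fin 3} {A A' : Set ℂ} (hA : C.Good A) (hA' : C.Good A')
    (hn : ∀ x ∈ closure A ∪ closure A', ∀ᶠ y in 𝓝 x, C.Near lab x y)
    (h : ∀ x ∈ C.Tri, x ∈ A ↔ x ∈ A') :
    ∀ᶠ n in atTop, C.scl lab n A = C.scl lab n A' := by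
  classical
  have hD : IsCompact (closure ((A \ A') ∪ (A' \ A))) :=
    ((hA.bdd.subset Set.sdiff_subset).union (hA'.bdd.subset Set.sdiff_subset)).isCompact_closure
  have hsub : closure ((A \ A') ∪ (A' \ A)) ⊆ closure A ∪ closure A' := by
    rw [closure_union]
    exact Set.union_subset_union (closure_mono Set.sdiff_subset) (closure_mono Set.sdiff_subset)
  filter_upwards [eventually_uniform hD (P := C.Near lab) (fun x hx => hn x (hsub hx)) 2]
    with n hn'
  refine finsum_congr fun v => ?_
  by_cases hv : pt n v ∈ A ↔ pt n v ∈ A'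
  · simp [ind, hv]
  have hmem : pt n v ∈ closure ((A \ A') ∪ (A' \ A)) := subset_closure <| by
    simp only [Set.mem_union, Set.mem_sdiff]; tauto
  obtain ⟨x₀, hx₀, hP⟩ := hn' _ hmem
  have hx₀T : x₀ ∉ C.Tri := by
    intro hT
    rw [closure_union] at hx₀
    rcases hx₀ with hx | hx
    · have hxA : x₀ ∈ A := hA.closure_free (closure_mono Set.sdiff_subset hx) hT
      obtain ⟨y, hy, hy'⟩ := mem_closure_iff.1 hx A' hA'.isOpen ((h x₀ hT).1 hxA)
      exact hy'.2 hy
    · have hxA : x₀ ∈ A' := hA'.closure_free (closure_mono Set.sdiff_subset hx) hT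
      obtain ⟨y, hy, hy'⟩ := mem_closure_iff.1 hx A hA.isOpen ((h x₀ hT).2 hxA)
      exact hy'.2 hy
  obtain ⟨r, t, hrt⟩ : ∃ r t, C.S x₀ ⊆ {r, t} := by
    have key : ∀ s : Finset (Fin 5), s.card ≤ 2 → ∃ r t, s ⊆ {r, t} := by decide
    exact key _ (C.not_mem_Tri.1 hx₀T)
  have hz : ∀ p q, C.sq n p q v = 0 := C.sq_zero (r := r) (t := t) fun d hd => by
    simpa using hrt ((hP _ (corner_dist n v d hd)).1 (C.κ_mem _))
  simp [C.ssq_local hP, hz]

/-- The count vanishes if every tri-coloured point is null. -/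
lemma scl_zero {lab : Fin 5 → ℂ → Fin 3} (hnull : ∀ z ∈ C.Tri, C.IsNull z) {A : Set ℂ}
    (hA : C.Good A) (hn : ∀ x ∈ closure A, ∀ᶠ y in 𝓝 x, C.Near lab x y) :
    ∀ᶠ n in atTop, C.scl lab n A = 0 := by
  classical
  have hK : IsCompact (closure A ∩ C.Tri) := hA.bdd.isCompact_closure.inter_right C.isClosed_Tri
  have hex : ∀ x : (closure A ∩ C.Tri : Set ℂ), ∃ W, C.Good W ∧ (x : ℂ) ∈ W ∧
      ∀ B, C.Good B → closure B ⊆ closure W → ∀ᶠ n in atTop, C.scl lab n B = 0 := by
    rintro ⟨x, hx, hT⟩
    obtain ⟨r, hr, hr'⟩ := hnull x hT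
    obtain ⟨δ, hδ, hδ'⟩ := Metric.eventually_nhds_iff.1 (hn x hx)
    obtain ⟨W, hW, hxW, hWb⟩ := C.exists_good (isCompact_singleton (x := x)) isOpen_ball
      (singleton_subset_iff.2 (mem_ball_self (lt_min hr hδ)))
    refine ⟨W, hW, hxW rfl, fun B hB hBW => ?_⟩
    have hBb : closure B ⊆ ball x (min r δ) := hBW.trans hWb
    filter_upwards [hr' B hB (hBb.trans (ball_subset_ball (min_le_left _ _))),
      eventually_uniform hB.bdd.isCompact_closure (P := fun _ y => y ∈ ball x δ)
        (fun z hz => isOpen_ball.mem_nhds (ball_subset_ball (min_le_right _ _) (hBb hz))) 2]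
      with n hn1 hn2
    rw [scl, finsum_ind hB.bdd]
    calc ∑ v ∈ (finite_pts n hB.bdd).toFinset, ssq (C.sLab lab n) v
        = ∑ v ∈ (finite_pts n hB.bdd).toFinset,
            ∑ p, ∑ q, coef (fun s => lab s x) p q * C.sq n p q v := by
          refine Finset.sum_congr rfl fun v hv => C.ssq_local fun y hy => ?_
          have hvB : pt n v ∈ B := by simpa using hv
          obtain ⟨z, -, hz⟩ := hn2 _ (subset_closure hvB)
          exact hδ' (hz y hy)
      _ = ∑ p, ∑ q, coef (fun s => lab s x) p q * C.cl n B p q := by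
          rw [Finset.sum_comm]
          refine Finset.sum_congr rfl fun p _ => ?_
          rw [Finset.sum_comm]
          refine Finset.sum_congr rfl fun q _ => ?_
          rw [← Finset.mul_sum, cl, finsum_ind hB.bdd]
      _ = 0 := by simp [hn1]
  choose W hW hxW hWz using hex
  obtain ⟨t, ht⟩ := hK.elim_finite_subcover W (fun x => (hW x).isOpen)
    fun x hx => mem_iUnion.2 ⟨⟨x, hx⟩, hxW _⟩
  have main : ∀ s : Finset (closure A ∩ C.Tri : Set ℂ), ∀ B, C.Good B → closure B ⊆ closure A →
      (∀ x ∈ B, x ∈ C.Tri → ∃ i ∈ s, x ∈ W i) → ∀ᶠ n in atTop, C.scl lab n B = 0 := by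
    intro s
    induction s using Finset.induction with
    | empty =>
      intro B hB hBA hcov
      have hB0 : C.Good (∅ : Set ℂ) :=
        ⟨isOpen_empty, Bornology.isBounded_empty, by simp⟩
      filter_upwards [C.scl_congr (lab := lab) hB hB0
        (fun x hx => hn x (hBA (by simpa using hx)))
        (fun x hT => ⟨fun hx => by simpa using hcov x hx hT,
          fun hx => absurd hx (Set.notMem_empty x)⟩)] with n hn
      rw [hn]
      simp [scl, ind]
    | insert i s hi ih =>
      intro B hB hBA hcov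
      have hU := (hB.inter (hW i)).union (hB.diff (hW i))
      have hUs : B ∩ W i ∪ B \ closure (W i) ⊆ B :=
        Set.union_subset inter_subset_left Set.sdiff_subset
      filter_upwards [C.scl_congr (lab := lab) hB hU
          (fun x hx => hn x (hBA (hx.elim id fun h => closure_mono hUs h)))
          (fun x hT => by
            constructor
            · intro hx
              by_cases hxW : x ∈ closure (W i)
              · exact Or.inl ⟨hx, (hW i).closure_free hxW hT⟩
              · exact Or.inr ⟨hx, hxW⟩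
            · exact fun hx => hUs hx),
        hWz i _ (hB.inter (hW i)) (closure_mono inter_subset_right),
        ih _ (hB.diff (hW i)) ((closure_mono Set.sdiff_subset).trans hBA) fun x hx hT => by
          obtain ⟨j, hj, hxj⟩ := hcov x hx.1 hT
          rcases Finset.mem_insert.1 hj with rfl | hj
          · exact absurd (subset_closure hxj) hx.2
          · exact ⟨j, hj, hxj⟩] with n h1 h2 h3
      have hdis : Disjoint (B ∩ W i) (B \ closure (W i)) :=
        Set.disjoint_left.2 fun x h h' => h'.2 (subset_closure h.2)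
      rw [h1, scl]
      rw [scl] at h2 h3
      have hi' : ∀ v, ind n (B ∩ W i ∪ B \ closure (W i)) v * ssq (C.sLab lab n) v
          = ind n (B ∩ W i) v * ssq (C.sLab lab n) v
            + ind n (B \ closure (W i)) v * ssq (C.sLab lab n) v := fun v => by
        by_cases hv : pt n v ∈ B ∩ W i
        · simp [ind, Set.mem_union_left _ hv, hv, Set.disjoint_left.1 hdis hv]
        · by_cases hv' : pt n v ∈ B \ closure (W i)
          · simp [ind, Set.mem_union_right _ hv', hv, hv']
          · have : pt n v ∉ B ∩ W i ∪ B \ closure (W i) := fun h => h.elim hv hv'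
            simp [ind, this, hv, hv']
      rw [finsum_congr hi', finsum_add_distrib (ind_support₀ (hB.inter (hW i)).bdd _)
        (ind_support₀ (hB.diff (hW i)).bdd _), h2, h3, add_zero]
  exact main t A hA subset_rfl fun x hx hT => by simpa using ht ⟨subset_closure hx, hT⟩

/-- Not all tri-coloured points are null. -/
theorem false_of_all_null (h : ∀ z ∈ C.Tri, C.IsNull z) : False := by
  classical
  choose lab hlc hrep using C.exists_label
  obtain ⟨A, hA, hin, hout⟩ := C.exists_good (isCompact_closedBall (0 : ℂ) (5 / 2))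
    (isOpen_ball (x := (0 : ℂ)) (ε := 3)) (closedBall_subset_ball (by norm_num))
  have hnear : ∀ x ∈ closure A, ∀ᶠ y in 𝓝 x, C.Near lab x y := by
    intro x hx
    have hx3 : dist x 0 < 3 := hout hx
    filter_upwards [C.S_nhds x, eventually_all.2 fun p => hlc p x,
      closedBall_mem_nhds_of_mem (show x ∈ ball (0 : ℂ) 4 by rw [mem_ball]; linarith)]
      with y hS hy hy4
    refine ⟨hS, fun p hp => hy p ⟨C.mem_S.1 (hS hp), ?_⟩ ⟨C.mem_S.1 hp, hy4⟩⟩
    rw [mem_closedBall]
    linarith
  have hmesh : ∀ᶠ n in atTop, mesh n < 1 / 100 :=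
    tendsto_mesh.eventually (Iio_mem_nhds (by norm_num))
  obtain ⟨n, hn, hm⟩ := ((C.scl_zero h hA hnear).and hmesh).exists
  set s : ℤ × ℤ → Fin 3 := C.sLab lab n with hs
  set t : ℤ × ℤ → Fin 3 := fun w => sector (pt n w) with ht
  set f : ℤ × ℤ → ZMod 2 := fun v => g01 (s v) (t v) with hf
  have htsum : ∑ᶠ v, ind n A v * ssq t v = 1 := by
    rw [finsum_ind hA.bdd]
    simp only [ht, ssq_lattice, Finset.sum_ite_eq']
    have h0 : pt n 0 = 0 := by simp [pt, Complex.ext_iff]
    have : (0 : ℤ × ℤ) ∈ (finite_pts n hA.bdd).toFinset := by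
      simp only [Set.Finite.mem_toFinset, Set.mem_ofPred_eq, h0]
      exact hin (mem_closedBall_self (by norm_num))
    rw [if_pos this]
  have hedge : ∀ v d, d = e₁ ∨ d = e₂ → ∀ d', d' = e₁ ∨ d' = e₂ →
      ind n A v + ind n A (v - d') ≠ 0 →
      g01 (s v) (s (v + d)) + g01 (t v) (t (v + d)) = f v + f (v + d) := by
    intro v d hd d' hd' hne
    have hniff : ¬(pt n v ∈ A ↔ pt n (v - d') ∈ A) := by
      intro hh
      refine hne ?_
      by_cases hv : pt n v ∈ A
      · simp [ind, hv, hh.1 hv, CharTwo.add_self_eq_zero]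
      · simp [ind, hv, mt hh.2 hv]
    obtain ⟨w, hw, hwd⟩ := exists_frontier_near hniff
    have hwd' : dist w (pt n v) ≤ mesh n := by
      refine hwd.trans ?_
      rw [dist_comm]
      rcases hd' with rfl | rfl
      · exact dist_pt_sub₁ n v
      · exact dist_pt_sub₂ n v
    have hw2 : 2 ≤ ‖w‖ := by
      by_contra hlt
      rw [hA.isOpen.frontier_eq] at hw
      exact hw.2 (hin (by rw [mem_closedBall, dist_zero_right]; linarith))
    have hw3 : dist w 0 < 3 := hout (frontier_subset_closure hw)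
    obtain ⟨k, hk⟩ := sector_avoid hw2
    have hdd : dist (pt n (v + d)) (pt n v) ≤ mesh n := by
      rcases hd with rfl | rfl
      · exact dist_pt_add₁ n v
      · exact dist_pt_add₂ n v
    have key : ∀ u, dist (pt n u) w ≤ 2 * mesh n → s u ≠ k ∧ t u ≠ k := by
      intro u hu
      have hu4 : pt n u ∈ closedBall (0 : ℂ) 4 := by
        rw [mem_closedBall]
        linarith [dist_triangle (pt n u) w 0]
      obtain ⟨r, hr, he⟩ := hrep _ _ ⟨C.mem_S.1 (C.κ_mem (pt n u)), hu4⟩
      refine ⟨?_, hk _ (by linarith)⟩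
      rw [hs, sLab, he]
      exact hk r (by linarith [dist_triangle r (pt n u) w])
    have k0 := key v (by rw [dist_comm]; linarith [mesh_pos n])
    have k1 := key (v + d) (by
      linarith [dist_triangle (pt n (v + d)) (pt n v) w, dist_comm (pt n v) w])
    exact g01_avoid k _ _ _ _ k0.1 k1.1 k0.2 k1.2
  have hzero : ∑ᶠ v, ind n A v * (ssq s v + ssq t v) = 0 := by
    calc ∑ᶠ v, ind n A v * (ssq s v + ssq t v)
        = ∑ᶠ v, ind n A v *
          ((fun u => g01 (s u) (s (u + e₁)) + g01 (t u) (t (u + e₁))) v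
            + (fun u => g01 (s u) (s (u + e₁)) + g01 (t u) (t (u + e₁))) (v + e₂)
            + (fun u => g01 (s u) (s (u + e₂)) + g01 (t u) (t (u + e₂))) v
            + (fun u => g01 (s u) (s (u + e₂)) + g01 (t u) (t (u + e₂))) (v + e₁)) :=
          finsum_congr fun v => by simp only [ssq]; ring
      _ = ∑ᶠ v, bt n A (fun u => g01 (s u) (s (u + e₁)) + g01 (t u) (t (u + e₁)))
            (fun u => g01 (s u) (s (u + e₂)) + g01 (t u) (t (u + e₂))) v :=
          sum_squares_eq_bt hA.bdd _ _
      _ = ∑ᶠ v, bt n A (fun u => f u + f (u + e₁)) (fun u => f u + f (u + e₂)) v := by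
          refine finsum_congr fun v => ?_
          unfold bt
          congr 1
          · by_cases hz : ind n A v + ind n A (v - e₂) = 0
            · simp [hz]
            · dsimp only
              rw [hedge v e₁ (Or.inl rfl) e₂ (Or.inr rfl) hz]
          · by_cases hz : ind n A v + ind n A (v - e₁) = 0
            · simp [hz]
            · dsimp only
              rw [hedge v e₂ (Or.inr rfl) e₁ (Or.inl rfl) hz]
      _ = 0 := by
          rw [← sum_squares_eq_bt hA.bdd]
          refine finsum_eq_zero_of_forall_eq_zero fun v => ?_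
          have h2 : (2 : ZMod 2) = 0 := rfl
          rw [add_right_comm v e₂ e₁]
          linear_combination (ind n A v * (f v + f (v + e₁) + f (v + e₂) + f (v + e₁ + e₂))) * h2
  rw [finsum_congr fun v => mul_add (ind n A v) (ssq s v) (ssq t v),
    finsum_add_distrib (ind_support₀ hA.bdd _) (ind_support₀ hA.bdd _), htsum,
    show ∑ᶠ v, ind n A v * ssq s v = 0 from hn, zero_add] at hzero
  exact one_ne_zero hzero

end Col

end Vale.P032
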