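import Vale.Agent.P032.Perfect
import Vale.Agent.P032.Cycles
import Vale.Agent.P032.Global

/-!
P032, part 8: five classes with the Baire property always contain a unit pair.
-/

namespace Vale.P032

open Set Filter Topology Metric

/-- There are no five open classes as in `Col`. -/
theorem Col.impossible (C : Col) : False := by
  have hiso : Isolation := fun D O hO h => D.exists_isolated O hO h
  refine C.false_of_all_null fun z hz => ?_
  by_contra hn
  obtain ⟨w, -, -, hw, r, hr, h⟩ := C.exists_isolated univ isOpen_univ ⟨z, trivial, hz, hn⟩
  exact Col.no_cycle hiso C w (C.arms_of_isolated hw hr h)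

/-- Five classes with the Baire property in the plane: one of them has a unit pair. -/
theorem exists_unit_pair (c : ℂ → Fin 5) (hc : ∀ i, BaireMeasurableSet (c ⁻¹' {i})) :
    ∃ x y : ℂ, dist x y = 1 ∧ c x = c y := by
  by_contra hcon
  push Not at hcon
  choose V hVo hV using fun i => (hc i).residualEq_isOpen
  have hR : ∀ᶠ x in residual ℂ, ∀ i, (x ∈ V i ↔ c x = i) := eventually_all.2 fun i => by
    filter_upwards [hV i] with x hx
    exact (iff_of_eq hx).symm
  have hd : Dense {x : ℂ | ∀ i, (x ∈ V i ↔ c x = i)} := dense_of_mem_residual hR
  have hdisj : ∀ i j, i ≠ j → Disjoint (V i) (V j) := by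
    intro i j hij
    rw [Set.disjoint_left]
    intro x hi hj
    obtain ⟨y, ⟨y1, y2⟩, hy⟩ :=
      hd.inter_open_nonempty _ ((hVo i).inter (hVo j)) ⟨x, hi, hj⟩
    exact hij (((hy i).1 y1).symm.trans ((hy j).1 y2))
  let C : Col :=
    { U := fun i => interior (closure (V i))
      isOpen := fun _ => isOpen_interior
      disj := fun i j hij => by
        have h1 : Disjoint (closure (V i)) (V j) := (hdisj i j hij).closure_left (hVo j)
        exact (h1.mono_left interior_subset).closure_right isOpen_interior |>.mono_right
          interior_subset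
      regular := fun i => by
        refine Subset.antisymm (interior_mono ?_) (interior_maximal subset_closure isOpen_interior)
        exact isClosed_closure.closure_subset_iff.2 interior_subset
      dense := hd.mono fun x hx => mem_iUnion.2
        ⟨c x, interior_maximal subset_closure (hVo _) ((hx (c x)).2 rfl)⟩
      noUnit := fun i x hx y hy hxy => by
        set d := y - x with hd'
        set g : ℂ → ℂ := fun w => w + d with hg
        have hgc : Continuous g := by fun_prop
        obtain ⟨p, ⟨hp1, hp2⟩, hpV⟩ : ((interior (closure (V i)) ∩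
            g ⁻¹' interior (closure (V i))) ∩ V i).Nonempty := by
          refine mem_closure_iff.1 (interior_subset hx) _
            (isOpen_interior.inter (isOpen_interior.preimage hgc)) ⟨hx, ?_⟩
          simp only [hg, hd', mem_preimage, add_sub_cancel]
          exact hy
        have hgo : IsOpenMap g := (Homeomorph.addRight d).isOpenMap
        obtain ⟨q, hq, hqV⟩ := mem_closure_iff.1 (interior_subset hp2) _
          (hgo _ ((hVo i).inter (isOpen_interior.inter (isOpen_interior.preimage hgc))))
          ⟨p, ⟨hpV, hp1, hp2⟩, rfl⟩
        obtain ⟨w, hw, rfl⟩ := hq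
        have hR' : ∀ᶠ u in residual ℂ, ∀ i, (g u ∈ V i ↔ c (g u) = i) :=
          (tendsto_residual_of_isOpenMap hgc hgo).eventually hR
        obtain ⟨u, ⟨u1, u2⟩, u3, u4⟩ :=
          (dense_of_mem_residual (hR.and hR')).inter_open_nonempty _
            ((hVo i).inter ((hVo i).preimage hgc)) ⟨w, hw.1, hqV⟩
        refine hcon u (g u) ?_ (((u3 i).1 u1).trans ((u4 i).1 u2).symm)
        rw [hg, dist_eq_norm, show u - (u + d) = x - y by rw [hd']; ring, ← dist_eq_norm, hxy] }
  exact C.impossible

end Vale.P032
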