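import Mathlib

/-!
P032, part 2: separation by open sets whose frontier avoids a totally disconnected compact set.
-/

namespace Vale.P032

open Set Filter Topology Metric

/-- Around a compact subset of a totally disconnected compact set there is a relatively clopen
set inside any open neighbourhood. -/
lemma exists_clopen_between {A K O : Set ℂ} (hA : IsCompact A) (hK : IsCompact K)
    (hKd : IsTotallyDisconnected K) (hO : IsOpen O) (hAO : A ⊆ O) :
    ∃ C, C ⊆ K ∧ IsCompact C ∧ IsCompact (K \ C) ∧ A ∩ K ⊆ C ∧ C ⊆ O := by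
  haveI : CompactSpace K := isCompact_iff_compactSpace.1 hK
  haveI : TotallyDisconnectedSpace K := totallyDisconnectedSpace_subtype_iff.2 hKd
  have hA' : IsCompact ((Subtype.val : K → ℂ) ⁻¹' A) :=
    (hA.isClosed.preimage continuous_subtype_val).isCompact
  have h : ∀ x : K, (x : ℂ) ∈ A → ∃ V : Set K, IsClopen V ∧ x ∈ V ∧ V ⊆ Subtype.val ⁻¹' O :=
    fun x hx => compact_exists_isClopen_in_isOpen (hO.preimage continuous_subtype_val) (hAO hx)
  choose V hV hxV hVO using h
  obtain ⟨t, ht⟩ := hA'.elim_finite_subcover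
    (fun x : {x : K // (x : ℂ) ∈ A} => V x.1 x.2) (fun x => (hV x.1 x.2).isOpen)
    (fun x hx => mem_iUnion.2 ⟨⟨x, hx⟩, hxV x hx⟩)
  set W : Set K := ⋃ x ∈ t, V x.1 x.2 with hW
  have hWc : IsClopen W := isClopen_biUnion_finset fun x _ => hV x.1 x.2
  refine ⟨Subtype.val '' W, by simp, hWc.isClosed.isCompact.image continuous_subtype_val, ?_,
    ?_, ?_⟩
  · have : K \ Subtype.val '' W = Subtype.val '' Wᶜ := by
      ext x
      constructor
      · exact fun ⟨hx, hn⟩ => ⟨⟨x, hx⟩, fun h => hn ⟨_, h, rfl⟩, rfl⟩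
      · rintro ⟨y, hy, rfl⟩
        exact ⟨y.2, fun ⟨w, hw, e⟩ => hy (Subtype.ext e ▸ hw)⟩
    rw [this]
    exact hWc.compl.isClosed.isCompact.image continuous_subtype_val
  · rintro x ⟨hxA, hxK⟩
    exact ⟨⟨x, hxK⟩, ht hxA, rfl⟩
  · rintro _ ⟨y, hy, rfl⟩
    simp only [hW, mem_iUnion] at hy
    obtain ⟨x, -, hy⟩ := hy
    exact hVO x.1 x.2 hy

/-- An open neighbourhood of a compact set, inside a given open set, with compact closure and
frontier off a totally disconnected compact set. -/
lemma exists_open_sep {A K O : Set ℂ} (hA : IsCompact A) (hK : IsCompact K)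
    (hKd : IsTotallyDisconnected K) (hO : IsOpen O) (hAO : A ⊆ O) :
    ∃ W, IsOpen W ∧ A ⊆ W ∧ closure W ⊆ O ∧ IsCompact (closure W) ∧
      Disjoint (frontier W) K := by
  obtain ⟨L, hLc, hAL, hLO⟩ := exists_compact_between hA hO hAO
  obtain ⟨C, hCK, hC, hKC, hAC, hCL⟩ :=
    exists_clopen_between hA hK hKd isOpen_interior hAL
  have hsub : A ∪ C ⊆ interior L \ (K \ C) := by
    rintro x (hx | hx)
    · exact ⟨hAL hx, fun h => h.2 (hAC ⟨hx, h.1⟩)⟩
    · exact ⟨hCL hx, fun h => h.2 hx⟩
  obtain ⟨L', hL'c, hAL', hL'O⟩ :=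
    exists_compact_between (hA.union hC) (isOpen_interior.sdiff hKC.isClosed) hsub
  have hcl : closure (interior L') ⊆ L' := hL'c.isClosed.closure_subset_iff.2 interior_subset
  refine ⟨interior L', isOpen_interior, (subset_union_left).trans hAL',
    hcl.trans (hL'O.trans (Set.sdiff_subset.trans (interior_subset.trans hLO))),
    hL'c.of_isClosed_subset isClosed_closure hcl, ?_⟩
  rw [Set.disjoint_left]
  intro x hx hxK
  rw [isOpen_interior.frontier_eq] at hx
  refine hx.2 (hAL' (Or.inr ?_))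
  by_contra hxC
  exact (hL'O (hcl hx.1)).2 ⟨hxK, hxC⟩

/-- A point whose component in a compact set is trivial has arbitrarily small neighbourhoods
with frontier off that set and off a totally disconnected compact set. -/
lemma exists_small_sep {X K : Set ℂ} (hX : IsCompact X) (hK : IsCompact K)
    (hKd : IsTotallyDisconnected K) {z : ℂ} (hz : connectedComponentIn X z ⊆ {z})
    {r : ℝ} (hr : 0 < r) :
    ∃ W, IsOpen W ∧ z ∈ W ∧ closure W ⊆ ball z r ∧ IsCompact (closure W) ∧
      Disjoint (frontier W) X ∧ Disjoint (frontier W) K := by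
  obtain ⟨Z, hZX, hZc, hXZ, hzZ, hZr⟩ : ∃ Z, Z ⊆ X ∧ IsCompact Z ∧ IsCompact (X \ Z) ∧
      (z ∈ X → z ∈ Z) ∧ Z ⊆ ball z r := by
    by_cases hzX : z ∈ X
    · haveI : CompactSpace X := isCompact_iff_compactSpace.1 hX
      have hcc : connectedComponent (⟨z, hzX⟩ : X) ⊆ Subtype.val ⁻¹' ball z r := by
        intro y hy
        have : (y : ℂ) ∈ connectedComponentIn X z := by
          rw [connectedComponentIn_eq_image hzX]
          exact ⟨y, hy, rfl⟩
        simp [show (y : ℂ) = z from hz this, hr]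
      rw [connectedComponent_eq_iInter_isClopen] at hcc
      obtain ⟨t, ht⟩ := isCompact_univ.elim_finite_subfamily_closed
        (fun s : { s : Set X // IsClopen s ∧ (⟨z, hzX⟩ : X) ∈ s } =>
          (s : Set X) ∩ (Subtype.val ⁻¹' ball z r)ᶜ)
        (fun s => s.2.1.isClosed.inter (isOpen_ball.preimage continuous_subtype_val).isClosed_compl)
        (by
          rw [Set.univ_inter, Set.eq_empty_iff_forall_notMem]
          intro y hy
          simp only [mem_iInter, mem_inter_iff, mem_compl_iff] at hy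
          by_cases hne : ∃ s : Set X, IsClopen s ∧ (⟨z, hzX⟩ : X) ∈ s
          · obtain ⟨s, hs⟩ := hne
            exact (hy ⟨s, hs⟩).2 (hcc (mem_iInter.2 fun s' => (hy s').1))
          · exact hne ⟨univ, isClopen_univ, trivial⟩)
      set V : Set X := ⋂ s ∈ t, (s : Set X) with hV
      have hVc : IsClopen V := isClopen_biInter_finset fun s _ => s.2.1
      refine ⟨Subtype.val '' V, by simp, hVc.isClosed.isCompact.image continuous_subtype_val,
        ?_, fun _ => ⟨⟨z, hzX⟩, mem_iInter₂.2 fun s _ => s.2.2, rfl⟩, ?_⟩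
      · have : X \ Subtype.val '' V = Subtype.val '' Vᶜ := by
          ext x
          constructor
          · exact fun ⟨hx, hn⟩ => ⟨⟨x, hx⟩, fun h => hn ⟨_, h, rfl⟩, rfl⟩
          · rintro ⟨y, hy, rfl⟩
            exact ⟨y.2, fun ⟨w, hw, e⟩ => hy (Subtype.ext e ▸ hw)⟩
        rw [this]
        exact hVc.compl.isClosed.isCompact.image continuous_subtype_val
      · rintro _ ⟨y, hy, rfl⟩
        by_contra hyb
        have h' : y ∈ univ ∩ ⋂ s ∈ t, (s : Set X) ∩ (Subtype.val ⁻¹' ball z r)ᶜ :=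
          ⟨trivial, mem_iInter₂.2 fun s hs => ⟨mem_iInter₂.1 hy s hs, hyb⟩⟩
        by_cases htn : t.Nonempty
        · rw [ht] at h'
          exact h'
        · rw [Finset.not_nonempty_iff_eq_empty] at htn
          subst htn
          have : ((⟨z, hzX⟩ : X)) ∈ (∅ : Set X) := by
            rw [← ht]
            simp
          exact this
    · exact ⟨∅, empty_subset _, isCompact_empty, by simpa using hX, fun h => absurd h hzX,
        empty_subset _⟩
  have hsub : insert z Z ⊆ ball z r \ (X \ Z) := by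
    rintro x (rfl | hx)
    · exact ⟨mem_ball_self hr, fun h => h.2 (hzZ h.1)⟩
    · exact ⟨hZr hx, fun h => h.2 hx⟩
  obtain ⟨W, hWo, hZW, hWO, hWc, hWK⟩ :=
    exists_open_sep (hZc.insert z) hK hKd (isOpen_ball.sdiff hXZ.isClosed) hsub
  refine ⟨W, hWo, hZW (mem_insert _ _), hWO.trans Set.sdiff_subset, hWc, ?_, hWK⟩
  rw [Set.disjoint_left]
  intro x hx hxX
  rw [hWo.frontier_eq] at hx
  refine hx.2 (hZW (Or.inr ?_))
  by_contra hxZ
  exact (hWO hx.1).2 ⟨hxX, hxZ⟩

end Vale.P032
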