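import Vale.Agent.P032.Discrete
import Vale.Agent.P032.Sep

/-!
P032, part 4: regions, null points, arms at stable points.
-/

namespace Vale.P032

open Set Filter Topology Metric

/-- A union of two compact totally disconnected sets is totally disconnected. -/
lemma td_union {A B : Set ℂ} (hA : IsCompact A) (hB : IsCompact B)
    (hAd : IsTotallyDisconnected A) (hBd : IsTotallyDisconnected B) :
    IsTotallyDisconnected (A ∪ B) := by
  intro K hKsub hK x hx y hy
  by_contra hne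
  have hr : 0 < dist x y := dist_pos.2 hne
  obtain ⟨W₁, hW₁, hxW₁, hW₁O, hW₁c, hW₁A⟩ :=
    exists_open_sep (isCompact_singleton (x := x)) hA hAd isOpen_ball
      (singleton_subset_iff.2 (mem_ball_self hr))
  have hAW : A ∩ closure W₁ ⊆ W₁ := by
    intro p hp
    by_contra hn
    exact Set.disjoint_left.1 hW₁A (show p ∈ frontier W₁ by rw [hW₁.frontier_eq]; exact ⟨hp.2, hn⟩)
      hp.1
  have hA1 : IsCompact (A \ W₁) := hA.diff hW₁
  have hA2 : IsCompact (insert x (A ∩ closure W₁)) := (hA.inter_right isClosed_closure).insert x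
  have hsub : insert x (A ∩ closure W₁) ⊆ ball x (dist x y) \ (A \ W₁) := by
    rintro p (rfl | hp)
    · exact ⟨mem_ball_self hr, fun h => h.2 (hxW₁ rfl)⟩
    · exact ⟨hW₁O hp.2, fun h => h.2 (hAW hp)⟩
  obtain ⟨C, hCB, hC, hBC, hAC, hCO⟩ :=
    exists_clopen_between hA2 hB hBd (isOpen_ball.sdiff hA1.isClosed) hsub
  obtain ⟨L, hLc, hsub', hLO⟩ := exists_compact_between (hA2.union hC)
    ((isOpen_ball (x := x) (ε := dist x y)).sdiff (hA1.union hBC).isClosed) (by
      rintro p (hp | hp)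
      · exact ⟨(hsub hp).1, fun h => h.elim (hsub hp).2 fun h' => h'.2 (hAC ⟨hp, h'.1⟩)⟩
      · exact ⟨(hCO hp).1, fun h => h.elim (hCO hp).2 fun h' => h'.2 hp⟩)
  have hcl : closure (interior L) ⊆ L := hLc.isClosed.closure_subset_iff.2 interior_subset
  have hfr : ∀ p ∈ A ∪ B, p ∉ frontier (interior L) := by
    intro p hp hpf
    rw [isOpen_interior.frontier_eq] at hpf
    obtain ⟨hb, hn⟩ := hLO (hcl hpf.1)
    refine hpf.2 (hsub' ?_)
    rcases hp with hp | hp
    · exact Or.inl (Or.inr ⟨hp, subset_closure (by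
        by_contra h; exact hn (Or.inl ⟨hp, h⟩))⟩)
    · refine Or.inr ?_
      by_contra h
      exact hn (Or.inr ⟨hp, h⟩)
  have hxL : x ∈ interior L := hsub' (Or.inl (mem_insert _ _))
  have hyL : y ∉ closure (interior L) := fun h => by
    have := (hLO (hcl h)).1
    rw [mem_ball, dist_comm] at this
    exact lt_irrefl _ this
  have hcov : K ⊆ interior L ∪ (closure (interior L))ᶜ := by
    intro p hp
    by_cases hpc : p ∈ closure (interior L)
    · left
      by_contra h
      exact hfr p (hKsub hp) (by rw [isOpen_interior.frontier_eq]; exact ⟨hpc, h⟩)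
    · exact Or.inr hpc
  rcases hK.subset_or_subset isOpen_interior isClosed_closure.isOpen_compl
    (Set.disjoint_left.2 fun p h h' => h' (subset_closure h)) hcov with h | h
  · exact hyL (subset_closure (h hy))
  · exact h hx (subset_closure hxL)

namespace Col

variable (C : Col)

/-- Points carrying at least three colours. -/
def Tri : Set ℂ := {x | 3 ≤ (C.S x).card}

lemma isClosed_Tri : IsClosed C.Tri := by
  rw [← isOpen_compl_iff, isOpen_iff_mem_nhds]
  intro x hx
  filter_upwards [C.S_nhds x] with y hy h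
  exact hx (le_trans (show 3 ≤ (C.S y).card from h) (Finset.card_le_card hy))

lemma not_mem_Tri {x : ℂ} : x ∉ C.Tri ↔ (C.S x).card ≤ 2 := by
  simp only [Tri, Set.mem_ofPred_eq]; omega

lemma td_Tri (z : ℂ) (R : ℝ) : IsTotallyDisconnected (C.Tri ∩ closedBall z R) := by
  classical
  have main : ∀ s : Finset (Finset (Fin 5)), (∀ T ∈ s, T.card = 3) →
      IsCompact {x ∈ closedBall z R | ∃ T ∈ s, T ⊆ C.S x} ∧
      IsTotallyDisconnected {x ∈ closedBall z R | ∃ T ∈ s, T ⊆ C.S x} := by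
    intro s
    induction s using Finset.induction with
    | empty => intro _; simpa using isTotallyDisconnected_empty
    | insert T s hT ih =>
      intro hs
      obtain ⟨ihc, ihd⟩ := ih fun T' h => hs T' (Finset.mem_insert_of_mem h)
      obtain ⟨i, j, k, hij, hik, hjk, rfl⟩ := Finset.card_eq_three.1 (hs T (Finset.mem_insert_self _ _))
      set Z : Set ℂ := closedBall z R ∩ (C.F i ∩ C.F j ∩ C.F k) with hZ
      have hZc : IsCompact Z := (isCompact_closedBall z R).inter_right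
        (((C.isClosed_F i).inter (C.isClosed_F j)).inter (C.isClosed_F k))
      have hZd : IsTotallyDisconnected Z := fun K hKZ hK =>
        C.three_subsingleton hK hij hik hjk (fun x hx => (hKZ hx).2.1.1)
          (fun x hx => (hKZ hx).2.1.2) (fun x hx => (hKZ hx).2.2)
      have heq : {x ∈ closedBall z R | ∃ T ∈ insert {i, j, k} s, T ⊆ C.S x}
          = Z ∪ {x ∈ closedBall z R | ∃ T ∈ s, T ⊆ C.S x} := by
        ext x
        simp only [hZ, Finset.exists_mem_insert, Set.mem_ofPred_eq, Set.mem_union, Set.mem_inter_iff,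
          Finset.insert_subset_iff, Finset.singleton_subset_iff, C.mem_S]
        tauto
      rw [heq]
      exact ⟨hZc.union ihc, td_union hZc ihc hZd ihd⟩
  intro K hKsub hK
  refine (main ((Finset.univ : Finset (Fin 5)).powersetCard 3)
    (fun T hT => (Finset.mem_powersetCard.1 hT).2)).2 K (fun x hx => ⟨(hKsub hx).2, ?_⟩) hK
  obtain ⟨T, hT, hTc⟩ := Finset.exists_subset_card_eq (show 3 ≤ (C.S x).card from (hKsub hx).1)
  exact ⟨T, Finset.mem_powersetCard.2 ⟨Finset.subset_univ _, hTc⟩, hT⟩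

/-- An admissible region. -/
structure Good (A : Set ℂ) : Prop where
  isOpen : IsOpen A
  bdd : Bornology.IsBounded A
  free : Disjoint (frontier A) C.Tri

lemma isCompact_Tri_ball (z : ℂ) (R : ℝ) : IsCompact (C.Tri ∩ closedBall z R) :=
  (isCompact_closedBall z R).inter_left C.isClosed_Tri

lemma exists_good {A O : Set ℂ} (hA : IsCompact A) (hO : IsOpen O) (hAO : A ⊆ O) :
    ∃ W, C.Good W ∧ A ⊆ W ∧ closure W ⊆ O := by
  obtain ⟨R, hR⟩ := hA.isBounded.subset_ball 0
  obtain ⟨W, hW, hAW, hWO, hWc, hWK⟩ := exists_open_sep hA (C.isCompact_Tri_ball 0 R)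
    (C.td_Tri 0 R) (hO.inter isOpen_ball) (subset_inter hAO hR)
  refine ⟨W, ⟨hW, hWc.isBounded.subset subset_closure, Set.disjoint_left.2 fun x hx hxT => ?_⟩,
    hAW, hWO.trans inter_subset_left⟩
  exact Set.disjoint_left.1 hWK hx
    ⟨hxT, ball_subset_closedBall (hWO (frontier_subset_closure hx)).2⟩

variable {C}

lemma Good.inter {A B : Set ℂ} (hA : C.Good A) (hB : C.Good B) : C.Good (A ∩ B) :=
  ⟨hA.isOpen.inter hB.isOpen, hA.bdd.subset inter_subset_left,
    ((hA.free.union_left hB.free)).mono_left fun _ hx =>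
      (frontier_inter_subset A B hx).imp (fun h => h.1) (fun h => h.2)⟩

lemma Good.diff {A B : Set ℂ} (hA : C.Good A) (hB : C.Good B) : C.Good (A \ closure B) :=
  ⟨hA.isOpen.sdiff isClosed_closure, hA.bdd.subset Set.sdiff_subset,
    (hA.free.union_left hB.free).mono_left fun _ hx => by
      rw [Set.sdiff_eq] at hx
      rcases frontier_inter_subset A (closure B)ᶜ hx with h | h
      · exact Or.inl h.1
      · right
        have := h.2
        rw [frontier_compl] at this
        exact frontier_closure_subset this⟩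

lemma Good.union {A B : Set ℂ} (hA : C.Good A) (hB : C.Good B) : C.Good (A ∪ B) :=
  ⟨hA.isOpen.union hB.isOpen, hA.bdd.union hB.bdd,
    (hA.free.union_left hB.free).mono_left fun _ hx =>
      (frontier_union_subset A B hx).imp (fun h => h.1) (fun h => h.2)⟩

lemma Good.closure_free {A : Set ℂ} (hA : C.Good A) {x : ℂ} (hx : x ∈ closure A)
    (hT : x ∈ C.Tri) : x ∈ A := by
  by_contra h
  exact Set.disjoint_left.1 hA.free
    (show x ∈ frontier A by rw [hA.isOpen.frontier_eq]; exact ⟨hx, h⟩) hT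

variable (C)

/-- Regions with the same tri-coloured points have the same class. -/
lemma Good.congr {A B : Set ℂ} (hA : C.Good A) (hB : C.Good B)
    (h : ∀ x ∈ C.Tri, x ∈ A ↔ x ∈ B) :
    ∀ᶠ n in atTop, ∀ p q, C.cl n A p q = C.cl n B p q := by
  refine C.cl_congr hA.bdd hB.bdd fun x hx => C.not_mem_Tri.1 fun hT => ?_
  rw [closure_union] at hx
  rcases hx with hx | hx
  · have hxA : x ∈ A := hA.closure_free (closure_mono Set.sdiff_subset hx) hT
    obtain ⟨y, hy, hy'⟩ := mem_closure_iff.1 hx B hB.isOpen ((h x hT).1 hxA)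
    exact hy'.2 hy
  · have hxB : x ∈ B := hB.closure_free (closure_mono Set.sdiff_subset hx) hT
    obtain ⟨y, hy, hy'⟩ := mem_closure_iff.1 hx A hA.isOpen ((h x hT).2 hxB)
    exact hy'.2 hy

/-- Splitting a region along another. -/
lemma Good.split {A B : Set ℂ} (hA : C.Good A) (hB : C.Good B) :
    ∀ᶠ n in atTop, ∀ p q,
      C.cl n A p q = C.cl n (A ∩ B) p q + C.cl n (A \ closure B) p q := by
  filter_upwards [Good.congr C hA ((hA.inter hB).union (hA.diff hB)) (fun x hT => by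
    constructor
    · intro hx
      by_cases hxB : x ∈ closure B
      · exact Or.inl ⟨hx, hB.closure_free hxB hT⟩
      · exact Or.inr ⟨hx, hxB⟩
    · rintro (h | h) <;> exact h.1)] with n hn p q
  rw [hn p q, C.cl_union (hA.inter hB).bdd (hA.diff hB).bdd
    (Set.disjoint_left.2 fun x h h' => h'.2 (subset_closure h.2))]

/-- A point near which all regions have zero class. -/
def IsNull (z : ℂ) : Prop :=
  ∃ r > 0, ∀ A, C.Good A → closure A ⊆ ball z r → ∀ᶠ n in atTop, ∀ p q, C.cl n A p q = 0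

lemma isOpen_null : IsOpen {z | C.IsNull z} := by
  rw [isOpen_iff_mem_nhds]
  rintro z ⟨r, hr, h⟩
  filter_upwards [ball_mem_nhds z (half_pos hr)] with y hy
  exact ⟨r / 2, half_pos hr, fun A hA hsub => h A hA (hsub.trans
    (ball_subset_ball' (by rw [mem_ball] at hy; linarith)))⟩

/-- A region with only null tri-coloured points has zero class. -/
lemma cl_zero_of_null {A : Set ℂ} (hA : C.Good A)
    (h : ∀ x ∈ A, x ∈ C.Tri → C.IsNull x) : ∀ᶠ n in atTop, ∀ p q, C.cl n A p q = 0 := by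
  classical
  have hK : IsCompact (closure A ∩ C.Tri) := hA.bdd.isCompact_closure.inter_right C.isClosed_Tri
  have hex : ∀ x : (closure A ∩ C.Tri : Set ℂ), ∃ W, C.Good W ∧ (x : ℂ) ∈ W ∧
      ∀ B, C.Good B → closure B ⊆ closure W → ∀ᶠ n in atTop, ∀ p q, C.cl n B p q = 0 := by
    rintro ⟨x, hx, hT⟩
    obtain ⟨r, hr, hr'⟩ := h x (hA.closure_free hx hT) hT
    obtain ⟨W, hW, hxW, hWb⟩ := C.exists_good (isCompact_singleton (x := x)) isOpen_ball
      (singleton_subset_iff.2 (mem_ball_self hr))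
    exact ⟨W, hW, hxW rfl, fun B hB hBW => hr' B hB (hBW.trans hWb)⟩
  choose W hW hxW hWz using hex
  obtain ⟨t, ht⟩ := hK.elim_finite_subcover W (fun x => (hW x).isOpen)
    fun x hx => mem_iUnion.2 ⟨⟨x, hx⟩, hxW _⟩
  have main : ∀ s : Finset (closure A ∩ C.Tri : Set ℂ), ∀ B, C.Good B →
      (∀ x ∈ B, x ∈ C.Tri → ∃ i ∈ s, x ∈ W i) → ∀ᶠ n in atTop, ∀ p q, C.cl n B p q = 0 := by
    intro s
    induction s using Finset.induction with
    | empty =>
      intro B hB hcov
      have hB0 : C.Good (∅ : Set ℂ) :=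
        ⟨isOpen_empty, Bornology.isBounded_empty, by simp⟩
      filter_upwards [Good.congr C hB hB0 (fun x hT =>
        ⟨fun hx => by simpa using hcov x hx hT, fun hx => absurd hx (Set.notMem_empty x)⟩)]
        with n hn p q
      rw [hn, C.cl_empty]
    | insert i s hi ih =>
      intro B hB hcov
      filter_upwards [Good.split C hB (hW i),
        hWz i _ (hB.inter (hW i)) (closure_mono inter_subset_right),
        ih _ (hB.diff (hW i)) fun x hx hT => by
          obtain ⟨j, hj, hxj⟩ := hcov x hx.1 hT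
          rcases Finset.mem_insert.1 hj with rfl | hj
          · exact absurd (subset_closure hxj) hx.2
          · exact ⟨j, hj, hxj⟩] with n h1 h2 h3 p q
      rw [h1, h2, h3, add_zero]
  exact main t A hA fun x hx hT => by simpa using ht ⟨subset_closure hx, hT⟩

/-- Arbitrarily small continua of `{p,q}` interface through `z`. -/
def Arm (z : ℂ) (p q : Fin 5) : Prop :=
  ∀ ρ > 0, ∃ K, IsPreconnected K ∧ K ⊆ C.F p ∩ C.F q ∩ closedBall z ρ ∧ z ∈ K ∧ ∃ x ∈ K, x ≠ z

variable {C}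

lemma Arm.mem {z : ℂ} {p q : Fin 5} (h : C.Arm z p q) : p ∈ C.S z ∧ q ∈ C.S z := by
  obtain ⟨K, -, hK, hz, -⟩ := h 1 one_pos
  exact ⟨C.mem_S.2 (hK hz).1.1, C.mem_S.2 (hK hz).1.2⟩

lemma Arm.symm {z : ℂ} {p q : Fin 5} (h : C.Arm z p q) : C.Arm z q p := by
  intro ρ hρ
  obtain ⟨K, h1, h2, h3⟩ := h ρ hρ
  exact ⟨K, h1, fun x hx => ⟨⟨(h2 hx).1.2, (h2 hx).1.1⟩, (h2 hx).2⟩, h3⟩

variable (C)

/-- Cycles of colours. -/
def HasCycle (R : Fin 5 → Fin 5 → Prop) : Prop :=
  (∃ i j k, i ≠ j ∧ i ≠ k ∧ j ≠ k ∧ R i j ∧ R j k ∧ R k i) ∨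
  (∃ i j k l, i ≠ j ∧ i ≠ k ∧ i ≠ l ∧ j ≠ k ∧ j ≠ l ∧ k ≠ l ∧
    R i j ∧ R j k ∧ R k l ∧ R l i) ∨
  (∃ i j k l m, i ≠ j ∧ i ≠ k ∧ i ≠ l ∧ i ≠ m ∧ j ≠ k ∧ j ≠ l ∧ j ≠ m ∧ k ≠ l ∧ k ≠ m ∧ l ≠ m ∧
    R i j ∧ R j k ∧ R k l ∧ R l m ∧ R m i)

/-- The edge relation of a parity matrix. -/
def adj (M : Fin 5 → Fin 5 → ZMod 2) : Fin 5 → Fin 5 → Prop := fun p q => M p q = 1

instance decAdj (M : Fin 5 → Fin 5 → ZMod 2) (p q : Fin 5) : Decidable (adj M p q) :=
  inferInstanceAs (Decidable (M p q = 1))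

instance decHasCycle (M : Fin 5 → Fin 5 → ZMod 2) :
    Decidable (HasCycle (adj M)) :=
  haveI _h3 : Decidable (∃ i j k : Fin 5, i ≠ j ∧ i ≠ k ∧ j ≠ k ∧
    adj M i j ∧ adj M j k ∧ adj M k i) := inferInstance
  haveI _h4 : Decidable (∃ i j k l : Fin 5, i ≠ j ∧ i ≠ k ∧ i ≠ l ∧ j ≠ k ∧ j ≠ l ∧ k ≠ l ∧
    adj M i j ∧ adj M j k ∧ adj M k l ∧ adj M l i) := inferInstance
  haveI _h5 : Decidable (∃ i j k l m : Fin 5,
    i ≠ j ∧ i ≠ k ∧ i ≠ l ∧ i ≠ m ∧ j ≠ k ∧ j ≠ l ∧ j ≠ m ∧ k ≠ l ∧ k ≠ m ∧ l ≠ m ∧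
    adj M i j ∧ adj M j k ∧ adj M k l ∧ adj M l m ∧ adj M m i) := inferInstance
  inferInstanceAs (Decidable (_ ∨ _ ∨ _))

/-- The even parity matrix with prescribed values off vertex 0. -/
def evenMat (a b u w x y : ZMod 2) : Fin 5 → Fin 5 → ZMod 2 :=
  ![![0, a + b + u, a + w + x, b + w + y, u + x + y], ![a + b + u, 0, a, b, u],
    ![a + w + x, a, 0, w, x], ![b + w + y, b, w, 0, y], ![u + x + y, u, x, y, 0]]

/-- A nonzero even edge set on five vertices contains a cycle. -/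
lemma exists_cycle (c : Fin 5 → Fin 5 → ZMod 2) (hc : ∀ p q, c p q = c q p)
    (hs : ∀ p, ∑ q, c p q = 0) (hd : ∀ p, c p p = 0) (hne : ∃ p q, c p q ≠ 0) :
    HasCycle fun p q => c p q = 1 := by
  have hz : ∀ x : ZMod 2, x ≠ 0 ↔ x = 1 := by decide
  have hsum : ∀ p, c p 0 + c p 1 + c p 2 + c p 3 + c p 4 = 0 := fun p => by
    rw [← hs p, Fin.sum_univ_five]
  have e0 := hsum 1
  have e1 := hsum 2
  have e2 := hsum 3
  have e3 := hsum 4
  rw [hd] at e0 e1 e2 e3
  have key : ∀ v : ZMod 2 × ZMod 2 × ZMod 2 × ZMod 2 × ZMod 2 × ZMod 2, v ≠ 0 →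
      HasCycle (adj (evenMat v.1 v.2.1 v.2.2.1 v.2.2.2.1 v.2.2.2.2.1 v.2.2.2.2.2)) := by
    decide +kernel
  have hm : ∀ p q, c p q
      = ![![0, c 0 1, c 0 2, c 0 3, c 0 4], ![c 0 1, 0, c 1 2, c 1 3, c 1 4],
          ![c 0 2, c 1 2, 0, c 2 3, c 2 4], ![c 0 3, c 1 3, c 2 3, 0, c 3 4],
          ![c 0 4, c 1 4, c 2 4, c 3 4, 0]] p q := by
    intro p q
    fin_cases p <;> fin_cases q <;> simp [hd, hc 1 0, hc 2 0, hc 3 0, hc 4 0, hc 2 1, hc 3 1,
      hc 4 1, hc 3 2, hc 4 2, hc 4 3]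
  have two : ∀ s t u v : ZMod 2, s + t + u + v = 0 → s = t + u + v := by decide
  have h0 : c 0 1 = c 1 2 + c 1 3 + c 1 4 := two _ _ _ _ (by rw [hc 0 1]; linear_combination e0)
  have h1 : c 0 2 = c 1 2 + c 2 3 + c 2 4 :=
    two _ _ _ _ (by rw [hc 0 2, hc 1 2]; linear_combination e1)
  have h2 : c 0 3 = c 1 3 + c 2 3 + c 3 4 :=
    two _ _ _ _ (by rw [hc 0 3, hc 1 3, hc 2 3]; linear_combination e2)
  have h3 : c 0 4 = c 1 4 + c 2 4 + c 3 4 :=
    two _ _ _ _ (by rw [hc 0 4, hc 1 4, hc 2 4, hc 3 4]; linear_combination e3)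
  have hfun : c = evenMat (c 1 2) (c 1 3) (c 1 4) (c 2 3) (c 2 4) (c 3 4) := by
    funext p q
    rw [hm p q, h0, h1, h2, h3]
    rfl
  rw [hfun]
  refine key (c 1 2, c 1 3, c 1 4, c 2 3, c 2 4, c 3 4) fun hh => ?_
  simp only [Prod.ext_iff, Prod.fst_zero, Prod.snd_zero] at hh
  obtain ⟨a, b, u, w, x, y⟩ := hh
  obtain ⟨p, q, hpq⟩ := hne
  have zero : ∀ p q, evenMat 0 0 0 0 0 0 p q = 0 := by decide
  exact hpq (by rw [hfun, a, b, u, w, x, y]; exact zero p q)

/-- A non-null point all of whose tri-coloured neighbours are null carries a cycle of arms. -/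
lemma arms_of_isolated {z : ℂ} (hz : ¬C.IsNull z) {r : ℝ} (hr : 0 < r)
    (h : ∀ x ∈ ball z r, x ≠ z → x ∈ C.Tri → C.IsNull x) : HasCycle (C.Arm z) := by
  classical
  obtain ⟨A₀, hA₀, hzA₀, hA₀r⟩ := C.exists_good (isCompact_singleton (x := z)) isOpen_ball
    (singleton_subset_iff.2 (mem_ball_self hr))
  have zero : ∀ A, C.Good A → closure A ⊆ ball z r → z ∉ A →
      ∀ᶠ n in atTop, ∀ p q, C.cl n A p q = 0 := fun A hA hAr hzA =>
    C.cl_zero_of_null hA fun x hx hT => h x (hAr (subset_closure hx)) (fun e => hzA (e ▸ hx)) hT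
  have same : ∀ A, C.Good A → closure A ⊆ ball z r → z ∈ A →
      ∀ᶠ n in atTop, ∀ p q, C.cl n A p q = C.cl n A₀ p q := by
    intro A hA hAr hzA
    have hzA₀' : z ∈ A₀ := hzA₀ rfl
    filter_upwards [Good.split C hA hA₀, Good.split C hA₀ hA,
      zero _ (hA.diff hA₀) ((closure_mono Set.sdiff_subset).trans hAr)
        (fun hh => hh.2 (subset_closure hzA₀')),
      zero _ (hA₀.diff hA) ((closure_mono Set.sdiff_subset).trans hA₀r)
        (fun hh => hh.2 (subset_closure hzA))] with n h1 h2 h3 h4 p q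
    rw [h1, h2, h3, h4, Set.inter_comm]
  obtain ⟨c, hcne, hfreq⟩ : ∃ c : Fin 5 → Fin 5 → ZMod 2, c ≠ 0 ∧
      ∃ᶠ n in atTop, (fun p q => C.cl n A₀ p q) = c := by
    by_contra hno
    push Not at hno
    refine hz ⟨r, hr, fun A hA hAr => ?_⟩
    by_cases hzA : z ∈ A
    · have hall : ∀ᶠ n in atTop, ∀ c : Fin 5 → Fin 5 → ZMod 2, c ≠ 0 →
          (fun p q => C.cl n A₀ p q) ≠ c :=
        eventually_all.2 fun c => by
          by_cases hc0 : c = 0
          · exact Eventually.of_forall fun n hh => absurd hc0 hh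
          · filter_upwards [hno c hc0] with n hn _ using hn
      filter_upwards [same A hA hAr hzA, hall] with n h1 h2 p q
      rw [h1]
      by_contra hne
      exact h2 (fun p q => C.cl n A₀ p q) (fun e => hne (congrFun (congrFun e p) q)) rfl
    · exact zero A hA hAr hzA
  obtain ⟨n₀, hn₀⟩ := hfreq.exists
  have hdiag : ∀ p, c p p = 0 := by
    intro p
    rw [← hn₀]
    simp [cl, sq, gH, gV, gc]
  have hcy := exists_cycle c (fun p q => by rw [← hn₀]; exact C.cl_comm _ _ _ _)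
    (fun p => by rw [← hn₀]; exact C.cl_star hA₀.bdd p) hdiag (by
      by_contra hh
      push Not at hh
      exact hcne (funext fun p => funext fun q => hh p q))
  have harm : ∀ p q, c p q = 1 → C.Arm z p q := by
    intro p q hpq ρ hρ
    by_contra hno
    push Not at hno
    set X := C.F p ∩ C.F q ∩ closedBall z ρ with hX
    have hXc : IsCompact X :=
      (isCompact_closedBall z ρ).inter_left ((C.isClosed_F p).inter (C.isClosed_F q))
    have hcomp : connectedComponentIn X z ⊆ {z} := by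
      intro x hx
      by_cases hzX : z ∈ X
      · exact hno _ isPreconnected_connectedComponentIn (connectedComponentIn_subset _ _)
          (mem_connectedComponentIn hzX) x hx
      · rw [connectedComponentIn_eq_empty hzX] at hx
        exact absurd hx (Set.notMem_empty x)
    obtain ⟨W, hW, hzW, hWb, hWc, hWX, hWT⟩ := exists_small_sep hXc
      (C.isCompact_Tri_ball z r) (C.td_Tri z r) hcomp (lt_min hρ hr)
    have hWg : C.Good W := ⟨hW, hWc.isBounded.subset subset_closure,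
      Set.disjoint_left.2 fun x hx hT => Set.disjoint_left.1 hWT hx
        ⟨hT, ball_subset_closedBall
          (ball_subset_ball (min_le_right _ _) (hWb (frontier_subset_closure hx)))⟩⟩
    have h0 : ∀ᶠ n in atTop, C.cl n W p q = 0 :=
      C.cl_zero hWg.bdd fun x hx hp hq => Set.disjoint_left.1 hWX hx
        ⟨⟨hp, hq⟩, ball_subset_closedBall
          (ball_subset_ball (min_le_left _ _) (hWb (frontier_subset_closure hx)))⟩
    obtain ⟨n, hn1, hn2, hn3⟩ := (hfreq.and_eventually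
      (h0.and (same W hWg (hWb.trans (ball_subset_ball (min_le_right _ _))) hzW))).exists
    have : C.cl n A₀ p q = 1 := by rw [congrFun (congrFun hn1 p) q, hpq]
    rw [← hn3, hn2] at this
    exact one_ne_zero this.symm
  rcases hcy with ⟨i, j, k, a, b, d, x, y, w⟩ | ⟨i, j, k, l, a, b, d, e, f, g, x, y, w, v⟩ |
    ⟨i, j, k, l, m, a, b, d, e, f, g, a', b', d', e', x, y, w, v, u⟩
  · exact Or.inl ⟨i, j, k, a, b, d, harm _ _ x, harm _ _ y, harm _ _ w⟩
  · exact Or.inr (Or.inl ⟨i, j, k, l, a, b, d, e, f, g, harm _ _ x, harm _ _ y, harm _ _ w,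
      harm _ _ v⟩)
  · exact Or.inr (Or.inr ⟨i, j, k, l, m, a, b, d, e, f, g, a', b', d', e', harm _ _ x, harm _ _ y,
      harm _ _ w, harm _ _ v, harm _ _ u⟩)

end Col

end Vale.P032
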