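import Vale.Agent.P032.Countable

/-!
P032, part 7: the non-null tri-coloured points have an isolated point in every open set they meet.
-/

namespace Vale.P032

open Set Filter Topology Metric

/-- Coordinate along the direction `φ`. -/
noncomputable def sc (φ : ℝ) (y : ℂ) : ℝ := y.re * Real.cos φ + y.im * Real.sin φ

/-- Coordinate across the direction `φ`. -/
noncomputable def lc (φ : ℝ) (y : ℂ) : ℝ := y.im * Real.cos φ - y.re * Real.sin φ

lemma continuous_sc (φ : ℝ) : Continuous (sc φ) :=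
  (Complex.continuous_re.mul continuous_const).add (Complex.continuous_im.mul continuous_const)

lemma continuous_lc (φ : ℝ) : Continuous (lc φ) :=
  (Complex.continuous_im.mul continuous_const).sub (Complex.continuous_re.mul continuous_const)

lemma sc_lc_sq (φ : ℝ) (y z : ℂ) :
    (sc φ y - sc φ z) ^ 2 + (lc φ y - lc φ z) ^ 2 = dist y z ^ 2 := by
  rw [dist_sq]
  simp only [sc, lc]
  linear_combination ((y.re - z.re) ^ 2 + (y.im - z.im) ^ 2) * Real.sin_sq_add_cos_sq φ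

lemma abs_sc_le (φ : ℝ) (y z : ℂ) : |sc φ y - sc φ z| ≤ dist y z :=
  abs_le_of_sq_le_sq (by nlinarith [sc_lc_sq φ y z, sq_nonneg (lc φ y - lc φ z)]) dist_nonneg

lemma abs_lc_le (φ : ℝ) (y z : ℂ) : |lc φ y - lc φ z| ≤ dist y z :=
  abs_le_of_sq_le_sq (by nlinarith [sc_lc_sq φ y z, sq_nonneg (sc φ y - sc φ z)]) dist_nonneg

lemma dist_le_sc_lc (φ : ℝ) (y z : ℂ) :
    dist y z ≤ |sc φ y - sc φ z| + |lc φ y - lc φ z| := by
  refine (abs_le_of_sq_le_sq' ?_ (by positivity)).2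
  nlinarith [sc_lc_sq φ y z, sq_abs (sc φ y - sc φ z), sq_abs (lc φ y - lc φ z),
    abs_nonneg (sc φ y - sc φ z), abs_nonneg (lc φ y - lc φ z)]

lemma three_mid {a b c : ℝ} (hab : a ≠ b) (hac : a ≠ c) (hbc : b ≠ c) :
    (a < b ∧ b < c) ∨ (c < b ∧ b < a) ∨ (b < a ∧ a < c) ∨ (c < a ∧ a < b) ∨
      (a < c ∧ c < b) ∨ (b < c ∧ c < a) := by
  rcases lt_or_gt_of_ne hab with h1 | h1 <;> rcases lt_or_gt_of_ne hac with h2 | h2 <;>
    rcases lt_or_gt_of_ne hbc with h3 | h3 <;> first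
      | exact Or.inl ⟨h1, h3⟩
      | exact Or.inr (Or.inl ⟨h3, h1⟩)
      | exact Or.inr (Or.inr (Or.inl ⟨h1, h2⟩))
      | exact Or.inr (Or.inr (Or.inr (Or.inl ⟨h2, h1⟩)))
      | exact Or.inr (Or.inr (Or.inr (Or.inr (Or.inl ⟨h2, h3⟩))))
      | exact Or.inr (Or.inr (Or.inr (Or.inr (Or.inr ⟨h3, h2⟩))))
      | linarith

namespace Col

variable (C : Col)

/-- The non-null tri-coloured points. -/
def Bad : Set ℂ := {z | z ∈ C.Tri ∧ ¬C.IsNull z}

lemma isClosed_Bad : IsClosed C.Bad :=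
  C.isClosed_Tri.inter C.isOpen_null.isClosed_compl

lemma cl_self (n : ℕ) (A : Set ℂ) (p : Fin 5) : C.cl n A p p = 0 := by
  simp [cl, sq, gH, gV, gc]

lemma cnt_self (n : ℕ) (A N : Set ℂ) (p : Fin 5) : C.cnt n A N p p = 0 := by
  simp [cnt, term, gH, gV, gc]

/-- No `{p, q}` interface on the frontier near `N`: zero count. -/
lemma cnt_zero {A N : Set ℂ} (hA : Bornology.IsBounded A) {p q : Fin 5}
    (h : ∀ w ∈ frontier A, w ∈ closure N → w ∈ C.F p → w ∉ C.F q) :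
    ∀ᶠ n in atTop, C.cnt n A N p q = 0 := by
  filter_upwards [C.term_local hA (P := fun w y => w ∉ closure N → y ∉ N) fun w _ => by
    by_cases hw : w ∈ closure N
    · exact Eventually.of_forall fun _ h' => absurd hw h'
    · filter_upwards [isClosed_closure.isOpen_compl.mem_nhds hw] with y hy
      exact fun _ hyN => hy (subset_closure hyN)] with n hn
  refine finsum_eq_zero_of_forall_eq_zero fun v => ?_
  by_cases hv : C.term n A p q v = 0
  · simp [hv]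
  obtain ⟨w, hw, hp, hq, hP⟩ := hn p q v hv
  have hwN : w ∉ closure N := fun hc => h w hw hc (C.mem_S.1 hp) (C.mem_S.1 hq)
  simp [ind, hP hwN]

/-- Regions with the same non-null points have the same class. -/
lemma congr_bad {A B : Set ℂ} (hA : C.Good A) (hB : C.Good B)
    (h : ∀ x ∈ C.Bad, (x ∈ A ↔ x ∈ B)) :
    ∀ᶠ n in atTop, ∀ p q, C.cl n A p q = C.cl n B p q := by
  have zero : ∀ {A B : Set ℂ}, C.Good A → C.Good B → (∀ x ∈ C.Bad, x ∈ A → x ∈ B) →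
      ∀ᶠ n in atTop, ∀ p q, C.cl n (A \ closure B) p q = 0 := fun hA hB h =>
    C.cl_zero_of_null (hA.diff hB) fun x hx hT => by
      by_contra hn
      exact hx.2 (subset_closure (h x ⟨hT, hn⟩ hx.1))
  filter_upwards [Good.split C hA hB, Good.split C hB hA,
    zero hA hB (fun x hx => (h x hx).1), zero hB hA (fun x hx => (h x hx).2)]
    with n h1 h2 h3 h4 p q
  rw [h1, h2, h3, h4, Set.inter_comm]

/-- A region containing a closed set of a given trace. -/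
lemma exists_approx {L Q : Set ℂ} (hLb : Bornology.IsBounded L) (hQ : IsClosed Q)
    (hQL : ∀ y ∈ Q, y ∈ closure L → y ∈ L) (hL : IsOpen L) :
    ∃ W, C.Good W ∧ closure L ⊆ W ∧ (∀ y ∈ Q, y ∈ closure W → y ∈ L) ∧
      Disjoint (frontier W) Q := by
  obtain ⟨W, hW, hLW, hWO⟩ := C.exists_good hLb.isCompact_closure
    (hQ.sdiff hL).isOpen_compl fun y hy hyQ => hyQ.2 (hQL y hyQ.1 hy)
  have h1 : ∀ y ∈ Q, y ∈ closure W → y ∈ L := fun y hy hyW => by
    by_contra hn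
    exact hWO hyW ⟨hy, hn⟩
  refine ⟨W, hW, hLW, h1, Set.disjoint_left.2 fun y hy hyQ => ?_⟩
  rw [hW.isOpen.frontier_eq] at hy
  exact hy.2 (hLW (subset_closure (h1 y hyQ hy.1)))

/-- The data of a small piece: all its non-null points have an arc in `F x` in a common
direction. -/
structure Win (zc : ℂ) (R φ₀ γ : ℝ) (S0 : Finset (Fin 5)) (x : Fin 5) : Prop where
  hR : 0 < R
  hγ : 0 < γ
  hγ1 : γ ≤ 1 / 2
  hRγ : 4 * R < γ
  zc_bad : zc ∈ C.Bad
  colours : ∀ y ∈ closedBall zc R, C.S y ⊆ S0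
  has_x : ∀ y ∈ C.Bad, y ∈ closedBall zc R → y ∈ C.F x
  wedge : ∀ z ∈ C.Bad, z ∈ closedBall zc R → ∀ y : ℂ, |sc φ₀ y - sc φ₀ z| ≤ γ * |lc φ₀ y - lc φ₀ z| →
    0 < |lc φ₀ y - lc φ₀ z| → |lc φ₀ y - lc φ₀ z| < γ → y ∉ C.F x

/-- A gap of the levels of the piece, given by its end points. -/
structure Gap (zc : ℂ) (R φ₀ γ : ℝ) (e₁ e₂ : ℂ) : Prop where
  b₁ : e₁ ∈ C.Bad
  b₂ : e₂ ∈ C.Bad
  w₁ : |sc φ₀ e₁ - sc φ₀ zc| < γ * R / 8
  w₂ : |sc φ₀ e₂ - sc φ₀ zc| < γ * R / 8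
  d₁ : e₁ ∈ closedBall zc R
  d₂ : e₂ ∈ closedBall zc R
  lt : sc φ₀ e₁ < sc φ₀ e₂
  gap : ∀ y ∈ C.Bad, y ∈ closedBall zc R → sc φ₀ y ≤ sc φ₀ e₁ ∨ sc φ₀ e₂ ≤ sc φ₀ y

/-- The box around the piece. -/
def boxSet (zc : ℂ) (R φ₀ γ : ℝ) : Set ℂ :=
  {y | |sc φ₀ y - sc φ₀ zc| ≤ γ * R / 4 ∧ |lc φ₀ y - lc φ₀ zc| ≤ R / 2}

variable {C}
variable {zc : ℂ} {R φ₀ γ : ℝ} {S0 : Finset (Fin 5)} {x : Fin 5}

lemma Win.box_sub (h : C.Win zc R φ₀ γ S0 x) : boxSet zc R φ₀ γ ⊆ ball zc R := by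
  intro y hy
  rw [mem_ball]
  have := dist_le_sc_lc φ₀ y zc
  have h1 : γ * R / 4 ≤ R / 8 := by nlinarith [h.hγ1, h.hR]
  linarith [hy.1, hy.2, h.hR]

lemma isClosed_boxSet (zc : ℂ) (R φ₀ γ : ℝ) : IsClosed (boxSet zc R φ₀ γ) :=
  (isClosed_le ((continuous_sc φ₀).sub continuous_const).abs continuous_const).inter
    (isClosed_le ((continuous_lc φ₀).sub continuous_const).abs continuous_const)

/-- Comparable points of `F x` are ordered. -/
lemma Win.order (h : C.Win zc R φ₀ γ S0 x) {z y : ℂ} (hz : z ∈ C.Bad) (hzR : z ∈ closedBall zc R)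
    (hy : y ∈ closedBall zc R) (hyx : y ∈ C.F x) (hne : y ≠ z) :
    γ * |lc φ₀ y - lc φ₀ z| < |sc φ₀ y - sc φ₀ z| := by
  by_contra hle
  push Not at hle
  have hd : dist y z ≤ 2 * R := by
    rw [mem_closedBall] at hzR hy
    linarith [dist_triangle y zc z, dist_comm z zc]
  have hl : 0 < |lc φ₀ y - lc φ₀ z| := by
    by_contra h0
    have h0' : |lc φ₀ y - lc φ₀ z| = 0 := le_antisymm (not_lt.1 h0) (abs_nonneg _)
    rw [h0', mul_zero] at hle
    have := dist_le_sc_lc φ₀ y z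
    rw [h0'] at this
    exact hne (dist_le_zero.1 (by linarith))
  exact h.wedge z hz hzR y hle hl (by linarith [abs_lc_le φ₀ y z, h.hR, h.hRγ]) hyx

lemma Win.sc_inj (h : C.Win zc R φ₀ γ S0 x) {z y : ℂ} (hz : z ∈ C.Bad)
    (hzR : z ∈ closedBall zc R) (hy : y ∈ C.Bad) (hyR : y ∈ closedBall zc R)
    (he : sc φ₀ y = sc φ₀ z) : y = z := by
  by_contra hne
  have := h.order hz hzR hyR (h.has_x y hy hyR) hne
  rw [he, sub_self, abs_zero] at this
  linarith [mul_nonneg h.hγ.le (abs_nonneg (lc φ₀ y - lc φ₀ z))]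

lemma Win.mem_box (h : C.Win zc R φ₀ γ S0 x) {y : ℂ} (hy : y ∈ closedBall zc R) (hyx : y ∈ C.F x)
    (hs : |sc φ₀ y - sc φ₀ zc| ≤ γ * R / 4) : y ∈ boxSet zc R φ₀ γ := by
  refine ⟨hs, ?_⟩
  by_cases he : y = zc
  · rw [he, sub_self, abs_zero]; linarith [h.hR]
  have := h.order h.zc_bad (mem_closedBall_self h.hR.le) hy hyx he
  nlinarith [h.hγ, abs_nonneg (lc φ₀ y - lc φ₀ zc)]

/-- The cut through a gap given by a point of the lune. -/
lemma Gap.exists_cut (h : C.Win zc R φ₀ γ S0 x) {e₁ e₂ : ℂ} (g : C.Gap zc R φ₀ γ e₁ e₂)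
    {p : ℂ} {σ : Bool} (h₁ : e₁ ∈ side p σ) (h₂ : e₂ ∈ side p (!σ)) :
    ∃ L, IsOpen L ∧ L ⊆ ball zc (2 * R) ∧
      (∀ y ∈ closedBall zc R, y ∈ C.F x → sc φ₀ y ≤ sc φ₀ e₁ → y ∈ L) ∧
      (∀ y ∈ closedBall zc R, y ∈ C.F x → y ∈ closure L → sc φ₀ y < sc φ₀ e₂) ∧
      (∀ y ∈ closedBall zc R, y ∈ C.F x → y ∈ frontier L → dist y p = 1) := by
  set c₁ : Set ℂ := {y | sc φ₀ y - sc φ₀ e₁ < γ * |lc φ₀ y - lc φ₀ e₁|} with hc₁
  set c₂ : Set ℂ := {y | sc φ₀ y - sc φ₀ e₂ < -(γ * |lc φ₀ y - lc φ₀ e₂|)} with hc₂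
  have hs := continuous_sc φ₀
  have hl := continuous_lc φ₀
  have o₁ : IsOpen c₁ := isOpen_lt (hs.sub continuous_const)
    (continuous_const.mul (hl.sub continuous_const).abs)
  have o₂ : IsOpen c₂ := isOpen_lt (hs.sub continuous_const)
    (continuous_const.mul (hl.sub continuous_const).abs).neg
  have k₁ : closure c₁ ⊆ {y | sc φ₀ y - sc φ₀ e₁ ≤ γ * |lc φ₀ y - lc φ₀ e₁|} :=
    closure_lt_subset_le (hs.sub continuous_const)
      (continuous_const.mul (hl.sub continuous_const).abs)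
  have k₂ : closure c₂ ⊆ {y | sc φ₀ y - sc φ₀ e₂ ≤ -(γ * |lc φ₀ y - lc φ₀ e₂|)} :=
    closure_lt_subset_le (hs.sub continuous_const)
      (continuous_const.mul (hl.sub continuous_const).abs).neg
  have he2ne : e₂ ∉ closure (side p σ) := fun hc => by
    obtain ⟨w, hw, hw'⟩ := mem_closure_iff.1 hc _ (isOpen_side p (!σ)) h₂
    cases σ
    · exact absurd (show dist w p < 1 from hw) (not_lt.2 (le_of_lt (show 1 < dist w p from hw')))
    · exact absurd (show dist w p < 1 from hw') (not_lt.2 (le_of_lt (show 1 < dist w p from hw)))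
  have n1 : ∀ y ∈ closedBall zc R, y ∈ C.F x →
      sc φ₀ y - sc φ₀ e₁ ≤ γ * |lc φ₀ y - lc φ₀ e₁| → y ≠ e₁ → y ∈ c₁ ∧ sc φ₀ y < sc φ₀ e₁ := by
    intro y hy hyx hle hne
    have ho := h.order g.b₁ g.d₁ hy hyx hne
    have hneg : sc φ₀ y - sc φ₀ e₁ < 0 := by
      by_contra hh
      rw [abs_of_nonneg (not_lt.1 hh)] at ho
      linarith
    refine ⟨show sc φ₀ y - sc φ₀ e₁ < γ * |lc φ₀ y - lc φ₀ e₁| from ?_, by linarith⟩
    linarith [mul_nonneg h.hγ.le (abs_nonneg (lc φ₀ y - lc φ₀ e₁))]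
  have lt2 : ∀ y ∈ closedBall zc R, y ∈ C.F x → sc φ₀ y ≤ sc φ₀ e₂ → y ≠ e₂ →
      sc φ₀ y < sc φ₀ e₂ := by
    intro y hy hyx hle hne
    refine lt_of_le_of_ne hle fun e => ?_
    have ho := h.order g.b₂ g.d₂ hy hyx hne
    rw [e, sub_self, abs_zero] at ho
    linarith [mul_nonneg h.hγ.le (abs_nonneg (lc φ₀ y - lc φ₀ e₂))]
  have he₁ : e₁ ∈ c₂ := by
    have ho := h.order g.b₂ g.d₂ g.d₁ (h.has_x _ g.b₁ g.d₁) (fun e => by
      have := g.lt; rw [e] at this; exact lt_irrefl _ this)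
    rw [abs_of_neg (show sc φ₀ e₁ - sc φ₀ e₂ < 0 by linarith [g.lt])] at ho
    show sc φ₀ e₁ - sc φ₀ e₂ < -(γ * |lc φ₀ e₁ - lc φ₀ e₂|)
    linarith
  refine ⟨(c₁ ∪ side p σ ∩ c₂) ∩ ball zc (2 * R),
    (o₁.union ((isOpen_side p σ).inter o₂)).inter isOpen_ball, inter_subset_right, ?_, ?_, ?_⟩
  · intro y hy hyx hle
    refine ⟨?_, closedBall_subset_ball (by linarith [h.hR]) hy⟩
    by_cases hne : y = e₁
    · exact Or.inr ⟨hne ▸ h₁, hne ▸ he₁⟩
    · exact Or.inl (n1 y hy hyx (by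
        linarith [mul_nonneg h.hγ.le (abs_nonneg (lc φ₀ y - lc φ₀ e₁))]) hne).1
  · intro y hy hyx hcl
    have hcl' := closure_mono inter_subset_left hcl
    rw [closure_union] at hcl'
    rcases hcl' with hc | hc
    · by_cases hne : y = e₁
      · rw [hne]; exact g.lt
      · linarith [(n1 y hy hyx (k₁ hc) hne).2, g.lt]
    · have hI := closure_mono inter_subset_left hc
      have hne : y ≠ e₂ := fun e => he2ne (e ▸ hI)
      have h2 : sc φ₀ y - sc φ₀ e₂ ≤ -(γ * |lc φ₀ y - lc φ₀ e₂|) :=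
        k₂ (closure_mono inter_subset_right hc)
      exact lt2 y hy hyx (by
        linarith [mul_nonneg h.hγ.le (abs_nonneg (lc φ₀ y - lc φ₀ e₂))]) hne
  · intro y hy hyx hfr
    have hyB : y ∈ ball zc (2 * R) := closedBall_subset_ball (by linarith [h.hR]) hy
    rw [((o₁.union ((isOpen_side p σ).inter o₂)).inter isOpen_ball).frontier_eq] at hfr
    obtain ⟨hcl, hn⟩ := hfr
    have hn' : y ∉ c₁ ∧ ¬(y ∈ side p σ ∧ y ∈ c₂) :=
      ⟨fun hh => hn ⟨Or.inl hh, hyB⟩, fun hh => hn ⟨Or.inr hh, hyB⟩⟩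
    have hcl' := closure_mono inter_subset_left hcl
    rw [closure_union] at hcl'
    rcases hcl' with hc | hc
    · by_cases hne : y = e₁
      · exact absurd ⟨hne ▸ h₁, hne ▸ he₁⟩ hn'.2
      · exact absurd (n1 y hy hyx (k₁ hc) hne).1 hn'.1
    · have hI := closure_mono inter_subset_left hc
      by_cases hside : y ∈ side p σ
      · exfalso
        have h2 : sc φ₀ y - sc φ₀ e₂ ≤ -(γ * |lc φ₀ y - lc φ₀ e₂|) :=
          k₂ (closure_mono inter_subset_right hc)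
        have hne : y ≠ e₂ := fun e => he2ne (e ▸ subset_closure hside)
        have ho := h.order g.b₂ g.d₂ hy hyx hne
        have hlt := lt2 y hy hyx (by
          linarith [mul_nonneg h.hγ.le (abs_nonneg (lc φ₀ y - lc φ₀ e₂))]) hne
        rw [abs_of_neg (show sc φ₀ y - sc φ₀ e₂ < 0 by linarith)] at ho
        exact hn'.2 ⟨hside, show sc φ₀ y - sc φ₀ e₂ < -(γ * |lc φ₀ y - lc φ₀ e₂|) by linarith⟩
      · have hd : Continuous fun w : ℂ => dist w p := continuous_id.dist continuous_const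
        cases σ
        · have : 1 ≤ dist y p := closure_lt_subset_le continuous_const hd hI
          exact le_antisymm (not_lt.1 hside) this
        · have : dist y p ≤ 1 := closure_lt_subset_le hd continuous_const hI
          exact le_antisymm this (not_lt.1 hside)

/-- A gap has cuts for at least three colours. -/
lemma Gap.exists_lune (h : C.Win zc R φ₀ γ S0 x) {e₁ e₂ : ℂ} (g : C.Gap zc R φ₀ γ e₁ e₂)
    (a b : Fin 5) : ∃ c p σ, c ≠ a ∧ c ≠ b ∧ p ∈ C.U c ∧ e₁ ∈ side p σ ∧ e₂ ∈ side p (!σ) := by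
  have hne : e₁ ≠ e₂ := fun e => by have := g.lt; rw [e] at this; exact lt_irrefl _ this
  have hd : dist e₁ e₂ ≤ 1 := by
    have h1 := g.d₁; have h2 := g.d₂
    rw [mem_closedBall] at h1 h2
    linarith [dist_triangle e₁ zc e₂, dist_comm e₂ zc, h.hRγ, h.hγ1]
  obtain ⟨c, q, hca, hcb, hq, hl⟩ := C.lune hne hd a b
  rcases hl with ⟨h1, h2⟩ | ⟨h1, h2⟩
  · exact ⟨c, q, true, hca, hcb, hq, show dist e₁ q < 1 by rwa [dist_comm],
      show 1 < dist e₂ q by rwa [dist_comm]⟩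
  · exact ⟨c, q, false, hca, hcb, hq, show 1 < dist e₁ q by rwa [dist_comm],
      show dist e₂ q < 1 by rwa [dist_comm]⟩

/-- The admissible cuts of a gap. -/
def IsCut (C : Col) (zc : ℂ) (R φ₀ : ℝ) (x : Fin 5) (e₁ e₂ : ℂ) (c : Fin 5) (L : Set ℂ) : Prop :=
  IsOpen L ∧ L ⊆ ball zc (2 * R) ∧
    (∀ y ∈ closedBall zc R, y ∈ C.F x → sc φ₀ y ≤ sc φ₀ e₁ → y ∈ L) ∧
    (∀ y ∈ closedBall zc R, y ∈ C.F x → y ∈ closure L → sc φ₀ y < sc φ₀ e₂) ∧
    (∀ y ∈ closedBall zc R, y ∈ C.F x → y ∈ frontier L → y ∉ C.F c)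

/-- A finite family of cuts of a gap leaving at most one colour other than `x`. -/
lemma Gap.exists_cuts (h : C.Win zc R φ₀ γ S0 x) {e₁ e₂ : ℂ} (g : C.Gap zc R φ₀ γ e₁ e₂) :
    ∃ (Γ : Finset (Fin 5)) (L : Fin 5 → Set ℂ), 3 ≤ Γ.card ∧
      ∀ c ∈ Γ, IsCut C zc R φ₀ x e₁ e₂ c (L c) := by
  classical
  have hex : ∀ c : Fin 5, ∃ L : Set ℂ,
      (∃ p σ, p ∈ C.U c ∧ e₁ ∈ side p σ ∧ e₂ ∈ side p (!σ)) →
      IsCut C zc R φ₀ x e₁ e₂ c L := by
    intro c
    by_cases hc : ∃ p σ, p ∈ C.U c ∧ e₁ ∈ side p σ ∧ e₂ ∈ side p (!σ)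
    · obtain ⟨p, σ, hp, h1, h2⟩ := hc
      obtain ⟨L, o, b, l1, l2, l3⟩ := g.exists_cut h h1 h2
      exact ⟨L, fun _ => ⟨o, b, l1, l2, fun y hy hyx hfr hyc =>
        C.noUF hp hyc (by rw [dist_comm]; exact l3 y hy hyx hfr)⟩⟩
    · exact ⟨∅, fun h' => absurd h' hc⟩
  choose L hL using hex
  set Γ := Finset.univ.filter fun c => ∃ p σ, p ∈ C.U c ∧ e₁ ∈ side p σ ∧ e₂ ∈ side p (!σ)
    with hΓ
  refine ⟨Γ, L, ?_, fun c hc => hL c (Finset.mem_filter.1 hc).2⟩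
  by_contra hlt
  have key : ∀ s : Finset (Fin 5), s.card ≤ 2 → ∃ a b, s ⊆ {a, b} := by decide
  obtain ⟨a, b, hab⟩ := key Γ (by omega)
  obtain ⟨c, p, σ, hca, hcb, hp, h1, h2⟩ := g.exists_lune h a b
  have := hab (show c ∈ Γ by rw [hΓ]; simp only [Finset.mem_filter, Finset.mem_univ, true_and]
                             exact ⟨p, σ, hp, h1, h2⟩)
  simp [hca, hcb] at this

/-- The class of a slab between two gaps vanishes at `x`. -/
lemma Win.slab (h : C.Win zc R φ₀ γ S0 x) {e₁ e₂ f₁ f₂ : ℂ} (g : C.Gap zc R φ₀ γ e₁ e₂)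
    (g' : C.Gap zc R φ₀ γ f₁ f₂) (hle : sc φ₀ e₂ ≤ sc φ₀ f₁) {B : Set ℂ} (hB : C.Good B)
    (hBN : ∀ y ∈ C.Bad, y ∈ B ↔
      y ∈ closedBall zc R ∧ sc φ₀ e₁ < sc φ₀ y ∧ sc φ₀ y < sc φ₀ f₂) :
    ∀ᶠ n in atTop, ∀ c, C.cl n B x c = 0 := by
  classical
  obtain ⟨Γ₁, L₁, hc₁, hL₁⟩ := g.exists_cuts h
  obtain ⟨Γ₂, L₂, hc₂, hL₂⟩ := g'.exists_cuts h
  obtain ⟨a₁, ha₁⟩ := Finset.card_pos.1 (show 0 < Γ₁.card by omega)
  obtain ⟨a₂, ha₂⟩ := Finset.card_pos.1 (show 0 < Γ₂.card by omega)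
  set M := boxSet zc R φ₀ γ with hM
  have hMb : M ⊆ closedBall zc R := h.box_sub.trans ball_subset_closedBall
  have hMc : IsCompact M :=
    (isCompact_closedBall zc R).of_isClosed_subset (isClosed_boxSet _ _ _ _) hMb
  set K₁ := ⋃ c ∈ Γ₁, frontier (L₁ c) ∩ (M ∩ C.F x) with hK₁
  set K₂ := ⋃ c ∈ Γ₂, frontier (L₂ c) ∩ (M ∩ C.F x) with hK₂
  have hKc : ∀ (Γ : Finset (Fin 5)) (L : Fin 5 → Set ℂ),
      IsCompact (⋃ c ∈ Γ, frontier (L c) ∩ (M ∩ C.F x)) := fun Γ L =>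
    Γ.isCompact_biUnion fun c _ =>
      (hMc.inter_right (C.isClosed_F x)).inter_left isClosed_frontier
  have strip : ∀ {e e' : ℂ} {L : Set ℂ} {c : Fin 5}, IsCut C zc R φ₀ x e e' c L →
      ∀ y ∈ frontier L ∩ (M ∩ C.F x), sc φ₀ e < sc φ₀ y ∧ sc φ₀ y < sc φ₀ e' := by
    rintro e e' L c ⟨o, -, l1, l2, -⟩ y ⟨hfr, hyM, hyx⟩
    refine ⟨not_le.1 fun hh => ?_, l2 y (hMb hyM) hyx (frontier_subset_closure hfr)⟩
    rw [o.frontier_eq] at hfr
    exact hfr.2 (l1 y (hMb hyM) hyx hh)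
  -- separated neighbourhoods of the two cut interfaces
  set Z₂ := K₁ ∪ ⋃ c ∈ Γ₁, closure (L₁ c) with hZ₂
  have hZ₂c : IsClosed Z₂ :=
    (hKc Γ₁ L₁).isClosed.union (isClosed_biUnion_finset fun c _ => isClosed_closure)
  obtain ⟨M₂, hM₂c, hK₂M, hM₂O⟩ := exists_compact_between (hKc Γ₂ L₂) hZ₂c.isOpen_compl (by
    rintro y hy hy'
    obtain ⟨c, hc, hyc⟩ := mem_iUnion₂.1 hy
    obtain ⟨s1, -⟩ := strip (hL₂ c hc) y hyc
    rcases hy' with hy' | hy'
    · obtain ⟨c', hc', hyc'⟩ := mem_iUnion₂.1 hy'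
      linarith [(strip (hL₁ c' hc') y hyc').2]
    · obtain ⟨c', hc', hyc'⟩ := mem_iUnion₂.1 hy'
      linarith [(hL₁ c' hc').2.2.2.1 y (hMb hyc.2.1) hyc.2.2 hyc'])
  obtain ⟨M₁, hM₁c, hK₁M, hM₁O⟩ := exists_compact_between (hKc Γ₁ L₁)
    ((isOpen_biInter_finset fun c hc => (hL₂ c hc).1).sdiff hM₂c.isClosed :
      IsOpen ((⋂ c ∈ Γ₂, L₂ c) \ M₂)) (by
    intro y hy
    obtain ⟨c, hc, hyc⟩ := mem_iUnion₂.1 hy
    obtain ⟨-, s2⟩ := strip (hL₁ c hc) y hyc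
    exact ⟨mem_iInter₂.2 fun c' hc' => (hL₂ c' hc').2.2.1 y (hMb hyc.2.1) hyc.2.2
      (by linarith), fun hy2 => hM₂O hy2 (Or.inl hy)⟩)
  set N₁ := interior M₁ with hN₁
  set N₂ := interior M₂ with hN₂
  have hN12 : Disjoint (closure N₁) (closure N₂) := Set.disjoint_left.2 fun y hy hy' =>
    (hM₁O (closure_minimal interior_subset hM₁c.isClosed hy)).2
      (closure_minimal interior_subset hM₂c.isClosed hy')
  -- regions
  obtain ⟨Bx, hBx, hBdB, hBxM⟩ := C.exists_good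
    (A := {y | |sc φ₀ y - sc φ₀ zc| ≤ γ * R / 8 ∧ |lc φ₀ y - lc φ₀ zc| ≤ R / 4})
    (O := {y | |sc φ₀ y - sc φ₀ zc| < γ * R / 4 ∧ |lc φ₀ y - lc φ₀ zc| < R / 2})
    (hMc.of_isClosed_subset
      ((isClosed_le ((continuous_sc φ₀).sub continuous_const).abs continuous_const).inter
        (isClosed_le ((continuous_lc φ₀).sub continuous_const).abs continuous_const))
      fun y hy => ⟨by nlinarith [hy.1, h.hR, h.hγ], by linarith [hy.2, h.hR]⟩)
    ((isOpen_lt ((continuous_sc φ₀).sub continuous_const).abs continuous_const).inter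
      (isOpen_lt ((continuous_lc φ₀).sub continuous_const).abs continuous_const))
    (fun y hy => ⟨by nlinarith [hy.1, h.hR, h.hγ], by linarith [hy.2, h.hR]⟩)
  have hBxM' : closure Bx ⊆ M := fun y hy => ⟨(hBxM hy).1.le, (hBxM hy).2.le⟩
  set P : Set ℂ := C.Bad ∪ {y | γ * R / 8 ≤ |sc φ₀ y - sc φ₀ zc|} with hP
  have hPc : IsClosed P := C.isClosed_Bad.union
    (isClosed_le continuous_const ((continuous_sc φ₀).sub continuous_const).abs)
  have off : ∀ {e e' : ℂ} {L : Set ℂ} {c : Fin 5}, C.Gap zc R φ₀ γ e e' →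
      IsCut C zc R φ₀ x e e' c L → ∀ y ∈ frontier L ∩ (M ∩ C.F x), y ∉ P := by
    rintro e e' L c hg hcut y hy hyP
    obtain ⟨s1, s2⟩ := strip hcut y hy
    rcases hyP with hyP | (hyP : γ * R / 8 ≤ |sc φ₀ y - sc φ₀ zc|)
    · rcases hg.gap y hyP (hMb hy.2.1) with hh | hh <;> linarith
    · have a1 := abs_lt.1 hg.w₁
      have a2 := abs_lt.1 hg.w₂
      have : |sc φ₀ y - sc φ₀ zc| < γ * R / 8 :=
        abs_lt.2 ⟨by linarith [a1.1], by linarith [a2.2]⟩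
      linarith
  have mk : ∀ {e e' : ℂ} {L : Set ℂ} {c : Fin 5} (N X : Set ℂ), C.Gap zc R φ₀ γ e e' →
      IsCut C zc R φ₀ x e e' c L →
      IsOpen N → IsClosed X → (∀ y ∈ X, y ∉ closure L) → frontier L ∩ (M ∩ C.F x) ⊆ N →
      ∃ W, C.Good W ∧ closure L ⊆ W ∧ (∀ y ∈ X, y ∉ closure W) ∧
        (∀ y ∈ M ∩ C.F x, y ∈ frontier W → y ∈ N ∧ y ∉ C.F c) ∧
        (∀ y ∈ M ∩ C.F x, (y ∈ P ∨ y ∉ N) → y ∈ closure W → y ∈ L) := by
    intro e e' L c N X hg hcut hN hX hXL hKN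
    have hoff := off hg hcut
    obtain ⟨o, hb, -, -, l3⟩ := hcut
    set Q := X ∪ (M ∩ C.F x ∩ (C.F c ∪ Nᶜ ∪ P)) with hQ
    obtain ⟨W, hW, hLW, hQW, hfr⟩ := C.exists_approx (Q := Q) (isBounded_ball.subset hb)
      (hX.union (((isClosed_boxSet _ _ _ _).inter (C.isClosed_F x)).inter
        (((C.isClosed_F c).union hN.isClosed_compl).union hPc))) (by
        rintro y (hy | ⟨⟨hyM, hyx⟩, hy⟩) hcl
        · exact absurd hcl (hXL y hy)
        · by_contra hn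
          have hf : y ∈ frontier L := by rw [o.frontier_eq]; exact ⟨hcl, hn⟩
          rcases hy with (hy | hy) | hy
          · exact l3 y (hMb hyM) hyx hf hy
          · exact hy (hKN ⟨hf, hyM, hyx⟩)
          · exact hoff y ⟨hf, hyM, hyx⟩ hy)
      o
    refine ⟨W, hW, hLW, fun y hy hyW => hXL y hy (subset_closure (hQW y (Or.inl hy) hyW)),
      fun y hy hyW => ⟨?_, fun hyc => ?_⟩, fun y hy hy' hyW => hQW y (Or.inr ⟨hy, ?_⟩) hyW⟩
    · by_contra hyN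
      exact Set.disjoint_left.1 hfr hyW (Or.inr ⟨hy, Or.inl (Or.inr hyN)⟩)
    · exact Set.disjoint_left.1 hfr hyW (Or.inr ⟨hy, Or.inl (Or.inl hyc)⟩)
    · rcases hy' with hy' | hy'
      · exact Or.inr hy'
      · exact Or.inl (Or.inr hy')
  have mk₁ : ∀ c : Fin 5, ∃ W : Set ℂ, c ∈ Γ₁ → C.Good W ∧ closure (L₁ c) ⊆ W ∧
      (∀ y ∈ closure N₂, y ∉ closure W) ∧
      (∀ y ∈ M ∩ C.F x, y ∈ frontier W → y ∈ N₁ ∧ y ∉ C.F c) ∧
      (∀ y ∈ M ∩ C.F x, (y ∈ P ∨ y ∉ N₁) → y ∈ closure W → y ∈ L₁ c) := by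
    intro c
    by_cases hc : c ∈ Γ₁
    · obtain ⟨W, hW⟩ := mk N₁ (closure N₂) g (hL₁ c hc) isOpen_interior isClosed_closure
        (fun y hy hy' => hM₂O (closure_minimal interior_subset hM₂c.isClosed hy)
          (Or.inr (mem_iUnion₂.2 ⟨c, hc, hy'⟩)))
        (fun y hy => hK₁M (mem_iUnion₂.2 ⟨c, hc, hy⟩))
      exact ⟨W, fun _ => hW⟩
    · exact ⟨∅, fun h' => absurd h' hc⟩
  have mk₂ : ∀ c : Fin 5, ∃ W : Set ℂ, c ∈ Γ₂ → C.Good W ∧ closure (L₂ c) ⊆ W ∧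
      (∀ y ∈ (∅ : Set ℂ), y ∉ closure W) ∧
      (∀ y ∈ M ∩ C.F x, y ∈ frontier W → y ∈ N₂ ∧ y ∉ C.F c) ∧
      (∀ y ∈ M ∩ C.F x, (y ∈ P ∨ y ∉ N₂) → y ∈ closure W → y ∈ L₂ c) := by
    intro c
    by_cases hc : c ∈ Γ₂
    · obtain ⟨W, hW⟩ := mk N₂ ∅ g' (hL₂ c hc) isOpen_interior isClosed_empty
        (fun y hy => absurd hy (Set.notMem_empty y))
        (fun y hy => hK₂M (mem_iUnion₂.2 ⟨c, hc, hy⟩))
      exact ⟨W, fun _ => hW⟩
    · exact ⟨∅, fun h' => absurd h' hc⟩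
  choose W₁ hW₁ using mk₁
  choose W₂ hW₂ using mk₂
  let A : Fin 5 → Fin 5 → Set ℂ := fun c c' => (W₂ c' \ closure (W₁ c)) ∩ Bx
  have hA : ∀ c ∈ Γ₁, ∀ c' ∈ Γ₂, C.Good (A c c') := fun c hc c' hc' =>
    (((hW₂ c' hc').1).diff (hW₁ c hc).1).inter hBx
  have hAfr : ∀ c ∈ Γ₁, ∀ c' ∈ Γ₂, ∀ y ∈ frontier (A c c'), y ∈ C.F x →
      (y ∈ N₁ ∧ y ∉ C.F c) ∨ (y ∈ N₂ ∧ y ∉ C.F c') := by
    intro c hc c' hc' y hy hyx
    obtain ⟨g1, g2, g3, g4, g5⟩ := hW₁ c hc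
    obtain ⟨k1, k2, k3, k4, k5⟩ := hW₂ c' hc'
    have hcl := frontier_subset_closure hy
    have hyBx : y ∈ closure Bx := closure_mono inter_subset_right hcl
    have hyM := hBxM' hyBx
    have hy2 : y ∈ closure (W₂ c') :=
      closure_mono (inter_subset_left.trans Set.sdiff_subset) hcl
    rcases frontier_inter_subset _ _ hy with ⟨hy', -⟩ | ⟨-, hy'⟩
    · rw [Set.sdiff_eq] at hy'
      rcases frontier_inter_subset _ _ hy' with ⟨h', -⟩ | ⟨-, h'⟩
      · exact Or.inr (k4 y ⟨hyM, hyx⟩ h')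
      · rw [frontier_compl] at h'
        exact Or.inl (g4 y ⟨hyM, hyx⟩ (frontier_closure_subset h'))
    · have hnot : y ∉ W₁ c := by
        intro hyW
        obtain ⟨w, hw, hw'⟩ := mem_closure_iff.1
          (closure_mono inter_subset_left hcl) _ g1.isOpen hyW
        exact hw'.2 (subset_closure hw)
      rw [hBx.isOpen.frontier_eq] at hy'
      have hout : ¬(|sc φ₀ y - sc φ₀ zc| ≤ γ * R / 8 ∧ |lc φ₀ y - lc φ₀ zc| ≤ R / 4) :=
        fun hh => hy'.2 (hBdB hh)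
      have hs : γ * R / 8 < |sc φ₀ y - sc φ₀ zc| := by
        by_contra hs
        refine hout ⟨not_lt.1 hs, ?_⟩
        by_cases he : y = zc
        · rw [he, sub_self, abs_zero]; linarith [h.hR]
        have := h.order h.zc_bad (mem_closedBall_self h.hR.le) (hMb hyM) hyx he
        nlinarith [h.hγ, abs_nonneg (lc φ₀ y - lc φ₀ zc)]
      rcases lt_or_ge (sc φ₀ y) (sc φ₀ zc) with hlt | hge
      · rw [abs_of_neg (by linarith)] at hs
        have := (abs_lt.1 g.w₁).1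
        exact absurd (g2 (subset_closure ((hL₁ c hc).2.2.1 y (hMb hyM) hyx (by linarith)))) hnot
      · rw [abs_of_nonneg (by linarith)] at hs
        have := (abs_lt.1 g'.w₂).2
        have hyP : y ∈ P := Or.inr (show γ * R / 8 ≤ |sc φ₀ y - sc φ₀ zc| by
          rw [abs_of_nonneg (by linarith)]; linarith)
        have := (hL₂ c' hc').2.2.2.1 y (hMb hyM) hyx
          (subset_closure (k5 y ⟨hyM, hyx⟩ (Or.inl hyP) hy2))
        linarith
  have hAB : ∀ c ∈ Γ₁, ∀ c' ∈ Γ₂, ∀ y ∈ C.Bad, (y ∈ A c c' ↔ y ∈ B) := by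
    intro c hc c' hc' y hyB
    obtain ⟨g1, g2, g3, g4, g5⟩ := hW₁ c hc
    obtain ⟨k1, k2, k3, k4, k5⟩ := hW₂ c' hc'
    rw [hBN y hyB]
    constructor
    · rintro ⟨⟨hy2, hy1⟩, hyBx⟩
      have hyM := hBxM' (subset_closure hyBx)
      have hyR := hMb hyM
      have hyx := h.has_x y hyB hyR
      refine ⟨hyR, not_le.1 fun hh => hy1 (subset_closure (g2 (subset_closure
        ((hL₁ c hc).2.2.1 y hyR hyx hh)))), ?_⟩
      exact (hL₂ c' hc').2.2.2.1 y hyR hyx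
        (subset_closure (k5 y ⟨hyM, hyx⟩ (Or.inl (Or.inl hyB)) (subset_closure hy2)))
    · rintro ⟨hyR, h1, h2⟩
      have hyx := h.has_x y hyB hyR
      obtain ⟨u1, u2⟩ := abs_lt.1 g.w₁
      obtain ⟨v1, v2⟩ := abs_lt.1 g'.w₂
      have hs : |sc φ₀ y - sc φ₀ zc| ≤ γ * R / 8 := abs_le.2 ⟨by linarith, by linarith⟩
      have hyM := h.mem_box hyR hyx (by nlinarith [h.hγ, h.hR])
      have hl : |lc φ₀ y - lc φ₀ zc| ≤ R / 4 := by
        by_cases he : y = zc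
        · rw [he, sub_self, abs_zero]; linarith [h.hR]
        have := h.order h.zc_bad (mem_closedBall_self h.hR.le) hyR hyx he
        nlinarith [h.hγ, abs_nonneg (lc φ₀ y - lc φ₀ zc)]
      refine ⟨⟨k2 (subset_closure ((hL₂ c' hc').2.2.1 y hyR hyx ?_)), fun hy1 => ?_⟩,
        hBdB ⟨hs, hl⟩⟩
      · rcases g'.gap y hyB hyR with hh | hh
        · exact hh
        · linarith
      · have := (hL₁ c hc).2.2.2.1 y hyR hyx
          (subset_closure (g5 y ⟨hyM, hyx⟩ (Or.inl (Or.inl hyB)) hy1))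
        rcases g.gap y hyB hyR with hh | hh <;> linarith
  -- zero away from the present colours
  have hout : ∀ c ∈ Γ₁, ∀ c' ∈ Γ₂, ∀ q, q ∉ S0 → ∀ y ∈ frontier (A c c'), y ∉ C.F q := by
    intro c hc c' hc' q hq y hy hyq
    have hyM := hBxM' (closure_mono inter_subset_right (frontier_subset_closure hy))
    exact hq (h.colours y (hMb hyM) (C.mem_S.2 hyq))
  have hstar : ∀ c ∈ Γ₁, ∀ c' ∈ Γ₂, ∀ y ∈ frontier (A c c'), y ∈ C.F x →
      y ∉ frontier N₁ ∧ y ∉ frontier N₂ := by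
    intro c hc c' hc' y hy hyx
    rw [isOpen_interior.frontier_eq, isOpen_interior.frontier_eq]
    rcases hAfr c hc c' hc' y hy hyx with ⟨hh, -⟩ | ⟨hh, -⟩
    · exact ⟨fun k => k.2 hh, fun k => Set.disjoint_left.1 hN12 (subset_closure hh) k.1⟩
    · exact ⟨fun k => Set.disjoint_left.1 hN12 k.1 (subset_closure hh), fun k => k.2 hh⟩
  have z1 : ∀ c ∈ Γ₁, ∀ᶠ n in atTop, C.cnt n (A a₁ a₂) N₁ x c = 0 ∧
      (c = x → ∀ q, C.cnt n (A a₁ a₂) N₁ x q = 0) := by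
    intro c hc
    have hN1b : Bornology.IsBounded N₁ := hM₁c.isBounded.subset interior_subset
    have hN2b : Bornology.IsBounded N₂ := hM₂c.isBounded.subset interior_subset
    have noc : ∀ y ∈ frontier (A c a₂), y ∈ closure N₁ → y ∈ C.F x → y ∉ C.F c := by
      intro y hy hyN hyx
      rcases hAfr c hc a₂ ha₂ y hy hyx with ⟨-, hh⟩ | ⟨hh, -⟩
      · exact hh
      · exact absurd (subset_closure hh) (Set.disjoint_left.1 hN12 hyN)
    have sp := fun q => C.cl_split (A := A c a₂) (N₁ := N₁) (N₂ := N₂) (hA c hc a₂ ha₂).bdd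
      (hN12.mono subset_closure subset_closure) (p := x) (q := q) fun y hy hyx _ => by
        rw [hN₁, hN₂, interior_interior, interior_interior]
        exact (hAfr c hc a₂ ha₂ y hy hyx).imp And.left And.left
    have sp' := fun q => C.cl_split (A := A a₁ a₂) (N₁ := N₁) (N₂ := N₂) (hA a₁ ha₁ a₂ ha₂).bdd
      (hN12.mono subset_closure subset_closure) (p := x) (q := q) fun y hy hyx _ => by
        rw [hN₁, hN₂, interior_interior, interior_interior]
        exact (hAfr a₁ ha₁ a₂ ha₂ y hy hyx).imp And.left And.left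
    have hz : ∀ q, (q = c ∨ c = x) → ∀ᶠ n in atTop, C.cnt n (A c a₂) N₁ x q = 0 := by
      intro q hq
      refine C.cnt_zero (hA c hc a₂ ha₂).bdd fun y hy hyN hyx hyq => ?_
      rcases hq with rfl | rfl
      · exact noc y hy hyN hyx hyq
      · exact noc y hy hyN hyx hyx
    have hO : closure N₂ ⊆ (closure (W₁ c))ᶜ ∩ (closure (W₁ a₁))ᶜ := fun y hy =>
      ⟨(hW₁ c hc).2.2.1 y hy, (hW₁ a₁ ha₁).2.2.1 y hy⟩
    filter_upwards [eventually_all.2 sp, eventually_all.2 sp',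
      C.cnt_congr (A := A c a₂) (A' := A a₁ a₂) hN2b
        (isClosed_closure.isOpen_compl.inter isClosed_closure.isOpen_compl) hO (by
          ext y; simp only [A, mem_inter_iff, Set.mem_sdiff, mem_compl_iff]; tauto),
      C.congr_bad (hA c hc a₂ ha₂) (hA a₁ ha₁ a₂ ha₂) (fun y hy =>
        (hAB c hc a₂ ha₂ y hy).trans (hAB a₁ ha₁ a₂ ha₂ y hy).symm),
      eventually_all.2 fun q => (eventually_imp_distrib_left.2 (hz q))]
      with n e1 e2 e3 e4 e5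
    have eq : ∀ q, C.cnt n (A c a₂) N₁ x q = C.cnt n (A a₁ a₂) N₁ x q := fun q => by
      have := e4 x q
      rw [e1 q, e2 q, e3 x q] at this
      exact add_right_cancel this
    exact ⟨by rw [← eq]; exact e5 c (Or.inl rfl), fun hx q => by
      rw [← eq]; exact e5 q (Or.inr hx)⟩
  have z2 : ∀ c ∈ Γ₂, ∀ᶠ n in atTop, C.cnt n (A a₁ a₂) N₂ x c = 0 ∧
      (c = x → ∀ q, C.cnt n (A a₁ a₂) N₂ x q = 0) := by
    intro c hc
    have hN1b : Bornology.IsBounded N₁ := hM₁c.isBounded.subset interior_subset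
    have noc : ∀ y ∈ frontier (A a₁ c), y ∈ closure N₂ → y ∈ C.F x → y ∉ C.F c := by
      intro y hy hyN hyx
      rcases hAfr a₁ ha₁ c hc y hy hyx with ⟨hh, -⟩ | ⟨-, hh⟩
      · exact absurd hyN (Set.disjoint_left.1 hN12 (subset_closure hh))
      · exact hh
    have sp := fun q => C.cl_split (A := A a₁ c) (N₁ := N₁) (N₂ := N₂) (hA a₁ ha₁ c hc).bdd
      (hN12.mono subset_closure subset_closure) (p := x) (q := q) fun y hy hyx _ => by
        rw [hN₁, hN₂, interior_interior, interior_interior]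
        exact (hAfr a₁ ha₁ c hc y hy hyx).imp And.left And.left
    have sp' := fun q => C.cl_split (A := A a₁ a₂) (N₁ := N₁) (N₂ := N₂) (hA a₁ ha₁ a₂ ha₂).bdd
      (hN12.mono subset_closure subset_closure) (p := x) (q := q) fun y hy hyx _ => by
        rw [hN₁, hN₂, interior_interior, interior_interior]
        exact (hAfr a₁ ha₁ a₂ ha₂ y hy hyx).imp And.left And.left
    have hz : ∀ q, (q = c ∨ c = x) → ∀ᶠ n in atTop, C.cnt n (A a₁ c) N₂ x q = 0 := by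
      intro q hq
      refine C.cnt_zero (hA a₁ ha₁ c hc).bdd fun y hy hyN hyx hyq => ?_
      rcases hq with rfl | rfl
      · exact noc y hy hyN hyx hyq
      · exact noc y hy hyN hyx hyx
    have hin : ∀ c' ∈ Γ₂, closure N₁ ⊆ W₂ c' := fun c' hc' y hy =>
      (hW₂ c' hc').2.1 (subset_closure (mem_iInter₂.1
        (hM₁O (closure_minimal interior_subset hM₁c.isClosed hy)).1 c' hc'))
    filter_upwards [eventually_all.2 sp, eventually_all.2 sp',
      C.cnt_congr (A := A a₁ c) (A' := A a₁ a₂) hN1b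
        ((hW₂ c hc).1.isOpen.inter (hW₂ a₂ ha₂).1.isOpen)
        (subset_inter (hin c hc) (hin a₂ ha₂)) (by
          ext y; simp only [A, mem_inter_iff, Set.mem_sdiff]; tauto),
      C.congr_bad (hA a₁ ha₁ c hc) (hA a₁ ha₁ a₂ ha₂) (fun y hy =>
        (hAB a₁ ha₁ c hc y hy).trans (hAB a₁ ha₁ a₂ ha₂ y hy).symm),
      eventually_all.2 fun q => (eventually_imp_distrib_left.2 (hz q))]
      with n e1 e2 e3 e4 e5
    have eq : ∀ q, C.cnt n (A a₁ c) N₂ x q = C.cnt n (A a₁ a₂) N₂ x q := fun q => by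
      have := e4 x q
      rw [e1 q, e2 q, e3 x q] at this
      exact add_left_cancel this
    exact ⟨by rw [← eq]; exact e5 c (Or.inl rfl), fun hx q => by
      rw [← eq]; exact e5 q (Or.inr hx)⟩
  have hout' : ∀ᶠ n in atTop, ∀ q, q ∉ S0 →
      C.cnt n (A a₁ a₂) N₁ x q = 0 ∧ C.cnt n (A a₁ a₂) N₂ x q = 0 :=
    eventually_all.2 fun q => eventually_imp_distrib_left.2 fun hq =>
      (C.cnt_zero (hA a₁ ha₁ a₂ ha₂).bdd fun y hy _ _ => hout a₁ ha₁ a₂ ha₂ q hq y hy).and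
        (C.cnt_zero (hA a₁ ha₁ a₂ ha₂).bdd fun y hy _ _ => hout a₁ ha₁ a₂ ha₂ q hq y hy)
  filter_upwards [(eventually_all_finset Γ₁).2 z1, (eventually_all_finset Γ₂).2 z2,
    C.cnt_star (N := N₁) (hA a₁ ha₁ a₂ ha₂).bdd (x := x)
      (fun y hy hyx => (hstar a₁ ha₁ a₂ ha₂ y hy hyx).1),
    C.cnt_star (N := N₂) (hA a₁ ha₁ a₂ ha₂).bdd (x := x)
      (fun y hy hyx => (hstar a₁ ha₁ a₂ ha₂ y hy hyx).2),
    C.cl_split (A := A a₁ a₂) (N₁ := N₁) (N₂ := N₂) (p := x) (q := x) (hA a₁ ha₁ a₂ ha₂).bdd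
      (hN12.mono subset_closure subset_closure) (fun y hy hyx _ => by
        rw [hN₁, hN₂, interior_interior, interior_interior]
        exact (hAfr a₁ ha₁ a₂ ha₂ y hy hyx).imp And.left And.left),
    eventually_all.2 fun q => C.cl_split (A := A a₁ a₂) (N₁ := N₁) (N₂ := N₂) (p := x) (q := q)
      (hA a₁ ha₁ a₂ ha₂).bdd (hN12.mono subset_closure subset_closure) (fun y hy hyx _ => by
        rw [hN₁, hN₂, interior_interior, interior_interior]
        exact (hAfr a₁ ha₁ a₂ ha₂ y hy hyx).imp And.left And.left),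
    C.congr_bad hB (hA a₁ ha₁ a₂ ha₂) (fun y hy => (hAB a₁ ha₁ a₂ ha₂ y hy).symm), hout']
    with n h1 h2 s1 s2 _ hsp hcg ho c
  -- all counts vanish
  have all_zero : ∀ (Γ : Finset (Fin 5)) (f : Fin 5 → ZMod 2), 3 ≤ Γ.card → f x = 0 →
      (∀ q ∈ Γ, f q = 0) → (x ∈ Γ → ∀ q, f q = 0) → ∑ q, f q = 0 → ∀ q, f q = 0 := by
    intro Γ f hΓ hx hin hxin hsum q
    by_cases hxΓ : x ∈ Γ
    · exact hxin hxΓ q
    by_cases hq : q ∈ insert x Γ
    · rcases Finset.mem_insert.1 hq with rfl | hq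
      · exact hx
      · exact hin q hq
    have hrest : (Finset.univ \ insert x Γ).card ≤ 1 := by
      rw [Finset.card_sdiff_of_subset (Finset.subset_univ _), Finset.card_insert_of_notMem hxΓ]
      simp only [Finset.card_univ, Fintype.card_fin]; omega
    rw [Finset.sum_eq_single q] at hsum
    · exact hsum
    · intro b _ hbq
      by_cases hb : b ∈ insert x Γ
      · rcases Finset.mem_insert.1 hb with rfl | hb
        · exact hx
        · exact hin b hb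
      · exact absurd (Finset.card_le_one.1 hrest b (by simp [hb]) q (by simp [hq])) hbq
    · exact fun hh => absurd (Finset.mem_univ q) hh
  have n1 := all_zero Γ₁ (fun q => C.cnt n (A a₁ a₂) N₁ x q) hc₁ (C.cnt_self _ _ _ _)
    (fun q hq => (h1 q hq).1) (fun hx => (h1 x hx).2 rfl) s1
  have n2 := all_zero Γ₂ (fun q => C.cnt n (A a₁ a₂) N₂ x q) hc₂ (C.cnt_self _ _ _ _)
    (fun q hq => (h2 q hq).1) (fun hx => (h2 x hx).2 rfl) s2
  rw [hcg x c, hsp c, show C.cnt n (A a₁ a₂) N₁ x c = 0 from n1 c,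
    show C.cnt n (A a₁ a₂) N₂ x c = 0 from n2 c, add_zero]

/-- Every interval of levels contains a level free of non-null points. -/
lemma Win.exists_level (h : C.Win zc R φ₀ γ S0 x) {u v : ℝ} (huv : u < v) :
    ∃ t ∈ Ioo u v, ∀ y ∈ C.Bad, y ∈ closedBall zc R → sc φ₀ y ≠ t := by
  by_contra hcon
  push Not at hcon
  choose g hgB hgR hgs using hcon
  let G : Ioo u v → ℂ := fun t => g t.1 t.2
  have hcont : Continuous G := by
    refine (LipschitzWith.of_dist_le_mul (K := ⟨1 + 1 / γ, by have := h.hγ; positivity⟩)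
      fun a b => ?_).continuous
    show dist (G a) (G b) ≤ (1 + 1 / γ) * dist a b
    by_cases he : G a = G b
    · rw [he, dist_self]; have := h.hγ; positivity
    have ho := h.order (hgB b.1 b.2) (hgR b.1 b.2) (hgR a.1 a.2)
      (h.has_x _ (hgB a.1 a.2) (hgR a.1 a.2)) he
    have hd := dist_le_sc_lc φ₀ (G a) (G b)
    rw [show dist a b = |sc φ₀ (G a) - sc φ₀ (G b)| by
      rw [Subtype.dist_eq, Real.dist_eq]; simp only [G, hgs]]
    have hl : |lc φ₀ (G a) - lc φ₀ (G b)| ≤ |sc φ₀ (G a) - sc φ₀ (G b)| / γ :=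
      (le_div_iff₀ h.hγ).2 (by linarith)
    rw [add_mul, one_mul, div_mul_eq_mul_div, one_mul]
    linarith
  haveI : PreconnectedSpace (Ioo u v) := Subtype.preconnectedSpace isPreconnected_Ioo
  have hsub : range G ⊆ C.Tri ∩ closedBall zc R := by
    rintro _ ⟨t, rfl⟩; exact ⟨(hgB t.1 t.2).1, hgR t.1 t.2⟩
  have hs := C.td_Tri zc R (range G) hsub (isPreconnected_range hcont)
  obtain ⟨a, ha⟩ := nonempty_Ioo.2 huv
  obtain ⟨b, hb⟩ := nonempty_Ioo.2 ha.2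
  have := congrArg (sc φ₀) (hs ⟨⟨a, ha⟩, rfl⟩ ⟨⟨b, ha.1.trans hb.1, hb.2⟩, rfl⟩)
  simp only [G, hgs] at this
  linarith [hb.1]

/-- At `x`, classes near a point strictly between two others vanish. -/
lemma Win.cl_x (h : C.Win zc R φ₀ γ S0 x) {zm z₀ zp : ℂ} (bm : zm ∈ C.Bad) (bp : zp ∈ C.Bad)
    (rm : zm ∈ closedBall zc R) (rp : zp ∈ closedBall zc R)
    (wm : |sc φ₀ zm - sc φ₀ zc| < γ * R / 8) (wp : |sc φ₀ zp - sc φ₀ zc| < γ * R / 8)
    (hm : sc φ₀ zm < sc φ₀ z₀) (hp : sc φ₀ z₀ < sc φ₀ zp) :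
    ∃ r > 0, ∀ A, C.Good A → closure A ⊆ ball z₀ r ∩ ball zc R →
      ∀ᶠ n in atTop, ∀ c, C.cl n A x c = 0 := by
  set s := sc φ₀ with hs
  obtain ⟨t₀, ht₀, ht₀l⟩ := h.exists_level hm
  obtain ⟨t₃, ht₃, ht₃l⟩ := h.exists_level hp
  refine ⟨min (s z₀ - t₀) (t₃ - s z₀), lt_min (by linarith [ht₀.2]) (by linarith [ht₃.1]),
    fun A hA hAsub => ?_⟩
  have hEc : IsCompact (C.Bad ∩ closedBall zc R) :=
    (isCompact_closedBall zc R).inter_left C.isClosed_Bad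
  have hsc : Continuous s := continuous_sc φ₀
  -- separation of the levels inside and outside
  have hin : IsCompact (s '' (C.Bad ∩ closedBall zc R ∩ closure A)) :=
    (hEc.inter_right isClosed_closure).image hsc
  have hout : IsClosed (s '' ((C.Bad ∩ closedBall zc R) \ A)) :=
    ((hEc.diff hA.isOpen).image hsc).isClosed
  have hdis : Disjoint (s '' (C.Bad ∩ closedBall zc R ∩ closure A))
      (s '' ((C.Bad ∩ closedBall zc R) \ A)) := by
    rw [Set.disjoint_left]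
    rintro _ ⟨y, ⟨⟨hy, hyR⟩, hyA⟩, rfl⟩ ⟨w, ⟨⟨hw, hwR⟩, hwA⟩, he⟩
    rw [h.sc_inj hy hyR hw hwR he] at hwA
    exact hwA (hA.closure_free hyA hy.1)
  obtain ⟨η, hη, hsep⟩ := hdis.exists_thickenings hin hout
  have sep : ∀ y w, y ∈ C.Bad → y ∈ closedBall zc R → y ∈ A → w ∈ C.Bad → w ∈ closedBall zc R →
      w ∉ A → η ≤ |s y - s w| := by
    intro y w hy hyR hyA hw hwR hwA
    by_contra hlt
    push Not at hlt
    exact Set.disjoint_left.1 hsep
      (self_subset_thickening hη _ ⟨y, ⟨⟨hy, hyR⟩, subset_closure hyA⟩, rfl⟩)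
      (Metric.mem_thickening_iff.2 ⟨_, ⟨w, ⟨⟨hw, hwR⟩, hwA⟩, rfl⟩, by
        rw [Real.dist_eq]; exact hlt⟩)
  -- gap at a level
  have hgap : ∀ t, s zm < t → t < s zp → (∀ y ∈ C.Bad, y ∈ closedBall zc R → s y ≠ t) →
      ∃ e₁ e₂, C.Gap zc R φ₀ γ e₁ e₂ ∧ s e₁ < t ∧ t < s e₂ := by
    intro t htm htp htl
    obtain ⟨e₁, ⟨he₁, he₁t⟩, hmax⟩ := (hEc.inter_right
      (isClosed_le hsc continuous_const : IsClosed {y | s y ≤ t})).exists_isMaxOn
      ⟨zm, ⟨bm, rm⟩, htm.le⟩ hsc.continuousOn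
    obtain ⟨e₂, ⟨he₂, he₂t⟩, hmin⟩ := (hEc.inter_right
      (isClosed_le continuous_const hsc : IsClosed {y | t ≤ s y})).exists_isMinOn
      ⟨zp, ⟨bp, rp⟩, htp.le⟩ hsc.continuousOn
    have h1 : s e₁ < t := lt_of_le_of_ne he₁t (htl e₁ he₁.1 he₁.2)
    have h2 : t < s e₂ := lt_of_le_of_ne he₂t (htl e₂ he₂.1 he₂.2).symm
    have m1 : s zm ≤ s e₁ := hmax ⟨⟨bm, rm⟩, htm.le⟩
    have m2 : s e₂ ≤ s zp := hmin ⟨⟨bp, rp⟩, htp.le⟩
    obtain ⟨a1, a2⟩ := abs_lt.1 wm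
    obtain ⟨b1, b2⟩ := abs_lt.1 wp
    refine ⟨e₁, e₂, ⟨he₁.1, he₂.1, abs_lt.2 ⟨by linarith, by linarith⟩,
      abs_lt.2 ⟨by linarith, by linarith⟩, he₁.2, he₂.2, by linarith, fun y hy hyR => ?_⟩, h1, h2⟩
    rcases le_total (s y) t with hyt | hyt
    · exact Or.inl (hmax ⟨⟨hy, hyR⟩, hyt⟩)
    · exact Or.inr (hmin ⟨⟨hy, hyR⟩, hyt⟩)
  have main : ∀ (k : ℕ) (t t' : ℝ) (B : Set ℂ), t₀ ≤ t → t' ≤ t₃ → t < t' →
      t' - t ≤ (k : ℝ) * (η / 4) → (∀ y ∈ C.Bad, y ∈ closedBall zc R → s y ≠ t) →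
      (∀ y ∈ C.Bad, y ∈ closedBall zc R → s y ≠ t') → C.Good B →
      (∀ y ∈ C.Bad, y ∈ B ↔ y ∈ closedBall zc R ∧ y ∈ A ∧ t < s y ∧ s y < t') →
      ∀ᶠ n in atTop, ∀ c, C.cl n B x c = 0 := by
    intro k
    induction k with
    | zero =>
      intro t t' B _ _ htt hk
      simp only [CharP.cast_eq_zero, zero_mul] at hk
      linarith
    | succ k ih =>
      intro t t' B ht ht' htt hk hlt hlt' hB hBN
      by_cases hshort : t' - t < η
      · by_cases hne : ∃ y ∈ C.Bad, y ∈ B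
        · obtain ⟨y, hy, hyB⟩ := hne
          obtain ⟨hyR, hyA, hy1, hy2⟩ := (hBN y hy).1 hyB
          obtain ⟨e₁, e₂, g, a1, a2⟩ := hgap t (by linarith [ht₀.1]) (by linarith [ht₃.2]) hlt
          obtain ⟨f₁, f₂, g', b1, b2⟩ :=
            hgap t' (by linarith [ht₀.1]) (by linarith [ht₃.2]) hlt'
          refine h.slab g g' ?_ hB fun w hw => ?_
          · rcases g.gap y hy hyR with h1 | h1
            · linarith
            · rcases g'.gap y hy hyR with h2 | h2 <;> linarith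
          rw [hBN w hw]
          constructor
          · rintro ⟨hwR, -, hw1, hw2⟩
            exact ⟨hwR, by linarith, by linarith⟩
          · rintro ⟨hwR, hw1, hw2⟩
            have hw1' : t < s w := by rcases g.gap w hw hwR with h1 | h1 <;> linarith
            have hw2' : s w < t' := by rcases g'.gap w hw hwR with h1 | h1 <;> linarith
            refine ⟨hwR, ?_, hw1', hw2'⟩
            by_contra hwA
            have := sep y w hy hyR hyA hw hwR hwA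
            rcases le_total (s y) (s w) with hh | hh
            · rw [abs_of_nonpos (by linarith)] at this; linarith
            · rw [abs_of_nonneg (by linarith)] at this; linarith
        · push Not at hne
          filter_upwards [C.cl_zero_of_null hB fun y hy hT => by
            by_contra hn; exact hne y ⟨hT, hn⟩ hy] with n hn c
          exact hn x c
      push Not at hshort
      obtain ⟨m, hm', hml⟩ := h.exists_level (show t + η / 4 < t + η / 2 by linarith)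
      obtain ⟨G, hG, hGsub, hGO⟩ := C.exists_good
        (hEc.inter_right (isClosed_le hsc continuous_const : IsClosed {y | s y ≤ m}))
        (isOpen_lt hsc continuous_const : IsOpen {y | s y < m})
        fun y hy => lt_of_le_of_ne hy.2 (hml y hy.1.1 hy.1.2)
      have hk1 : (1 : ℝ) ≤ k := by
        rcases Nat.eq_zero_or_pos k with rfl | hk0
        · simp only [Nat.zero_add, Nat.cast_one, one_mul] at hk; linarith
        · exact_mod_cast hk0
      push_cast at hk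
      filter_upwards [Good.split C hB hG,
        ih t m (B ∩ G) ht (by linarith [hm'.2]) (by linarith [hm'.1])
          (by nlinarith [hm'.2, hk1]) hlt hml (hB.inter hG) fun y hy => by
            constructor
            · rintro ⟨hyB, hyG⟩
              obtain ⟨hR, hA', h1, -⟩ := (hBN y hy).1 hyB
              exact ⟨hR, hA', h1, hGO (subset_closure hyG)⟩
            · rintro ⟨hR, hA', h1, h2⟩
              exact ⟨(hBN y hy).2 ⟨hR, hA', h1, by linarith [hm'.2]⟩,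
                hGsub ⟨⟨hy, hR⟩, h2.le⟩⟩,
        ih m t' (B \ closure G) (by linarith [hm'.1]) ht' (by linarith [hm'.2])
          (by nlinarith [hm'.1]) hml hlt' (hB.diff hG) fun y hy => by
            constructor
            · rintro ⟨hyB, hyG⟩
              obtain ⟨hR, hA', -, h2⟩ := (hBN y hy).1 hyB
              refine ⟨hR, hA', not_le.1 fun hh => hyG (subset_closure (hGsub ⟨⟨hy, hR⟩, hh⟩)),
                h2⟩
            · rintro ⟨hR, hA', h1, h2⟩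
              refine ⟨(hBN y hy).2 ⟨hR, hA', by linarith [hm'.1], h2⟩, fun hG' => ?_⟩
              have : s y < m := hGO hG'
              linarith] with n h1 h2 h3 c
      rw [h1, h2, h3, add_zero]
  obtain ⟨k, hk⟩ := exists_nat_ge ((t₃ - t₀) / (η / 4))
  refine main k t₀ t₃ A le_rfl le_rfl (by linarith [ht₀.2, ht₃.1])
    ((div_le_iff₀ (by linarith)).1 hk) ht₀l ht₃l hA fun y _ => ?_
  constructor
  · intro hy
    obtain ⟨h1, h2⟩ := hAsub (subset_closure hy)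
    have hd := lt_of_le_of_lt (abs_sc_le φ₀ y z₀) (mem_ball.1 h1)
    obtain ⟨d1, d2⟩ := abs_lt.1 hd
    refine ⟨ball_subset_closedBall h2, hy, ?_, ?_⟩
    · linarith [min_le_left (s z₀ - t₀) (t₃ - s z₀), hs]
    · linarith [min_le_right (s z₀ - t₀) (t₃ - s z₀), hs]
  · exact fun hh => hh.2.1

variable (C)

/-- An arc of `F x` on the unit circle about `z` expels `x` from a double wedge at `z`. -/
lemma wedge_arc {z : ℂ} {φ κ : ℝ} (hκ : 0 < κ) (hκ1 : κ ≤ 1) {p : Fin 5}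
    (h : ∀ ψ ∈ Icc (φ - κ) (φ + κ), ψ ∈ C.ang z p) {y : ℂ}
    (hy : |sc φ y - sc φ z| ≤ Real.sin κ / 2 * |lc φ y - lc φ z|)
    (hl : 0 < |lc φ y - lc φ z|) (hl' : |lc φ y - lc φ z| < Real.sin κ / 2) : y ∉ C.F p := by
  set a := sc φ y - sc φ z with ha
  set b := lc φ y - lc φ z with hb
  have hd : ∀ ψ, dist y (z + cs (φ + ψ)) ^ 2
      = a ^ 2 + b ^ 2 + 1 - 2 * (a * Real.cos ψ + b * Real.sin ψ) := by
    intro ψ
    rw [sc_lc_sq φ y z, dist_sq, dist_sq, ha, hb]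
    simp only [sc, lc, Complex.add_re, Complex.add_im, cs_re, cs_im]
    rw [Real.cos_add, Real.sin_add]
    linear_combination (Real.cos ψ ^ 2 + Real.sin ψ ^ 2) * Real.sin_sq_add_cos_sq φ
      + Real.sin_sq_add_cos_sq ψ
  have hsin : 0 < Real.sin κ := Real.sin_pos_of_pos_of_lt_pi hκ (by linarith [Real.two_le_pi])
  have hsin1 := Real.sin_le_one κ
  have hsmall : a ^ 2 + b ^ 2 < |b| * Real.sin κ := by
    have h1 : |a| ≤ |b| := hy.trans (mul_le_of_le_one_left (abs_nonneg b) (by linarith))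
    have h2 : |a| * |a| ≤ |b| * |b| := mul_self_le_mul_self (abs_nonneg a) h1
    have h3 : |b| * |b| < |b| * (Real.sin κ / 2) := mul_lt_mul_of_pos_left hl' hl
    nlinarith [sq_abs a, sq_abs b]
  have hac : |a * Real.cos κ| ≤ Real.sin κ / 2 * |b| := by
    rw [abs_mul]
    exact (mul_le_of_le_one_right (abs_nonneg _) (Real.abs_cos_le_one κ)).trans hy
  obtain ⟨a1, a2⟩ := abs_le.1 hac
  obtain ⟨ψ₁, ψ₂, m1, m2, e1, e2⟩ : ∃ ψ₁ ψ₂, |ψ₁| ≤ κ ∧ |ψ₂| ≤ κ ∧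
      dist y (z + cs (φ + ψ₁)) < 1 ∧ 1 < dist y (z + cs (φ + ψ₂)) := by
    rcases le_or_gt 0 b with hb0 | hb0
    · rw [abs_of_nonneg hb0] at hsmall a1 a2 hl
      refine ⟨κ, -κ, (abs_of_pos hκ).le, by rw [abs_neg]; exact (abs_of_pos hκ).le,
        dist_lt_one ?_, one_lt_dist ?_⟩
      · rw [hd]; nlinarith
      · rw [hd, Real.cos_neg, Real.sin_neg]; nlinarith
    · rw [abs_of_neg hb0] at hsmall a1 a2 hl
      refine ⟨-κ, κ, by rw [abs_neg]; exact (abs_of_pos hκ).le, (abs_of_pos hκ).le,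
        dist_lt_one ?_, one_lt_dist ?_⟩
      · rw [hd, Real.cos_neg, Real.sin_neg]; nlinarith
      · rw [hd]; nlinarith
  refine C.cross_F (isPreconnected_Icc.image _ (continuous_circle z).continuousOn)
    (by rintro _ ⟨ψ, hψ, rfl⟩; exact h ψ hψ) ⟨φ + ψ₁, ?_, rfl⟩ ⟨φ + ψ₂, ?_, rfl⟩ e1 e2
  · obtain ⟨u, v⟩ := abs_le.1 m1; constructor <;> linarith
  · obtain ⟨u, v⟩ := abs_le.1 m2; constructor <;> linarith

/-- In every open set meeting the non-null points there is an isolated one. -/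
theorem exists_isolated (O : Set ℂ) (hO : IsOpen O)
    (hne : ∃ z ∈ O, z ∈ C.Tri ∧ ¬C.IsNull z) :
    ∃ z ∈ O, z ∈ C.Tri ∧ ¬C.IsNull z ∧
      ∃ r > 0, ∀ y ∈ ball z r, y ≠ z → y ∈ C.Tri → C.IsNull y := by
  classical
  by_contra hcon
  have noiso : ∀ z ∈ O, z ∈ C.Bad → ∀ r > 0, ∃ y ∈ ball z r, y ≠ z ∧ y ∈ C.Bad := by
    intro z hz hzB r hr
    by_contra hh
    push Not at hh
    refine hcon ⟨z, hz, hzB.1, hzB.2, r, hr, fun y hy hyz hT => ?_⟩
    by_contra hn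
    exact hh y hy hyz ⟨hT, hn⟩
  obtain ⟨z₁, hz₁O, hz₁T, hz₁N⟩ := hne
  obtain ⟨r₁, hr₁, hsub⟩ := Metric.nhds_basis_closedBall.mem_iff.1 (hO.mem_nhds hz₁O)
  obtain ⟨E, hEc, hE⟩ := C.exists_arcs
  haveI : Countable E := hEc.to_subtype
  let ι := E ⊕ (Finset (Fin 5) × Finset (Fin 5) × (Fin 5 → ℚ × ℚ) × ℕ)
  let Z : ι → Set ℂ := fun i => Sum.elim (fun e : E => {(e : ℂ)}) (fun w =>
    {z | w.2.1 ⊆ w.1 ∧ (w.1 \ w.2.1).card ≤ 2 ∧ (∀ c ∈ w.1, z ∈ C.F c) ∧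
      (∀ c ∉ w.1, ∀ v : ℂ, ‖v‖ < 1 / ((w.2.2.2 : ℝ) + 1) → z + v ∉ C.U c) ∧
      ∀ x ∈ w.2.1, (w.2.2.1 x).1 < (w.2.2.1 x).2 ∧
        ∀ φ ∈ Icc ((w.2.2.1 x).1 : ℝ) ((w.2.2.1 x).2), φ ∈ C.ang z x}) i
  have hZ : ∀ i, IsClosed (Z i) := by
    rintro (e | ⟨S, X, ab, k⟩)
    · exact isClosed_singleton
    · have hpre : ∀ (v : ℂ) (T : Set ℂ), IsClosed T → IsClosed {z : ℂ | z + v ∈ T} :=
        fun v T hT => hT.preimage (continuous_id.add continuous_const)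
      simp only [Z, Sum.elim_inr, Set.setOf_and, Set.setOf_forall, ang]
      exact isClosed_const.inter <| isClosed_const.inter <|
        (isClosed_iInter fun c => isClosed_iInter fun _ => C.isClosed_F c).inter <|
        (isClosed_iInter fun c => isClosed_iInter fun _ => isClosed_iInter fun v =>
          isClosed_iInter fun _ => hpre v _ (C.isOpen c).isClosed_compl).inter <|
        isClosed_iInter fun x => isClosed_iInter fun _ => isClosed_const.inter <|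
          isClosed_iInter fun φ => isClosed_iInter fun _ => hpre (cs φ) _ (C.isClosed_F x)
  have hcov : (C.Bad ∩ closedBall z₁ r₁) ∩ ball z₁ r₁ ⊆ ⋃ i, Z i := by
    rintro z ⟨⟨hzB, -⟩, -⟩
    by_cases hzE : z ∈ E
    · exact mem_iUnion.2 ⟨Sum.inl ⟨z, hzE⟩, rfl⟩
    obtain ⟨X, hX, hcard, harc⟩ := hE z hzB.1 hzE
    have hab : ∀ x, ∃ ab : ℚ × ℚ, x ∈ X →
        ab.1 < ab.2 ∧ ∀ φ ∈ Icc (ab.1 : ℝ) ab.2, φ ∈ C.ang z x := by
      intro x
      by_cases hx : x ∈ X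
      · obtain ⟨a, b, hab, hh⟩ := harc x hx
        exact ⟨(a, b), fun _ => ⟨hab, hh⟩⟩
      · exact ⟨(0, 0), fun h' => absurd h' hx⟩
    choose ab hab using hab
    obtain ⟨δ, hδ, hb⟩ := Metric.eventually_nhds_iff_ball.1 (C.S_nhds z)
    obtain ⟨k, hk⟩ := exists_nat_one_div_lt hδ
    refine mem_iUnion.2 ⟨Sum.inr (C.S z, X, ab, k), hX, hcard, fun c hc => C.mem_S.1 hc,
      fun c hc v hv hU => hc (hb (z + v) ?_ (C.mem_S.2 (C.U_subset_F c hU))), fun x hx => hab x hx⟩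
    rw [mem_ball, dist_eq_norm]; simpa using hv.trans hk
  obtain ⟨i, V, hV, hVW, ⟨zc, ⟨hzcB, -⟩, hzcV⟩, hVZ⟩ :=
    baire_piece ((isCompact_closedBall z₁ r₁).inter_left C.isClosed_Bad) isOpen_ball
      ⟨z₁, ⟨⟨hz₁T, hz₁N⟩, mem_closedBall_self hr₁.le⟩, mem_ball_self hr₁⟩ Z hZ hcov
  have hVO : V ⊆ O := fun y hy => hsub (ball_subset_closedBall (hVW hy))
  have hmem : ∀ y ∈ C.Bad, y ∈ V → y ∈ Z i := fun y hy hyV =>
    hVZ ⟨⟨hy, ball_subset_closedBall (hVW hyV)⟩, hyV⟩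
  obtain ⟨r₂, hr₂, hballV⟩ := Metric.isOpen_iff.1 hV zc hzcV
  rcases i with e | ⟨S0, X, ab, k⟩
  · obtain ⟨y, hy, hyne, hyB⟩ := noiso zc (hVO hzcV) hzcB r₂ hr₂
    exact hyne ((show y = (e : ℂ) from hmem y hyB (hballV hy)).trans
      (show zc = (e : ℂ) from hmem zc hzcB hzcV).symm)
  have hp : ∀ y ∈ C.Bad, y ∈ V → X ⊆ S0 ∧ (S0 \ X).card ≤ 2 ∧ (∀ c ∈ S0, y ∈ C.F c) ∧
      (∀ c ∉ S0, ∀ v : ℂ, ‖v‖ < 1 / ((k : ℝ) + 1) → y + v ∉ C.U c) ∧
      ∀ x ∈ X, (ab x).1 < (ab x).2 ∧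
        ∀ φ ∈ Icc ((ab x).1 : ℝ) (ab x).2, φ ∈ C.ang y x := hmem
  obtain ⟨hXS, hcard, hS0, hfree, harc⟩ := hp zc hzcB hzcV
  have hSc : C.S zc = S0 := by
    ext c
    refine ⟨fun hc => ?_, fun hc => C.mem_S.2 (hS0 c hc)⟩
    by_contra hcS
    refine C.not_F_of_open (isOpen_ball (x := zc) (ε := 1 / ((k : ℝ) + 1))) (i := c) ?_ zc
      (mem_ball_self (by positivity)) (C.mem_S.1 hc)
    intro y hy
    have := hfree c hcS (y - zc) (by rw [← dist_eq_norm]; exact hy)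
    simpa using this
  have h3 : 3 ≤ S0.card := hSc ▸ hzcB.1
  have hXne : X.Nonempty := by
    rw [Finset.nonempty_iff_ne_empty]; rintro rfl
    rw [Finset.sdiff_empty] at hcard; omega
  obtain ⟨x₀, hx₀⟩ := hXne
  -- one frame for each colour
  set mid : Fin 5 → ℝ := fun x => (((ab x).1 : ℝ) + (ab x).2) / 2 with hmid
  set κ : Fin 5 → ℝ := fun x => if x ∈ X then min ((((ab x).2 : ℝ) - (ab x).1) / 2) 1 else 1
    with hκ
  have hκ0 : ∀ x, 0 < κ x ∧ κ x ≤ 1 := by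
    intro x
    by_cases hx : x ∈ X
    · have : ((ab x).1 : ℝ) < (ab x).2 := by exact_mod_cast (harc x hx).1
      simp only [hκ, if_pos hx]
      exact ⟨lt_min (by linarith) one_pos, min_le_right _ _⟩
    · simp [hκ, if_neg hx]
  set γ : Fin 5 → ℝ := fun x => Real.sin (κ x) / 2 with hγ
  have hγ0 : ∀ x, 0 < γ x := fun x => by
    have := Real.sin_pos_of_pos_of_lt_pi (hκ0 x).1
      (by linarith [(hκ0 x).2, Real.two_le_pi])
    simp only [hγ]; linarith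
  obtain ⟨r₃, hr₃, hS3⟩ := Metric.eventually_nhds_iff_ball.1 (C.S_nhds zc)
  obtain ⟨R, hR, hR2, hR3, hRγ⟩ : ∃ R > 0, R < r₂ ∧ R < r₃ ∧ ∀ x, 4 * R < γ x := by
    set m := Finset.univ.inf' Finset.univ_nonempty γ with hm
    have hm0 : 0 < m := (Finset.lt_inf'_iff _).2 fun x _ => hγ0 x
    refine ⟨min (min r₂ r₃) (m / 4) / 2, by positivity, ?_, ?_, fun x => ?_⟩
    · linarith [min_le_left (min r₂ r₃) (m / 4), min_le_left r₂ r₃, hr₂]
    · linarith [min_le_left (min r₂ r₃) (m / 4), min_le_right r₂ r₃, hr₃]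
    · linarith [min_le_right (min r₂ r₃) (m / 4),
        Finset.inf'_le γ (Finset.mem_univ x)]
  have inV : ∀ y ∈ closedBall zc R, y ∈ V := fun y hy =>
    hballV (closedBall_subset_ball hR2 hy)
  have win : ∀ x ∈ X, C.Win zc R (mid x) (γ x) S0 x := by
    intro x hx
    refine ⟨hR, hγ0 x, by simp only [hγ]; linarith [Real.sin_le_one (κ x)], hRγ x, hzcB,
      fun y hy => (hS3 y (closedBall_subset_ball hR3 hy)).trans hSc.le,
      fun y hy hyR => (hp y hy (inV y hyR)).2.2.1 x (hXS hx), fun z hz hzR y h1 h2 h3 => ?_⟩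
    refine C.wedge_arc (hκ0 x).1 (hκ0 x).2 (fun ψ hψ => ?_) h1 h2 h3
    refine ((hp z hz (inV z hzR)).2.2.2.2 x hx).2 ψ ?_
    have hle : κ x ≤ (((ab x).2 : ℝ) - (ab x).1) / 2 := by
      simp only [hκ, if_pos hx]; exact min_le_left _ _
    constructor <;> · simp only [hmid] at hψ; linarith [hψ.1, hψ.2]
  -- three close points
  obtain ⟨ρ, hρ, hρR, hρs⟩ : ∃ ρ > 0, ρ < R ∧ ∀ x, ρ < γ x * R / 8 := by
    set m := Finset.univ.inf' Finset.univ_nonempty fun x => γ x * R / 8 with hm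
    have hm0 : 0 < m := (Finset.lt_inf'_iff _).2 fun x _ => by have := hγ0 x; positivity
    refine ⟨min R m / 2, by positivity, by linarith [min_le_left R m], fun x => ?_⟩
    linarith [min_le_right R m, Finset.inf'_le (fun x => γ x * R / 8) (Finset.mem_univ x)]
  have hcl : ∀ z, z ∈ ball zc ρ → z ∈ closedBall zc R := fun z hz =>
    mem_closedBall.2 (le_of_lt (lt_trans (mem_ball.1 hz) hρR))
  have w : ∀ x, ∀ z ∈ ball zc ρ, |sc (mid x) z - sc (mid x) zc| < γ x * R / 8 := fun x z hz =>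
    lt_of_le_of_lt (abs_sc_le _ _ _) (lt_trans (mem_ball.1 hz) (hρs x))
  have hOball : ∀ z ∈ ball zc ρ, z ∈ O := fun z hz => hVO (inV z (hcl z hz))
  -- a point between two others in every frame
  have between_all : ∀ s : Finset (Fin 5), s ⊆ X → ∃ z₀ ∈ ball zc ρ, z₀ ∈ C.Bad ∧
      ∃ W, IsOpen W ∧ z₀ ∈ W ∧ W ⊆ ball zc ρ ∧ ∀ x ∈ s, ∃ zm zp, zm ∈ C.Bad ∧ zp ∈ C.Bad ∧
        zm ∈ ball zc ρ ∧ zp ∈ ball zc ρ ∧
        ∀ y ∈ W, sc (mid x) zm < sc (mid x) y ∧ sc (mid x) y < sc (mid x) zp := by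
    intro s
    induction s using Finset.induction with
    | empty =>
      intro _
      exact ⟨zc, mem_ball_self hρ, hzcB, ball zc ρ, isOpen_ball, mem_ball_self hρ, subset_rfl,
        fun x hx => absurd hx (Finset.notMem_empty x)⟩
    | insert x s hxs ih =>
      intro hsX
      obtain ⟨a, ha, haB, W, hW, haW, hWρ, hWs⟩ := ih ((Finset.subset_insert x s).trans hsX)
      obtain ⟨δ, hδ, hbW⟩ := Metric.isOpen_iff.1 hW a haW
      obtain ⟨b, hb, hba, hbB⟩ := noiso a (hOball a ha) haB δ hδ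
      obtain ⟨c, hc, hca, hcB⟩ := noiso a (hOball a ha) haB (dist b a) (dist_pos.2 hba)
      have hcW : c ∈ W := hbW (lt_trans (mem_ball.1 hc) (mem_ball.1 hb))
      have hbc : b ≠ c := fun e => lt_irrefl _ (e ▸ mem_ball.1 hc)
      have hw := win x (hsX (Finset.mem_insert_self x s))
      have inj : ∀ y z, y ∈ C.Bad → y ∈ W → z ∈ C.Bad → z ∈ W → y ≠ z →
          sc (mid x) y ≠ sc (mid x) z := fun y z hy hyW hz hzW hne e =>
        hne (hw.sc_inj hz (hcl z (hWρ hzW)) hy (hcl y (hWρ hyW)) e)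
      have finish : ∀ zm z₀ zp, zm ∈ C.Bad → z₀ ∈ C.Bad → zp ∈ C.Bad → zm ∈ W → z₀ ∈ W →
          zp ∈ W → sc (mid x) zm < sc (mid x) z₀ → sc (mid x) z₀ < sc (mid x) zp →
          ∃ z₀ ∈ ball zc ρ, z₀ ∈ C.Bad ∧ ∃ W, IsOpen W ∧ z₀ ∈ W ∧ W ⊆ ball zc ρ ∧
            ∀ x' ∈ insert x s, ∃ zm zp, zm ∈ C.Bad ∧ zp ∈ C.Bad ∧
              zm ∈ ball zc ρ ∧ zp ∈ ball zc ρ ∧
              ∀ y ∈ W, sc (mid x') zm < sc (mid x') y ∧ sc (mid x') y < sc (mid x') zp := by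
        intro zm z₀ zp bm b0 bp wm w0 wp o1 o2
        refine ⟨z₀, hWρ w0, b0,
          W ∩ (sc (mid x) ⁻¹' Ioo (sc (mid x) zm) (sc (mid x) zp)),
          hW.inter (isOpen_Ioo.preimage (continuous_sc _)), ⟨w0, o1, o2⟩,
          inter_subset_left.trans hWρ, fun x' hx' => ?_⟩
        rcases Finset.mem_insert.1 hx' with rfl | hx'
        · exact ⟨zm, zp, bm, bp, hWρ wm, hWρ wp, fun y hy => hy.2⟩
        · obtain ⟨um, up, r1, r2, r3, r4, r5⟩ := hWs x' hx'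
          exact ⟨um, up, r1, r2, r3, r4, fun y hy => r5 y hy.1⟩
      have hbW' : b ∈ W := hbW hb
      rcases three_mid (inj a b haB haW hbB hbW' hba.symm) (inj a c haB haW hcB hcW hca.symm)
        (inj b c hbB hbW' hcB hcW hbc)
        with ⟨o1, o2⟩ | ⟨o1, o2⟩ | ⟨o1, o2⟩ | ⟨o1, o2⟩ | ⟨o1, o2⟩ | ⟨o1, o2⟩
      · exact finish a b c haB hbB hcB haW hbW' hcW o1 o2
      · exact finish c b a hcB hbB haB hcW hbW' haW o1 o2
      · exact finish b a c hbB haB hcB hbW' haW hcW o1 o2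
      · exact finish c a b hcB haB hbB hcW haW hbW' o1 o2
      · exact finish a c b haB hcB hbB haW hcW hbW' o1 o2
      · exact finish b c a hbB hcB haB hbW' hcW haW o1 o2
  obtain ⟨z₀, d0, b0, W, -, hz₀W, -, hWs⟩ := between_all X subset_rfl
  refine b0.2 ?_
  have hr₀ : 0 < R - ρ := by linarith
  have hr₀S : ball z₀ (R - ρ) ⊆ ball zc R :=
    ball_subset_ball' (by linarith [mem_ball.1 d0])
  have hx : ∀ x ∈ X, ∃ r > 0, ∀ A, C.Good A → closure A ⊆ ball z₀ r ∩ ball zc R →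
      ∀ᶠ n in atTop, ∀ c, C.cl n A x c = 0 := by
    intro x hx
    obtain ⟨zm, zp, bm, bp, dm, dp, hord⟩ := hWs x hx
    exact (win x hx).cl_x bm bp (hcl _ dm) (hcl _ dp) (w x _ dm) (w x _ dp)
      (hord z₀ hz₀W).1 (hord z₀ hz₀W).2
  choose rx hrx hrx' using hx
  set r := min (R - ρ) ((X.attach.inf' ⟨⟨x₀, hx₀⟩, Finset.mem_attach _ _⟩) fun x => rx x.1 x.2) with hr
  have hrpos : 0 < r := lt_min hr₀ ((Finset.lt_inf'_iff _).2 fun x _ => hrx x.1 x.2)
  refine ⟨r, hrpos, fun A hA hAr => ?_⟩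
  have hAR : closure A ⊆ ball zc R :=
    hAr.trans ((ball_subset_ball (min_le_left _ _)).trans hr₀S)
  have hz1 : ∀ x ∈ X, ∀ᶠ n in atTop, ∀ c, C.cl n A x c = 0 := fun x hx =>
    hrx' x hx A hA (subset_inter (hAr.trans (ball_subset_ball ((min_le_right _ _).trans
      (Finset.inf'_le (fun x : X => rx x.1 x.2) (Finset.mem_attach _ ⟨x, hx⟩))))) hAR)
  have hz2 : ∀ᶠ n in atTop, ∀ p, p ∉ S0 → ∀ q, C.cl n A p q = 0 :=
    eventually_all.2 fun p => eventually_imp_distrib_left.2 fun hp => eventually_all.2 fun q =>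
      C.cl_zero hA.bdd fun y hy hyp => absurd
        ((win x₀ hx₀).colours y (ball_subset_closedBall (hAR (frontier_subset_closure hy)))
          (C.mem_S.2 hyp)) hp
  filter_upwards [(eventually_all_finset X).2 hz1, hz2] with n h1 h2 p q
  have hzero : ∀ p q, p ∉ S0 \ X → C.cl n A p q = 0 := fun p q hp => by
    by_cases hpX : p ∈ X
    · exact h1 p hpX q
    · exact h2 p (fun hh => hp (Finset.mem_sdiff.2 ⟨hh, hpX⟩)) q
  by_cases hp : p ∈ S0 \ X
  swap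
  · exact hzero p q hp
  by_cases hq : q ∈ S0 \ X
  swap
  · rw [C.cl_comm]; exact hzero q p hq
  by_cases hpq : p = q
  · rw [hpq, C.cl_self]
  have hpair : S0 \ X = {p, q} := (Finset.eq_of_subset_of_card_le
    (Finset.insert_subset hp (Finset.singleton_subset_iff.2 hq))
    (by rw [Finset.card_pair hpq]; exact hcard)).symm
  have hsum := C.cl_star (n := n) hA.bdd p
  rw [Finset.sum_eq_single q] at hsum
  · exact hsum
  · intro b _ hb
    by_cases hbp : b = p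
    · rw [hbp, C.cl_self]
    · rw [C.cl_comm]
      exact hzero b p (by rw [hpair]; simp [hb, hbp])
  · exact fun hh => absurd (Finset.mem_univ q) hh

end Col

end Vale.P032
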